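import Vale.Agent.P246.Gen.J
import Vale.Agent.P246.Q24.F

/-!
# Cramer's rule over `Dbl R b`
-/

set_option linter.all false

namespace Vale.Agent.P246.Q32

open Vale.Agent.P246 Vale.Agent.P246.Q24 Vale.Agent.P246.Gen

section

variable {R : Type} [CommRing R] [Invo R] {b : Bool}

/-- a pair as a row vector -/
def vc (z0 z1 : Dbl R b) : Fin 2 ⊕ Fin 2 → R := Sum.elim ![z0.fst, z0.snd] ![z1.fst, z1.snd]

theorem vc_mul (z0 z1 : Dbl R b) (M : Matrix (Fin 2) (Fin 2) (Dbl R b)) :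
    Matrix.vecMul (vc z0 z1) (big M) = vc (z0 * M 0 0 + z1 * M 1 0) (z0 * M 0 1 + z1 * M 1 1) := by
  funext i
  rcases i with i | i <;> fin_cases i <;>
    simp [big, Dbl.rho, vc, Matrix.vecMul, dotProduct, Fintype.sum_sum_type, Fin.sum_univ_two] <;>
    ring

theorem vc_inj {z0 z1 w0 w1 : Dbl R b} (h : vc z0 z1 = vc w0 w1) : z0 = w0 ∧ z1 = w1 := by
  have h1 := congrFun h (Sum.inl 0)
  have h2 := congrFun h (Sum.inl 1)
  have h3 := congrFun h (Sum.inr 0)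
  have h4 := congrFun h (Sum.inr 1)
  exact ⟨Dbl.ext h1 h2, Dbl.ext h3 h4⟩

theorem exists_vc (v : Fin 2 ⊕ Fin 2 → R) : ∃ z0 z1 : Dbl R b, v = vc z0 z1 := by
  refine ⟨⟨v (Sum.inl 0), v (Sum.inl 1)⟩, ⟨v (Sum.inr 0), v (Sum.inr 1)⟩, ?_⟩
  funext i
  rcases i with i | i <;> fin_cases i <;> rfl

/-- the determinant of the matrix with rows `(c, d)` and `(w0, w1)` -/
def D2 (c d w0 w1 : Dbl R b) : R := Dt !![c, d; w0, w1]

theorem cramer (c d v0 v1 w0 w1 : Dbl R b) : ∃ s t : Dbl R b,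
    Dbl.C (D2 c d v0 v1) * w0 = s * c + t * v0 ∧ Dbl.C (D2 c d v0 v1) * w1 = s * d + t * v1 := by
  obtain ⟨s, t, hst⟩ := exists_vc (b := b)
    (Matrix.vecMul (vc w0 w1) (big !![c, d; v0, v1]).adjugate)
  have h1 : Matrix.vecMul (Matrix.vecMul (vc w0 w1) (big !![c, d; v0, v1]).adjugate)
      (big !![c, d; v0, v1]) = D2 c d v0 v1 • vc w0 w1 := by
    rw [Matrix.vecMul_vecMul, Matrix.adjugate_mul, Matrix.vecMul_smul, Matrix.vecMul_one]
    rfl
  rw [hst, vc_mul] at h1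
  have h2 : D2 c d v0 v1 • vc w0 w1 = vc (Dbl.C (D2 c d v0 v1) * w0) (Dbl.C (D2 c d v0 v1) * w1) := by
    funext i
    rcases i with i | i <;> fin_cases i <;> simp [vc]
  rw [h2] at h1
  obtain ⟨h3, h4⟩ := vc_inj h1
  refine ⟨s, t, ?_, ?_⟩
  · rw [← h3]; simp
  · rw [← h4]; simp

theorem D2_smul (c d w0 w1 z : Dbl R b) : D2 c d (z * w0) (z * w1) = Dbl.nrd z * D2 c d w0 w1 := by
  have h : !![c, d; z * w0, z * w1] = !![1, 0; 0, z] * !![c, d; w0, w1] := by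
    apply Matrix.ext
    intro i j
    fin_cases i <;> fin_cases j <;> simp [Matrix.mul_apply, Fin.sum_univ_two]
  have h1 : Dbl.nrd (1 : Dbl R b) = 1 := by simp [Dbl.nrd]
  rw [D2, h, Dt_mul, Dt_upper, h1, one_mul, D2]

theorem D2_conj (c d w0 w1 : Dbl R b) : conj (D2 c d w0 w1) = D2 c d w0 w1 := conj_Dt _

theorem D2_schur (c d w0 w1 : Dbl R b) : Dbl.nrd c * (Dbl.nrd c * D2 c d w0 w1) = Dbl.nrd c *
    Dbl.nrd (Dbl.C (Dbl.nrd c) * w1 - w0 * Dbl.star c * d) := by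
  have h := Dt_schur !![c, d; w0, w1]
  rw [← mul_assoc]
  exact h

theorem D2_swap (d w0 w1 : Dbl R b) : D2 0 d w0 w1 = Dbl.nrd d * Dbl.nrd w0 := by
  have h := Dt_swap !![0, d; w0, w1] rfl
  exact h

end

/-- in the kernel of a unimodular column: Cramer's rule -/
theorem cramer_ker {R : Type} [CommRing R] [Invo R] {i : Bool} {a b c d : Dbl R i}
    (h : c * a + d * b = 1) {v0 v1 w0 w1 : Dbl R i} (hv : v0 * a + v1 * b = 0)
    (hw : w0 * a + w1 * b = 0) : ∃ t : Dbl R i, Dbl.C (D2 c d v0 v1) * w0 = t * v0 ∧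
      Dbl.C (D2 c d v0 v1) * w1 = t * v1 := by
  obtain ⟨s, t, h1, h2⟩ := cramer c d v0 v1 w0 w1
  have hs : s = 0 := by
    have e1 : Dbl.C (D2 c d v0 v1) * w0 * a + Dbl.C (D2 c d v0 v1) * w1 * b = 0 := by
      rw [mul_assoc, mul_assoc, ← mul_add, hw, mul_zero]
    rw [h1, h2] at e1
    have e2 : (s * c + t * v0) * a + (s * d + t * v1) * b =
      s * (c * a + d * b) + t * (v0 * a + v1 * b) := by noncomm_ring
    rw [e2, h, hv, mul_one, mul_zero, add_zero] at e1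
    exact e1
  rw [hs, zero_mul, zero_add] at h1 h2
  exact ⟨t, h1, h2⟩

end Vale.Agent.P246.Q32
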