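import Vale.Agent.P246.Q32.Proj

/-!
# The obstruction character
-/

set_option linter.all false

namespace Vale.Agent.P246.Q32

open Vale.Agent.P246 Vale.Agent.P246.Q24

/-- the ring homomorphism `a + b t ↦ f a + c f b`, `c² = f s` -/
def Qs.lift {K L : Type} [CommRing K] [CommRing L] {s : K} (f : K →+* L) (c : L)
    (hc : c * c = f s) : Qs K s →+* L where
  toFun := fun x => f x.re + c * f x.im
  map_one' := by simp
  map_zero' := by simp
  map_add' := fun x y => by simp; ring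
  map_mul' := fun x y => by
    simp only [Qs.mul_re, Qs.mul_im, map_add, map_mul]
    linear_combination (-(f x.im * f y.im)) * hc

/-- augmentation on `A[C_4]` -/
def aug4 (A : Type) [CommRing A] : R4 A 1 →+* A :=
  Qs.lift (Qs.lift (RingHom.id A) 1 (by simp)) 1 (by simp [Qs.lift])

/-- `x ↦ 1` -/
def aug8 (A : Type) [CommRing A] : R8 A 1 →+* A :=
  Qs.lift (aug4 A) 1 (by simp [aug4, Qs.lift])

/-- `x ↦ -1` -/
def aug8' (A : Type) [CommRing A] : R8 A 1 →+* A :=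
  Qs.lift (aug4 A) (-1) (by simp [aug4, Qs.lift])

theorem chi_rS {D D' : S8} (hD : conj D = D) (h : D * D' = 1) : chi (rS D) = 0 := by
  have h1 : (aug8 ℤ D) * (aug8 ℤ D') = 1 := by rw [← map_mul, h, map_one]
  have h2 : (aug8' ℤ D) * (aug8' ℤ D') = 1 := by rw [← map_mul, h, map_one]
  have h3 := Int.isUnit_iff.1 (IsUnit.of_mul_eq_one _ h1)
  have h4 := Int.isUnit_iff.1 (IsUnit.of_mul_eq_one _ h2)
  have e1 : aug8 ℤ D = (D.re.re.re + 1 * D.re.re.im) + 1 * (D.re.im.re + 1 * D.re.im.im) +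
    1 * ((D.im.re.re + 1 * D.im.re.im) + 1 * (D.im.im.re + 1 * D.im.im.im)) := rfl
  have e2 : aug8' ℤ D = (D.re.re.re + 1 * D.re.re.im) + 1 * (D.re.im.re + 1 * D.re.im.im) +
    (-1) * ((D.im.re.re + 1 * D.im.re.im) + 1 * (D.im.im.re + 1 * D.im.im.im)) := rfl
  rw [e1] at h3
  rw [e2] at h4
  have c1 := congrArg (fun z : S8 => z.im.re.re) hD
  have c2 := congrArg (fun z : S8 => z.im.im.re) hD
  simp only [Qs.conj_re, Qs.conj_im, conj_int, Qs.mul_re, Qs.mul_im, Qs.gen_re, Qs.gen_im] at c1 c2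
  simp at c1 c2
  have h5 : D.im.re.re + D.im.im.re = 0 := by omega
  have h6 : chi (rS D) = zF2 (D.im.re.re) + zF2 (D.im.im.re) := rfl
  rw [h6, ← map_add, h5, map_zero]

/-- symmetric elements of `𝔽_2[C_8]` -/
def sym5 (n0 n1 n2 n3 n4 : F2) : F8 := ⟨⟨⟨n0, n4⟩, ⟨n2, n2⟩⟩, ⟨⟨n1, n3⟩, ⟨n3, n1⟩⟩⟩

theorem sym5_spec : ∀ x : F8, conj x = x → ∃ n0 n1 n2 n3 n4, x = sym5 n0 n1 n2 n3 n4 := by
  decide +kernel

theorem chi_sym5 : ∀ n0 n1 n2 n3 n4 m0 m1 m2 m3 m4 : F2, n0 + n4 = 1 → m0 + m4 = 1 →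
    chi (sym5 n0 n1 n2 n3 n4 * sym5 m0 m1 m2 m3 m4) =
      chi (sym5 n0 n1 n2 n3 n4) + chi (sym5 m0 m1 m2 m3 m4) := by
  decide +kernel

theorem aug_sym5 : ∀ n0 n1 n2 n3 n4 : F2, aug8 F2 (sym5 n0 n1 n2 n3 n4) = n0 + n4 := by
  decide +kernel

theorem chi_mul {x y : F8} (hx : conj x = x) (hy : conj y = y) (hx1 : aug8 F2 x = 1)
    (hy1 : aug8 F2 y = 1) : chi (x * y) = chi x + chi y := by
  obtain ⟨n0, n1, n2, n3, n4, rfl⟩ := sym5_spec x hx
  obtain ⟨m0, m1, m2, m3, m4, rfl⟩ := sym5_spec y hy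
  rw [aug_sym5] at hx1 hy1
  exact chi_sym5 _ _ _ _ _ _ _ _ _ _ hx1 hy1

theorem F2_one {x y : F2} (h : x * y = 1) : x = 1 := by revert x y; decide

theorem aug_unit {x y : F8} (h : x * y = 1) : aug8 F2 x = 1 := by
  have h1 : (aug8 F2 x) * (aug8 F2 y) = 1 := by rw [← map_mul, h, map_one]
  exact F2_one h1

theorem AA_two (x : AA) : x + x = 0 := by
  have h : ∀ z : F2, z + z = 0 := by decide
  ext <;> simp [h]

end Vale.Agent.P246.Q32
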