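import Vale.Agent.P246.Gen.J

/-!
# Gluing kernels of unimodular columns along a fibre square: abstract version
-/

set_option linter.all false

namespace Vale.Agent.P246.Q32

open Vale.Agent.P246 Vale.Agent.P246.Q24 Vale.Agent.P246.Gen

/-- a linear relation which is total and unique in both directions is an isomorphism -/
theorem equiv_of_rel {R : Type} [Ring R] {M N : Type} [AddCommGroup M] [Module R M]
    [AddCommGroup N] [Module R N] (Rel : M → N → Prop)
    (hadd : ∀ x x' y y', Rel x x' → Rel y y' → Rel (x + y) (x' + y'))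
    (hsmul : ∀ (c : R) x x', Rel x x' → Rel (c • x) (c • x'))
    (t1 : ∀ x, ∃ x', Rel x x') (t2 : ∀ x', ∃ x, Rel x x')
    (u1 : ∀ x', Rel 0 x' → x' = 0) (u2 : ∀ x, Rel x 0 → x = 0) : Nonempty (M ≃ₗ[R] N) := by
  have uniq : ∀ x x' x'', Rel x x' → Rel x x'' → x' = x'' := by
    intro x x' x'' h1 h2
    have h3 := hsmul (-1) _ _ h2
    have h4 := hadd _ _ _ _ h1 h3
    have e1 : x + (-1 : R) • x = 0 := by rw [neg_one_smul, add_neg_cancel]
    rw [e1] at h4
    have h5 := u1 _ h4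
    rw [neg_one_smul, add_neg_eq_zero] at h5
    exact h5
  choose f hf using t1
  let F : M →ₗ[R] N :=
    { toFun := f
      map_add' := fun x y => uniq _ _ _ (hf _) (hadd _ _ _ _ (hf x) (hf y))
      map_smul' := fun c x => uniq _ _ _ (hf _) (hsmul c _ _ (hf x)) }
  refine ⟨LinearEquiv.ofBijective F ⟨?_, ?_⟩⟩
  · rw [← LinearMap.ker_eq_bot, LinearMap.ker_eq_bot']
    intro x hx
    apply u2
    have h1 := hf x
    have h2 : f x = 0 := hx
    rwa [h2] at h1
  · intro x'
    obtain ⟨x, hx⟩ := t2 x'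
    exact ⟨x, uniq _ _ _ (hf x) hx⟩

/-- an invertible matrix completing the column `(a, b)` -/
structure Cmp {T : Type} [Ring T] (a b : T) (g k : Matrix (Fin 2) (Fin 2) T) : Prop where
  gk : g * k = 1
  kg : k * g = 1
  h0 : g 0 0 * a + g 0 1 * b = 1
  h1 : g 1 0 * a + g 1 1 * b = 0

theorem Cmp.KG {T : Type} [Ring T] {a b : T} {g k : Matrix (Fin 2) (Fin 2) T} (h : Cmp a b g k) :
    KG a b (g 1 0) (g 1 1) := KG_of_inv h.gk h.kg h.h0 h.h1

theorem Cmp.map {T S : Type} [Ring T] [Ring S] (f : T →+* S) {a b : T}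
    {g k : Matrix (Fin 2) (Fin 2) T} (h : Cmp a b g k) :
    Cmp (f a) (f b) (f.mapMatrix g) (f.mapMatrix k) where
  gk := by rw [← map_mul, h.gk, map_one]
  kg := by rw [← map_mul, h.kg, map_one]
  h0 := by
    simp only [RingHom.mapMatrix_apply, Matrix.map_apply]
    rw [← map_mul, ← map_mul, ← map_add, h.h0, map_one]
  h1 := by
    simp only [RingHom.mapMatrix_apply, Matrix.map_apply]
    rw [← map_mul, ← map_mul, ← map_add, h.h1, map_zero]

/-- coefficients with respect to generators -/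
theorem coef_unique {T : Type} [Ring T] {u v r s x y t : T} (hrs : u * r + v * s = 1)
    (hx : x = t * u) (hy : y = t * v) : x * r + y * s = t := by
  rw [hx, hy]
  calc t * u * r + t * v * s = t * (u * r + v * s) := by noncomm_ring
    _ = t := by rw [hrs, mul_one]

/-- an upper triangular matrix -/
def gup {A : Type} [Ring A] (s d : A) : Matrix (Fin 2) (Fin 2) A := !![1, s; 0, d]

/-- a fibre square of rings `L = P ×_A G` with `A = G/2` -/
structure FSq (L P G A : Type) [Ring L] [Ring P] [Ring G] [Ring A] where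
  p : L →+* P
  q : L →+* G
  f : P →+* A
  h : G →+* A
  comm : ∀ l, f (p l) = h (q l)
  inj : ∀ l, p l = 0 → q l = 0 → l = 0
  surj : ∀ x y, f x = h y → ∃ l, p l = x ∧ q l = y
  hsurj : ∀ z, ∃ m, h m = z
  hker : ∀ m, h m = 0 → ∃ m', m = m' + m'
  two : ∀ m : G, m + m = 0 → m = 0
  char2 : ∀ z : A, z + z = 0

namespace FSq

variable {L P G A : Type} [Ring L] [Ring P] [Ring G] [Ring A] (S : FSq L P G A)

/-- the kernel over `G` -/
abbrev K (a b : L) : Type := LinearMap.ker (colR (S.q a) (S.q b))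

theorem mem_K {a b : L} {v : Fin 2 → G} : v ∈ LinearMap.ker (colR (S.q a) (S.q b)) ↔
    v 0 * S.q a + v 1 * S.q b = 0 := Iff.rfl

/-- the image of an element of the kernel -/
def im {a b : L} (x : LinearMap.ker (colR a b)) : S.K a b :=
  ⟨fun i => S.q (x.1 i), by
    have h : x.1 0 * a + x.1 1 * b = 0 := x.2
    rw [S.mem_K, ← map_mul, ← map_mul, ← map_add, h, map_zero]⟩

theorem im_add {a b : L} (x y : LinearMap.ker (colR a b)) : S.im (x + y) = S.im x + S.im y := by
  apply Subtype.ext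
  funext i
  exact map_add S.q _ _

theorem im_smul {a b : L} (c : L) (x : LinearMap.ker (colR a b)) :
    S.im (c • x) = S.q c • S.im x := by
  apply Subtype.ext
  funext i
  exact map_mul S.q _ _

theorem exists_cmp (TRP : TR P) {a b c d : L} (h : c * a + d * b = 1) :
    ∃ g k, Cmp (S.p a) (S.p b) g k := by
  obtain ⟨g, k, g1, g2, g3, g4⟩ := TRP (S.p a) (S.p b) (S.p c) (S.p d) (by
    rw [← map_mul, ← map_mul, ← map_add, h, map_one])
  exact ⟨g, k, g1, g2, g3, g4⟩

/-- the coordinate modulo two -/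
def bet {a b : L} (k : Matrix (Fin 2) (Fin 2) P) (w : S.K a b) : A :=
  S.h (w.1 0) * S.f (k 0 1) + S.h (w.1 1) * S.f (k 1 1)

theorem bet_add {a b : L} (k : Matrix (Fin 2) (Fin 2) P) (w w' : S.K a b) :
    S.bet k (w + w') = S.bet k w + S.bet k w' := by
  change S.h (w.1 0 + w'.1 0) * S.f (k 0 1) + S.h (w.1 1 + w'.1 1) * S.f (k 1 1) = _
  rw [map_add, map_add, bet, bet]
  noncomm_ring

theorem bet_smul {a b : L} (k : Matrix (Fin 2) (Fin 2) P) (c : G) (w : S.K a b) :
    S.bet k (c • w) = S.h c * S.bet k w := by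
  change S.h (c * w.1 0) * S.f (k 0 1) + S.h (c * w.1 1) * S.f (k 1 1) = _
  rw [map_mul, map_mul, bet]
  noncomm_ring

theorem bet_two {a b : L} (k : Matrix (Fin 2) (Fin 2) P) (w : S.K a b) : S.bet k (w + w) = 0 := by
  rw [bet_add, S.char2]

section

variable {a b : L} {g k : Matrix (Fin 2) (Fin 2) P} (hc : Cmp (S.p a) (S.p b) g k)

include hc

theorem KGA : KG (S.h (S.q a)) (S.h (S.q b)) (S.f (g 1 0)) (S.f (g 1 1)) := by
  have h := (hc.map S.f).KG
  rw [S.comm, S.comm] at h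
  exact h

theorem rsA : S.f (g 1 0) * S.f (k 0 1) + S.f (g 1 1) * S.f (k 1 1) = 1 := by
  have h := congrFun (congrFun hc.gk 1) 1
  simp only [Matrix.mul_apply, Fin.sum_univ_two, Matrix.one_apply_eq] at h
  rw [← map_mul, ← map_mul, ← map_add, h, map_one]

theorem bet_spec (w : S.K a b) : S.h (w.1 0) = S.bet k w * S.f (g 1 0) ∧
    S.h (w.1 1) = S.bet k w * S.f (g 1 1) := by
  have h0 : w.1 0 * S.q a + w.1 1 * S.q b = 0 := w.2
  obtain ⟨t, h1, h2⟩ := (S.KGA hc).gen (S.h (w.1 0)) (S.h (w.1 1)) (by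
    rw [← map_mul, ← map_mul, ← map_add, h0, map_zero])
  have h3 : S.bet k w = t := coef_unique (S.rsA hc) h1 h2
  rw [h3]
  exact ⟨h1, h2⟩

/-- an element of the kernel over `G` with coordinate `1` -/
theorem bet_one {c d : L} (h : c * a + d * b = 1) : ∃ w : S.K a b, S.bet k w = 1 := by
  obtain ⟨u, hu⟩ := S.hsurj (S.f (g 1 0))
  obtain ⟨v, hv⟩ := S.hsurj (S.f (g 1 1))
  have hG : S.q c * S.q a + S.q d * S.q b = 1 := by
    rw [← map_mul, ← map_mul, ← map_add, h, map_one]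
  obtain ⟨t, ht'⟩ : ∃ t, t = u * S.q a + v * S.q b := ⟨_, rfl⟩
  have ht : S.h t = 0 := by
    rw [ht', map_add, map_mul, map_mul, hu, hv]
    exact (S.KGA hc).ker
  refine ⟨⟨![u - t * S.q c, v - t * S.q d], ?_⟩, ?_⟩
  · change (u - t * S.q c) * S.q a + (v - t * S.q d) * S.q b = 0
    have : (u - t * S.q c) * S.q a + (v - t * S.q d) * S.q b =
      (u * S.q a + v * S.q b) - t * (S.q c * S.q a + S.q d * S.q b) := by noncomm_ring
    rw [this, hG, mul_one, ht', sub_self]
  · change S.h (u - t * S.q c) * S.f (k 0 1) + S.h (v - t * S.q d) * S.f (k 1 1) = 1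
    rw [map_sub, map_sub, map_mul, map_mul, ht, zero_mul, zero_mul, sub_zero, sub_zero, hu, hv]
    exact S.rsA hc

theorem bet_zero (w : S.K a b) (h : S.bet k w = 0) : ∃ w' : S.K a b, w = w' + w' := by
  obtain ⟨h0, h1⟩ := S.bet_spec hc w
  rw [h, zero_mul] at h0 h1
  obtain ⟨u, hu⟩ := S.hker _ h0
  obtain ⟨v, hv⟩ := S.hker _ h1
  refine ⟨⟨![u, v], ?_⟩, ?_⟩
  · change u * S.q a + v * S.q b = 0
    apply S.two
    have h2 : w.1 0 * S.q a + w.1 1 * S.q b = 0 := w.2
    rw [hu, hv] at h2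
    have : (u * S.q a + v * S.q b) + (u * S.q a + v * S.q b) =
      (u + u) * S.q a + (v + v) * S.q b := by noncomm_ring
    rw [this, h2]
  · apply Subtype.ext
    funext i
    fin_cases i
    · exact hu
    · exact hv

/-- the matrix identity modulo two -/
theorem mat_bet {c d : L} (h : c * a + d * b = 1) (w : S.K a b) :
    ∃ s, S.h.mapMatrix !![S.q c, S.q d; w.1 0, w.1 1] =
      gup s (S.bet k w) * S.f.mapMatrix g := by
  obtain ⟨h0, h1⟩ := S.bet_spec hc w
  have hA : S.h (S.q c) * S.h (S.q a) + S.h (S.q d) * S.h (S.q b) = 1 := by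
    have h2 := congrArg S.h (congrArg S.q h)
    simpa only [map_add, map_mul, map_one] using h2
  have hg : S.f (g 0 0) * S.h (S.q a) + S.f (g 0 1) * S.h (S.q b) = 1 := by
    rw [← S.comm, ← S.comm, ← map_mul, ← map_mul, ← map_add, hc.h0, map_one]
  obtain ⟨s, hs0, hs1⟩ := (S.KGA hc).gen (S.h (S.q c) - S.f (g 0 0)) (S.h (S.q d) - S.f (g 0 1)) (by
    have : (S.h (S.q c) - S.f (g 0 0)) * S.h (S.q a) + (S.h (S.q d) - S.f (g 0 1)) * S.h (S.q b) =
      (S.h (S.q c) * S.h (S.q a) + S.h (S.q d) * S.h (S.q b)) -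
      (S.f (g 0 0) * S.h (S.q a) + S.f (g 0 1) * S.h (S.q b)) := by noncomm_ring
    rw [this, hA, hg, sub_self])
  refine ⟨s, ?_⟩
  apply Matrix.ext
  intro i j
  fin_cases i <;> fin_cases j
  · simp [gup, Matrix.mul_apply, Fin.sum_univ_two, ← hs0]
  · simp [gup, Matrix.mul_apply, Fin.sum_univ_two, ← hs1]
  · simp [gup, Matrix.mul_apply, Fin.sum_univ_two, h0]
  · simp [gup, Matrix.mul_apply, Fin.sum_univ_two, h1]

end

section

variable {a b a' b' : L} {g k g' k' : Matrix (Fin 2) (Fin 2) P} (hc : Cmp (S.p a) (S.p b) g k)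
  (hc' : Cmp (S.p a') (S.p b') g' k') (θ : S.K a b ≃ₗ[G] S.K a' b')

include hc

/-- an isomorphism over `G` acts on coordinates modulo two by a right multiplication -/
theorem bet_theta {w1 : S.K a b} (hw1 : S.bet k w1 = 1) (w : S.K a b) :
    S.bet k' (θ w) = S.bet k w * S.bet k' (θ w1) := by
  obtain ⟨m, hm⟩ := S.hsurj (S.bet k w)
  have h1 : S.bet k (w + (-m) • w1) = 0 := by
    rw [bet_add, bet_smul, map_neg, hm, hw1, mul_one, add_neg_cancel]
  obtain ⟨w'', hw''⟩ := S.bet_zero hc _ h1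
  have h2 : S.bet k' (θ (w + (-m) • w1)) = 0 := by
    rw [hw'', map_add, bet_two]
  rw [map_add, map_smul, bet_add, bet_smul, map_neg, hm, neg_mul, add_neg_eq_zero] at h2
  exact h2

/-- the unit attached to an isomorphism -/
theorem theta_unit {w1 : S.K a b} (hw1 : S.bet k w1 = 1) {w1' : S.K a' b'}
    (hw1' : S.bet k' w1' = 1) (hc' : Cmp (S.p a') (S.p b') g' k') :
    S.bet k' (θ w1) * S.bet k (θ.symm w1') = 1 ∧ S.bet k (θ.symm w1') * S.bet k' (θ w1) = 1 := by
  constructor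
  · have h1 := S.bet_theta hc' θ.symm hw1' (k' := k) (θ w1)
    rw [LinearEquiv.symm_apply_apply, hw1] at h1
    exact h1.symm
  · have h1 := S.bet_theta hc θ hw1 (k' := k') (θ.symm w1')
    rw [LinearEquiv.apply_symm_apply, hw1'] at h1
    exact h1.symm

end

section

variable {a b a' b' : L} {g k g' k' : Matrix (Fin 2) (Fin 2) P} (hc : Cmp (S.p a) (S.p b) g k)
  (hc' : Cmp (S.p a') (S.p b') g' k') (θ : S.K a b ≃ₗ[G] S.K a' b')

include hc hc'

/-- the gluing theorem -/
theorem glue (ε ε' : P) (η η' : G) (e1 : ε * ε' = 1) (e2 : ε' * ε = 1) (e3 : η * η' = 1)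
    (e3' : η' * η = 1)
    (cη : ∀ x, η * x = x * η) (cη' : ∀ x, η' * x = x * η') (cA : ∀ x, S.h η * x = x * S.h η)
    (cA' : ∀ x, S.h η' * x = x * S.h η')
    (hθ : ∀ w, S.bet k' (θ w) = S.bet k w * (S.f ε * S.h η)) :
    Nonempty (LinearMap.ker (colR a b) ≃ₗ[L] LinearMap.ker (colR a' b')) := by
  have hh : S.h η * S.h η' = 1 := by rw [← map_mul, e3, map_one]
  have hh' : S.h η' * S.h η = 1 := by rw [← map_mul, e3', map_one]
  have K1 := hc.KG
  have K2 := hc'.KG
  have ker' : ∀ x : LinearMap.ker (colR a b), x.1 0 * a + x.1 1 * b = 0 := fun x => x.2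
  have ker'' : ∀ x : LinearMap.ker (colR a' b'), x.1 0 * a' + x.1 1 * b' = 0 := fun x => x.2
  -- coordinates over `P`
  have cP : ∀ x : LinearMap.ker (colR a b), ∃ s, S.p (x.1 0) = s * g 1 0 ∧
      S.p (x.1 1) = s * g 1 1 := fun x => K1.gen _ _ (by
    rw [← map_mul, ← map_mul, ← map_add, ker', map_zero])
  have cP' : ∀ x : LinearMap.ker (colR a' b'), ∃ s, S.p (x.1 0) = s * g' 1 0 ∧
      S.p (x.1 1) = s * g' 1 1 := fun x => K2.gen _ _ (by
    rw [← map_mul, ← map_mul, ← map_add, ker'', map_zero])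
  have hfs : ∀ (x : LinearMap.ker (colR a b)) s, S.p (x.1 0) = s * g 1 0 →
      S.p (x.1 1) = s * g 1 1 → S.f s = S.bet k (S.im x) := by
    intro x s h0 h1
    symm
    refine coef_unique (S.rsA hc) ?_ ?_
    · change S.h (S.q (x.1 0)) = _
      rw [← S.comm, h0, map_mul]
    · change S.h (S.q (x.1 1)) = _
      rw [← S.comm, h1, map_mul]
  have hfs' : ∀ (x : LinearMap.ker (colR a' b')) s, S.p (x.1 0) = s * g' 1 0 →
      S.p (x.1 1) = s * g' 1 1 → S.f s = S.bet k' (S.im x) := by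
    intro x s h0 h1
    symm
    refine coef_unique (S.rsA hc') ?_ ?_
    · change S.h (S.q (x.1 0)) = _
      rw [← S.comm, h0, map_mul]
    · change S.h (S.q (x.1 1)) = _
      rw [← S.comm, h1, map_mul]
  refine equiv_of_rel (fun x x' => ∃ s, S.p (x.1 0) = s * g 1 0 ∧ S.p (x.1 1) = s * g 1 1 ∧
    S.p (x'.1 0) = s * ε * g' 1 0 ∧ S.p (x'.1 1) = s * ε * g' 1 1 ∧
    S.im x' = η' • θ (S.im x)) ?_ ?_ ?_ ?_ ?_ ?_
  · rintro x x' y y' ⟨s, h1, h2, h3, h4, h5⟩ ⟨t, k1, k2, k3, k4, k5⟩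
    refine ⟨s + t, ?_, ?_, ?_, ?_, ?_⟩
    · change S.p (x.1 0 + y.1 0) = _
      rw [map_add, h1, k1, add_mul]
    · change S.p (x.1 1 + y.1 1) = _
      rw [map_add, h2, k2, add_mul]
    · change S.p (x'.1 0 + y'.1 0) = _
      rw [map_add, h3, k3, add_mul, add_mul]
    · change S.p (x'.1 1 + y'.1 1) = _
      rw [map_add, h4, k4, add_mul, add_mul]
    · rw [S.im_add, S.im_add, map_add, smul_add, h5, k5]
  · rintro c x x' ⟨s, h1, h2, h3, h4, h5⟩
    refine ⟨S.p c * s, ?_, ?_, ?_, ?_, ?_⟩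
    · change S.p (c * x.1 0) = _
      rw [map_mul, h1, mul_assoc]
    · change S.p (c * x.1 1) = _
      rw [map_mul, h2, mul_assoc]
    · change S.p (c * x'.1 0) = _
      rw [map_mul, h3]
      noncomm_ring
    · change S.p (c * x'.1 1) = _
      rw [map_mul, h4]
      noncomm_ring
    · rw [S.im_smul, S.im_smul, map_smul, h5, smul_smul, smul_smul, cη']
  · intro x
    obtain ⟨s, h1, h2⟩ := cP x
    have hs := hfs x s h1 h2
    obtain ⟨w', hw'⟩ : ∃ w', w' = η' • θ (S.im x) := ⟨_, rfl⟩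
    have hb : S.bet k' w' = S.f (s * ε) := by
      rw [hw', bet_smul, hθ, map_mul, hs, cA', mul_assoc, mul_assoc, hh, mul_one]
    obtain ⟨b0, b1⟩ := S.bet_spec hc' w'
    rw [hb] at b0 b1
    obtain ⟨x0, p0, q0⟩ := S.surj (s * ε * g' 1 0) (w'.1 0) (by rw [b0, map_mul])
    obtain ⟨x1, p1, q1⟩ := S.surj (s * ε * g' 1 1) (w'.1 1) (by rw [b1, map_mul])
    have hx : ![x0, x1] ∈ LinearMap.ker (colR a' b') := by
      change x0 * a' + x1 * b' = 0
      apply S.inj
      · have : s * ε * g' 1 0 * S.p a' + s * ε * g' 1 1 * S.p b' =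
          s * ε * (g' 1 0 * S.p a' + g' 1 1 * S.p b') := by noncomm_ring
        rw [map_add, map_mul, map_mul, p0, p1, this, K2.ker, mul_zero]
      · rw [map_add, map_mul, map_mul, q0, q1]
        exact w'.2
    refine ⟨⟨![x0, x1], hx⟩, s, h1, h2, p0, p1, ?_⟩
    rw [← hw']
    apply Subtype.ext
    funext i
    fin_cases i
    · exact q0
    · exact q1
  · intro x'
    obtain ⟨s', h1, h2⟩ := cP' x'
    have hs := hfs' x' s' h1 h2
    obtain ⟨w, hw⟩ : ∃ w, w = θ.symm (η • S.im x') := ⟨_, rfl⟩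
    have hθw : θ w = η • S.im x' := by rw [hw, LinearEquiv.apply_symm_apply]
    have hb : S.bet k w = S.f (s' * ε') := by
      have h3 := hθ w
      rw [hθw, bet_smul, ← hs, cA, ← mul_assoc] at h3
      have h4 : S.f s' = S.bet k w * S.f ε := by
        calc S.f s' = S.f s' * S.h η * S.h η' := by rw [mul_assoc, hh, mul_one]
          _ = S.bet k w * S.f ε * S.h η * S.h η' := by rw [h3]
          _ = S.bet k w * S.f ε := by rw [mul_assoc _ (S.h η), hh, mul_one]
      rw [map_mul, h4, mul_assoc, ← map_mul, e1, map_one, mul_one]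
    obtain ⟨b0, b1⟩ := S.bet_spec hc w
    rw [hb] at b0 b1
    obtain ⟨x0, p0, q0⟩ := S.surj (s' * ε' * g 1 0) (w.1 0) (by rw [b0, map_mul])
    obtain ⟨x1, p1, q1⟩ := S.surj (s' * ε' * g 1 1) (w.1 1) (by rw [b1, map_mul])
    have hx : ![x0, x1] ∈ LinearMap.ker (colR a b) := by
      change x0 * a + x1 * b = 0
      apply S.inj
      · have : s' * ε' * g 1 0 * S.p a + s' * ε' * g 1 1 * S.p b =
          s' * ε' * (g 1 0 * S.p a + g 1 1 * S.p b) := by noncomm_ring
        rw [map_add, map_mul, map_mul, p0, p1, this, K1.ker, mul_zero]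
      · rw [map_add, map_mul, map_mul, q0, q1]
        exact w.2
    have hse : s' * ε' * ε = s' := by rw [mul_assoc, e2, mul_one]
    refine ⟨⟨![x0, x1], hx⟩, s' * ε', p0, p1, ?_, ?_, ?_⟩
    · rw [hse, h1]
    · rw [hse, h2]
    · have hi : S.im (⟨![x0, x1], hx⟩ : LinearMap.ker (colR a b)) = w := by
        apply Subtype.ext
        funext i
        fin_cases i
        · exact q0
        · exact q1
      rw [hi, hθw, smul_smul, e3', one_smul]
  · rintro x' ⟨s, h1, h2, h3, h4, h5⟩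
    have hs : s = 0 := by
      apply K1.free
      · rw [← h1]; exact map_zero _
      · rw [← h2]; exact map_zero _
    have h6 : S.im (0 : LinearMap.ker (colR a b)) = 0 := by
      apply Subtype.ext
      funext i
      exact map_zero S.q
    rw [h6, map_zero, smul_zero] at h5
    rw [hs, zero_mul, zero_mul] at h3 h4
    apply Subtype.ext
    funext i
    fin_cases i
    · exact S.inj _ h3 (congrFun (congrArg Subtype.val h5) 0)
    · exact S.inj _ h4 (congrFun (congrArg Subtype.val h5) 1)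
  · rintro x ⟨s, h1, h2, h3, h4, h5⟩
    have hs : s * ε = 0 := by
      apply K2.free
      · rw [← h3]; exact map_zero _
      · rw [← h4]; exact map_zero _
    have hs' : s = 0 := by
      calc s = s * ε * ε' := by rw [mul_assoc, e1, mul_one]
        _ = 0 := by rw [hs, zero_mul]
    have h6 : S.im (0 : LinearMap.ker (colR a' b')) = 0 := by
      apply Subtype.ext
      funext i
      exact map_zero S.q
    rw [h6] at h5
    have h7 : θ (S.im x) = 0 := by
      calc θ (S.im x) = (η * η') • θ (S.im x) := by rw [e3, one_smul]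
        _ = η • (η' • θ (S.im x)) := by rw [smul_smul]
        _ = 0 := by rw [← h5, smul_zero]
    rw [LinearEquiv.map_eq_zero_iff] at h7
    rw [hs', zero_mul] at h1 h2
    apply Subtype.ext
    funext i
    fin_cases i
    · exact S.inj _ h1 (congrFun (congrArg Subtype.val h7) 0)
    · exact S.inj _ h2 (congrFun (congrArg Subtype.val h7) 1)

end

/-- the gluing theorem with the unit extracted -/
theorem glue' (TRP : TR P) {a b a' b' c d c' d' : L} (h : c * a + d * b = 1)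
    (h' : c' * a' + d' * b' = 1) (θ : S.K a b ≃ₗ[G] S.K a' b')
    (H : ∀ (g k g' k' : Matrix (Fin 2) (Fin 2) P) (w1 : S.K a b) (al al' : A),
      Cmp (S.p a) (S.p b) g k → Cmp (S.p a') (S.p b') g' k' → S.bet k w1 = 1 →
      S.bet k' (θ w1) = al → al * al' = 1 → al' * al = 1 →
      ∃ (ε ε' : P) (η η' : G), ε * ε' = 1 ∧ ε' * ε = 1 ∧ η * η' = 1 ∧ η' * η = 1 ∧
        (∀ x, η * x = x * η) ∧ (∀ x, η' * x = x * η') ∧ (∀ x, S.h η * x = x * S.h η) ∧
        (∀ x, S.h η' * x = x * S.h η') ∧ al = S.f ε * S.h η) :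
    Nonempty (LinearMap.ker (colR a b) ≃ₗ[L] LinearMap.ker (colR a' b')) := by
  obtain ⟨g, k, hc⟩ := S.exists_cmp TRP h
  obtain ⟨g', k', hc'⟩ := S.exists_cmp TRP h'
  obtain ⟨w1, hw1⟩ := S.bet_one hc h
  obtain ⟨w1', hw1'⟩ := S.bet_one hc' h'
  obtain ⟨u1, u2⟩ := S.theta_unit hc θ hw1 hw1' hc'
  obtain ⟨ε, ε', η, η', e1, e2, e3, e4, e5, e6, e7, e8, e9⟩ :=
    H g k g' k' w1 _ _ hc hc' hw1 rfl u1 u2
  refine S.glue hc hc' θ ε ε' η η' e1 e2 e3 e4 e5 e6 e7 e8 (fun w => ?_)
  rw [S.bet_theta hc θ hw1 w, e9]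

end FSq

end Vale.Agent.P246.Q32
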