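import Vale.Agent.P246.Pack.Gen
import Mathlib.RingTheory.Norm.Transitivity
import Mathlib.LinearAlgebra.FreeModule.Finite.CardQuotient
import Mathlib.LinearAlgebra.Matrix.Nondegenerate

/-!
# Index and packing, integer form
-/

set_option linter.all false

namespace Vale.Agent.P246.Q32

open Vale.Agent.P246

/-- coset representatives of the row lattice of a square matrix over an order -/
theorem exists_reps {R : Type} [CommRing R] [IsDomain R] [Module.Free ℤ R] [Module.Finite ℤ R]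
    {ι : Type} [Fintype ι] [DecidableEq ι] (M : Matrix ι ι R) (hM : M.det ≠ 0)
    (hN : Algebra.norm ℤ M.det ≠ 0) :
    ∃ r : Fin (Algebra.norm ℤ M.det).natAbs → (ι → R),
      ∀ i j, (∃ x : ι → R, r i - r j = Matrix.vecMul x M) → i = j := by
  classical
  let f : (ι → R) →ₗ[R] (ι → R) := Matrix.toLin' M.transpose
  have hf : ∀ x, f x = Matrix.vecMul x M := by
    intro x
    rw [Matrix.toLin'_apply, Matrix.mulVec_transpose]
  let F : (ι → R) →ₗ[ℤ] (ι → R) := f.restrictScalars ℤ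
  have hF : LinearMap.det F = Algebra.norm ℤ M.det := by
    rw [LinearMap.det_restrictScalars, LinearMap.det_toLin', Matrix.det_transpose]
  have hinj : Function.Injective F := by
    rw [← LinearMap.ker_eq_bot, LinearMap.ker_eq_bot']
    intro x hx
    have h1 : Matrix.vecMul x M = 0 := by rw [← hf]; exact hx
    exact Matrix.eq_zero_of_vecMul_eq_zero hM h1
  let e : (ι → R) ≃ₗ[ℤ] LinearMap.range F := LinearEquiv.ofInjective F hinj
  have hcard := Submodule.natAbs_det_equiv (LinearMap.range F) e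
  have h2 : (LinearMap.range F).subtype ∘ₗ AddMonoidHom.toIntLinearMap
      (e : (ι → R) →+ LinearMap.range F) = F := by
    ext x
    rfl
  rw [h2, hF] at hcard
  have hfin : Finite ((ι → R) ⧸ LinearMap.range F) := by
    apply Nat.finite_of_card_ne_zero
    rw [← hcard]
    exact Int.natAbs_ne_zero.2 hN
  have hE : Nonempty (Fin (Algebra.norm ℤ M.det).natAbs ≃ ((ι → R) ⧸ LinearMap.range F)) := by
    rw [hcard]
    exact ⟨(Finite.equivFin _).symm⟩
  obtain ⟨E⟩ := hE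
  refine ⟨fun i => (E i).out, ?_⟩
  rintro i j ⟨x, hx⟩
  apply E.injective
  have h3 : Submodule.Quotient.mk (p := LinearMap.range F) (Quotient.out (E i)) =
      Submodule.Quotient.mk (Quotient.out (E j)) := by
    rw [Submodule.Quotient.eq]
    exact ⟨x, by rw [← hx.symm]; exact hf x⟩
  rw [← Quotient.out_eq (E i), ← Quotient.out_eq (E j)]
  exact h3

theorem c_sum : (18.9 : ℝ) * 12 ≤ ∑ j ∈ Finset.range 12, (4 * (j : ℝ) / (2 * (12 : ℕ))) ^ 8 := by
  simp only [Finset.sum_range_succ, Finset.sum_range_zero]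
  norm_num

theorem c_pi : (0.2343 : ℝ) ≤ Real.pi ^ 8 / (Nat.factorial 8 : ℕ) := by
  have hpi : (3.14 : ℝ) ^ 8 ≤ Real.pi ^ 8 :=
    pow_le_pow_left₀ (by norm_num) Real.pi_gt_d2.le 8
  have hf : ((Nat.factorial 8 : ℕ) : ℝ) = 40320 := by
    norm_num [Nat.factorial]
  rw [hf, le_div_iff₀ (by norm_num)]
  refine le_trans ?_ hpi
  norm_num

theorem c_aux {s p : ℝ} (hs : (18.9 : ℝ) * 12 ≤ s) (hp : (0.2343 : ℝ) ≤ p) :
    (4.1 : ℝ) ≤ (1 / (12 : ℕ)) * (s * p) := by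
  have h1 : (18.9 : ℝ) * 12 * 0.2343 ≤ s * p :=
    mul_le_mul hs hp (by norm_num) (le_trans (by norm_num) hs)
  push_cast
  linarith

theorem c_bound : (4.1 : ℝ) ≤ (1 / (12 : ℕ)) * ∑ j ∈ Finset.range 12,
    (4 * (j : ℝ) / (2 * (12 : ℕ))) ^ 8 * (Real.pi ^ 8 / (Nat.factorial 8 : ℕ)) := by
  rw [← Finset.sum_mul]
  exact c_aux c_sum c_pi

theorem fin_bound (N : ℕ) (hN : N ≠ 0) (D : ℤ) {C : ℝ} (hC : (4.1 : ℝ) ≤ C)
    (h : (N : ℝ) * C ≤ |(D : ℝ)|) : N * 4 < D.natAbs := by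
  have h2 : (N : ℝ) * 4.1 ≤ |(D : ℝ)| :=
    (mul_le_mul_of_nonneg_left hC (Nat.cast_nonneg N)).trans h
  have h0 : (0 : ℝ) < N := by exact_mod_cast Nat.pos_of_ne_zero hN
  have h3 : (N : ℝ) * 4 < |(D : ℝ)| := by linarith
  have h4 : ((N * 4 : ℕ) : ℝ) < ((D.natAbs : ℕ) : ℝ) := by
    rw [Nat.cast_natAbs, Int.cast_abs]
    push_cast
    exact h3
  exact_mod_cast h4

theorem H_real {κ : Type} [Fintype κ] (B : Matrix κ κ ℤ) {m : ℤ} (hm : m ≠ 0) (x y z : κ → ℤ)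
    (H : 4 * (m * m) ≤ ∑ c, B.mulVec (x - y - m • z) c * B.mulVec (x - y - m • z) c) :
    4 ≤ Pack.Gen.q ((B.map (Int.castRingHom ℝ)).mulVec (((m : ℝ)⁻¹ • fun c => ((x c : ℤ) : ℝ)) -
      ((m : ℝ)⁻¹ • fun c => ((y c : ℤ) : ℝ)) - (fun c => (z c : ℝ)))) := by
  have hm' : (m : ℝ) ≠ 0 := by exact_mod_cast hm
  have hmv : ∀ v : κ → ℤ, (B.map (Int.castRingHom ℝ)).mulVec (fun c => (v c : ℝ)) =
      fun c => ((B.mulVec v c : ℤ) : ℝ) := by
    intro v
    funext c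
    have := RingHom.map_mulVec (Int.castRingHom ℝ) B v c
    exact this.symm
  have h1 : ((m : ℝ)⁻¹ • fun c => ((x c : ℤ) : ℝ)) - ((m : ℝ)⁻¹ • fun c => ((y c : ℤ) : ℝ)) -
      (fun c => (z c : ℝ)) = (m : ℝ)⁻¹ • fun c => (((x - y - m • z) c : ℤ) : ℝ) := by
    funext c
    simp only [Pi.sub_apply, Pi.smul_apply, smul_eq_mul]
    push_cast
    field_simp
  rw [h1, Matrix.mulVec_smul, hmv]
  have h3 : (4 : ℝ) * (m * m) ≤ ∑ c, ((B.mulVec (x - y - m • z) c : ℤ) : ℝ) *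
      ((B.mulVec (x - y - m • z) c : ℤ) : ℝ) := by exact_mod_cast H
  have h4 : Pack.Gen.q ((m : ℝ)⁻¹ • fun c => ((B.mulVec (x - y - m • z) c : ℤ) : ℝ)) =
      ((m : ℝ) * m)⁻¹ * ∑ c, ((B.mulVec (x - y - m • z) c : ℤ) : ℝ) *
      ((B.mulVec (x - y - m • z) c : ℤ) : ℝ) := by
    rw [Pack.Gen.q, Finset.mul_sum]
    apply Finset.sum_congr rfl
    intro c _
    simp only [Pi.smul_apply, smul_eq_mul]
    field_simp
  rw [h4, le_inv_mul_iff₀ (mul_self_pos.2 hm')]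
  linarith

/-- Blichfeldt's bound in dimension sixteen, integer form -/
theorem pack_int {κ : Type} [Fintype κ] [DecidableEq κ] [Nonempty κ]
    (hc : Fintype.card κ = 2 * 8) (B : Matrix κ κ ℤ) (hB : B.det ≠ 0) (N : ℕ) (hN : N ≠ 0)
    {m : ℤ} (hm : m ≠ 0)
    (T : Fin N → κ → ℤ) (H : ∀ i j (z : κ → ℤ), (i ≠ j ∨ z ≠ 0) →
      4 * (m * m) ≤ ∑ c, B.mulVec (T i - T j - m • z) c * B.mulVec (T i - T j - m • z) c) :
    N * 4 < B.det.natAbs := by
  have hdet : (B.map (Int.castRingHom ℝ)).det = ((B.det : ℤ) : ℝ) := by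
    have := RingHom.map_det (Int.castRingHom ℝ) B
    exact this.symm
  have hdet0 : (B.map (Int.castRingHom ℝ)).det ≠ 0 := by
    rw [hdet]; exact_mod_cast hB
  have h := Pack.Gen.pack_gen hc (B.map (Int.castRingHom ℝ))
    hdet0 12 (μ := 4) (by norm_num) N
    (fun i => (m : ℝ)⁻¹ • fun c => ((T i c : ℤ) : ℝ))
    (fun i j z hz => H_real B hm (T i) (T j) z (H i j z hz))
  rw [hdet] at h
  exact fin_bound N hN B.det c_bound h

end Vale.Agent.P246.Q32
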