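import Vale.Agent.P246.Q32.Base
import Vale.Agent.P246.Cyc.Gam
import Vale.Agent.P246.Q24.G2
import Mathlib.NumberTheory.Zsqrtd.Basic
import Mathlib.Data.Int.Lemmas

/-!
# Transitivity on unimodular columns for `ℤ[D_16]`
-/

set_option linter.all false

namespace Vale.Agent.P246.Q32.U

open Vale.Agent.P246.Q24

/-! ### `ℤ[√2]` is Euclidean -/

/-- `ℤ[√2]` -/
abbrev K2 : Type := Qs ℤ 2

namespace K2

/-- the norm -/
def n2 (x : K2) : ℤ := x.re * x.re - 2 * (x.im * x.im)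

theorem n2_mul (x y : K2) : n2 (x * y) = n2 x * n2 y := by
  simp [n2]; ring

theorem n2_eq_zero {x : K2} (h : n2 x = 0) : x = 0 := by
  have h2 : ∀ n : ℤ, (2 : ℤ) ≠ n * n := by
    intro n hn
    have h3 : n ≤ 1 := by nlinarith
    have h4 : -1 ≤ n := by nlinarith
    have : n = -1 ∨ n = 0 ∨ n = 1 := by omega
    rcases this with rfl | rfl | rfl <;> norm_num at hn
  have h3 : Zsqrtd.norm (⟨x.re, x.im⟩ : Zsqrtd 2) = 0 := by
    simp only [Zsqrtd.norm]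
    unfold n2 at h
    linarith
  have h4 := (Zsqrtd.norm_eq_zero h2 _).1 h3
  have h5 := congrArg Zsqrtd.re h4
  have h6 := congrArg Zsqrtd.im h4
  ext
  · exact h5
  · exact h6

/-- the conjugate -/
def cj (x : K2) : K2 := ⟨x.re, -x.im⟩

theorem mul_cj (x : K2) : x * cj x = ⟨n2 x, 0⟩ := by
  ext <;> simp [cj, n2] <;> ring

theorem n2_cj (x : K2) : n2 (cj x) = n2 x := by simp [cj, n2]

theorem near (x m : ℤ) (hm : 0 < m) : ∃ q : ℤ, 4 * ((x - q * m) * (x - q * m)) ≤ m * m := by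
  have h1 := Int.emod_nonneg x hm.ne'
  have h2 := Int.emod_lt_of_pos x hm
  have h3 := Int.emod_add_mul_ediv x m
  by_cases h : 2 * (x % m) ≤ m
  · refine ⟨x / m, ?_⟩
    have : x - x / m * m = x % m := by linear_combination -h3
    rw [this]
    nlinarith
  · refine ⟨x / m + 1, ?_⟩
    have : x - (x / m + 1) * m = x % m - m := by linear_combination -h3
    rw [this]
    nlinarith

theorem euclid (a b : K2) (hb : b ≠ 0) : ∃ q : K2, (n2 (a - b * q)).natAbs < (n2 b).natAbs := by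
  have hN : n2 b ≠ 0 := fun h => hb (n2_eq_zero h)
  -- multiply by `cj b * n2 b`
  set M : ℤ := n2 b * n2 b with hM
  have hM0 : 0 < M := mul_self_pos.2 hN
  obtain ⟨q0, h0⟩ := near ((a * cj b).re * n2 b) M hM0
  obtain ⟨q1, h1⟩ := near ((a * cj b).im * n2 b) M hM0
  refine ⟨⟨q0, q1⟩, ?_⟩
  set A := (a * cj b).re * n2 b - q0 * M with hA
  set B := (a * cj b).im * n2 b - q1 * M with hB
  have key : (a - b * ⟨q0, q1⟩) * (cj b * ⟨n2 b, 0⟩) = ⟨A, B⟩ := by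
    have e : (a - b * ⟨q0, q1⟩) * (cj b * ⟨n2 b, 0⟩) =
        a * cj b * ⟨n2 b, 0⟩ - b * cj b * ⟨n2 b, 0⟩ * ⟨q0, q1⟩ := by ring
    rw [e, mul_cj]
    ext
    · simp [hA, hM]; ring
    · simp [hB, hM]; ring
  have h2 := congrArg n2 key
  rw [n2_mul, n2_mul, n2_cj] at h2
  have h3 : n2 (⟨n2 b, 0⟩ : K2) = M := by simp [n2, hM]
  rw [h3] at h2
  have h4 : n2 (⟨A, B⟩ : K2) = A * A - 2 * (B * B) := rfl
  rw [h4] at h2
  have hMM : 0 < M * M := mul_pos hM0 hM0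
  have hA0 := mul_self_nonneg A
  have hB0 := mul_self_nonneg B
  have h5 : A * A - 2 * (B * B) < M * M := by nlinarith
  have h6 : -(M * M) < A * A - 2 * (B * B) := by nlinarith
  rw [← h2] at h5 h6
  -- `z * (N * M) ` with `|.| < M²`, so `|z| < |N|`
  have h7 : (n2 (a - b * ⟨q0, q1⟩)) ^ 2 < (n2 b) ^ 2 := by
    have h8 : (n2 (a - b * ⟨q0, q1⟩) * (n2 b * M)) * (n2 (a - b * ⟨q0, q1⟩) * (n2 b * M)) <
        (M * M) * (M * M) := by nlinarith
    have h9 : (n2 (a - b * ⟨q0, q1⟩) * n2 (a - b * ⟨q0, q1⟩)) * (M * (M * M)) <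
        (n2 b * n2 b) * (M * (M * M)) := by
      calc _ = (n2 (a - b * ⟨q0, q1⟩) * (n2 b * M)) * (n2 (a - b * ⟨q0, q1⟩) * (n2 b * M)) := by
            rw [hM]; ring
        _ < _ := h8
        _ = _ := by rw [hM]; ring
    have := lt_of_mul_lt_mul_right h9 (by positivity)
    rw [sq, sq]; exact this
  exact Int.natAbs_lt_iff_sq_lt.2 h7

theorem bez : Cyc.Bez K2 := by
  intro a b
  induction hk : (n2 b).natAbs using Nat.strong_induction_on generalizing a b with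
  | _ k ih =>
    by_cases hb : b = 0
    · exact ⟨1, 0, 0, 1, a, by ring, by rw [hb]; ring, by rw [hb]; ring⟩
    · obtain ⟨q, hq⟩ := euclid a b hb
      obtain ⟨x, y, z, w, h, e1, e2, e3⟩ := ih _ (by rw [← hk]; exact hq) b (a - b * q) rfl
      refine ⟨y, x - y * q, -w, -(z - w * q), h, ?_, ?_, ?_⟩
      · linear_combination e1
      · linear_combination e2
      · linear_combination -e3

end K2

theorem bezZ : Cyc.Bez ℤ := fun a b => Gm.bez a b

/-! ### orders `{(a, b; π c, d) : a = d mod π}` -/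

/-- the two diagonal residues -/
def pG {P : Type} [CommRing P] (π : P) (e : P →+* F2) (hπ : e π = 0) : Cyc.Gam P π →+* F2 × F2 where
  toFun x := (e x.a, e x.d)
  map_one' := by simp
  map_zero' := by simp
  map_add' x y := by simp
  map_mul' x y := by simp [hπ]

theorem TR_diag {T P : Type} [Ring T] [CommRing P] (bez : Cyc.Bez P) (π : P) (e : P →+* F2)
    (hπ : e π = 0) (f : T →+* Cyc.Gam P π) (g : T →+* F2) (h1 : ∀ t, e (f t).a = g t)
    (h2 : ∀ t, e (f t).d = g t) (hinj : ∀ t, f t = 0 → t = 0)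
    (hsurj : ∀ m : Cyc.Gam P π, e m.a = e m.d → ∃ t, f t = m) : TR T := by
  refine TR_glue f g (pG π e hπ) ((RingHom.id F2).prod (RingHom.id F2)) ?_ ?_ ?_
    (Cyc.Gam.TR_Gam bez π) (TR_comm F2) ?_
  · intro t
    exact Prod.ext (h1 t) (h2 t)
  · intro t h _
    exact hinj t h
  · intro x y h
    have a1 : e x.a = y := congrArg Prod.fst h
    have a2 : e x.d = y := congrArg Prod.snd h
    obtain ⟨t, ht⟩ := hsurj x (a1.trans a2.symm)
    refine ⟨t, ht, ?_⟩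
    rw [← h1, ht, a1]
  · intro δ δ' h _
    have : δ = 1 := by
      revert δ δ'
      decide
    exact ⟨1, 1, one_mul 1, one_mul 1, by rw [map_one, this]⟩

/-- `ℤ[C_2²]` is commutative -/
theorem TR_S2 : TR (Dbl S2 false) := by
  letI : CommRing (Dbl S2 false) :=
    { (inferInstance : Ring (Dbl S2 false)) with
      mul_comm := fun x y => by ext <;> simp <;> ring }
  exact TR_comm (Dbl S2 false)

/-- augmentation of `𝔽_2[C_2²]` -/
def augB : Dbl F2' false →+* F2 where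
  toFun x := x.fst.re + x.fst.im + x.snd.re + x.snd.im
  map_one' := by decide
  map_zero' := by decide
  map_add' := by decide
  map_mul' := by decide

/-- reduction of `ℤ[i] ∘ C_2` -/
def redB : Dbl Z4 false →+* Dbl F2' false := Dbl.map (R2m zF2 (by decide)) (R2m_conj _ _ zF2_conj)

/-- `ℤ[i] ∘ C_2` in matrices -/
def fB : Dbl Z4 false →+* Cyc.Gam ℤ 2 where
  toFun x := ⟨x.fst.re + x.fst.im + x.snd.re + x.snd.im, x.snd.re + x.fst.im,
    -x.fst.im - x.snd.im, x.fst.re - x.fst.im - x.snd.re - x.snd.im⟩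
  map_one' := by ext <;> simp
  map_zero' := by ext <;> simp
  map_add' x y := by ext <;> simp <;> ring
  map_mul' x y := by ext <;> simp <;> ring

theorem zF2_eq {x y : ℤ} : zF2 x = zF2 y ↔ (2 : ℤ) ∣ y - x :=
  ZMod.intCast_eq_intCast_iff_dvd_sub x y 2

theorem TR_Z4 : TR (Dbl Z4 false) := by
  refine TR_diag bezZ 2 zF2 (by decide) fB (augB.comp redB) ?_ ?_ ?_ ?_
  · intro t
    simp [fB, augB, redB, R2m]
  · intro t
    change zF2 (t.fst.re - t.fst.im - t.snd.re - t.snd.im) =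
      zF2 t.fst.re + zF2 t.fst.im + zF2 t.snd.re + zF2 t.snd.im
    rw [← map_add, ← map_add, ← map_add, zF2_eq]
    exact ⟨t.fst.im + t.snd.re + t.snd.im, by ring⟩
  · intro t ht
    have a := congrArg Cyc.Gam.a ht
    have b := congrArg Cyc.Gam.b ht
    have c := congrArg Cyc.Gam.c ht
    have d := congrArg Cyc.Gam.d ht
    change t.fst.re + t.fst.im + t.snd.re + t.snd.im = 0 at a
    change t.snd.re + t.fst.im = 0 at b
    change -t.fst.im - t.snd.im = 0 at c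
    change t.fst.re - t.fst.im - t.snd.re - t.snd.im = 0 at d
    ext <;> simp <;> omega
  · intro m hm
    obtain ⟨k, hk⟩ := zF2_eq.1 hm
    refine ⟨⟨⟨m.a + k, m.b - m.c + k⟩, ⟨m.c - k, -m.b - k⟩⟩, ?_⟩
    ext
    · change m.a + k + (m.b - m.c + k) + (m.c - k) + (-m.b - k) = m.a
      ring
    · change m.c - k + (m.b - m.c + k) = m.b
      ring
    · change -(m.b - m.c + k) - (-m.b - k) = m.c
      ring
    · change m.a + k - (m.b - m.c + k) - (m.c - k) - (-m.b - k) = m.d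
      linarith

/-! ### `ℤ[ζ_8] ∘ C_2` -/

theorem zF2_two : zF2 2 = 0 := rfl

/-- the residue field of `ℤ[√2]` -/
def eK : K2 →+* F2 where
  toFun x := zF2 x.re
  map_one' := by simp
  map_zero' := by simp
  map_add' x y := by simp
  map_mul' x y := by
    have h : (2 : F2) = 0 := rfl
    simp [h]

/-- coordinates over `ℤ[√2]` in the basis `1, ζ` -/
def a8 (z : Z8) : K2 := ⟨z.re.re - z.re.im, -z.im.im⟩
/-- coordinates over `ℤ[√2]` in the basis `1, ζ` -/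
def b8 (z : Z8) : K2 := ⟨z.im.re + z.im.im, z.re.im⟩

/-- `√2` -/
def ρ8 : K2 := ⟨0, 1⟩

theorem ρ8_sq : ρ8 * ρ8 = 2 := by decide

theorem a8_add (x y : Z8) : a8 (x + y) = a8 x + a8 y := by ext <;> simp [a8] <;> ring
theorem b8_add (x y : Z8) : b8 (x + y) = b8 x + b8 y := by ext <;> simp [b8] <;> ring
theorem a8_mul (x y : Z8) : a8 (x * y) = a8 x * a8 y - b8 x * b8 y := by
  ext <;> simp [a8, b8] <;> ring
theorem b8_mul (x y : Z8) : b8 (x * y) = a8 x * b8 y + b8 x * a8 y + ρ8 * (b8 x * b8 y) := by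
  ext <;> simp [a8, b8, ρ8] <;> ring
theorem a8_conj (x : Z8) : a8 (conj x) = a8 x + ρ8 * b8 x := by
  ext <;> simp [a8, b8, ρ8]
  ring
theorem b8_conj (x : Z8) : b8 (conj x) = - b8 x := by
  ext <;> simp [a8, b8, ρ8] <;> ring
theorem a8_one : a8 1 = 1 := by decide
theorem b8_one : b8 1 = 0 := by decide
theorem a8_zero : a8 0 = 0 := by decide
theorem b8_zero : b8 0 = 0 := by decide

/-- `ℤ[ζ_8] ∘ C_2` in matrices -/
def fC : Dbl Z8 false →+* Cyc.Gam K2 (2 - ρ8) where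
  toFun x := ⟨a8 x.fst + b8 x.fst + a8 x.snd + b8 x.snd, a8 x.snd + b8 x.fst,
    -b8 x.fst - b8 x.snd, a8 x.fst + b8 x.fst - (2 - ρ8) * b8 x.fst - a8 x.snd - b8 x.snd⟩
  map_one' := by apply Cyc.Gam.ext <;> simp [a8_one, b8_one, a8_zero, b8_zero]
  map_zero' := by apply Cyc.Gam.ext <;> simp [a8_zero, b8_zero]
  map_add' x y := by apply Cyc.Gam.ext <;> simp [a8_add, b8_add] <;> ring
  map_mul' x y := by
    apply Cyc.Gam.ext <;>
      simp only [Dbl.mul_fst, Dbl.mul_snd, sg_false, one_mul, a8_add, b8_add, a8_mul, b8_mul,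
        a8_conj, b8_conj, Cyc.Gam.mul_a, Cyc.Gam.mul_b, Cyc.Gam.mul_c, Cyc.Gam.mul_d] <;>
      generalize a8 x.fst = p1 at * <;> generalize b8 x.fst = p2 at * <;>
      generalize a8 x.snd = p3 at * <;> generalize b8 x.snd = p4 at * <;>
      generalize a8 y.fst = q1 at * <;> generalize b8 y.fst = q2 at * <;>
      generalize a8 y.snd = q3 at * <;> generalize b8 y.snd = q4 at * <;>
      first
        | ring1
        | linear_combination (exp := 1) (p2 * q2 - p4 * q4) * ρ8_sq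
        | skip

/-- `𝔽_2[C_4] → 𝔽_2[C_2]` -/
def s42 : F4' →+* F2' := Qs.map (Qs.ev 1 (one_mul 1)) (by decide)

theorem s42_conj (x : F4') : s42 (conj x) = conj (s42 x) :=
  Qs.map_conj _ _ (fun r => Qs.ev_conj 1 (one_mul 1) (by decide) r) x

/-- reduction of `ℤ[ζ_8] ∘ C_2` -/
def redC : Dbl Z8 false →+* Dbl F4' false := Dbl.map (R4m zF2 (by decide)) (R4m_conj _ _ zF2_conj)

/-- `𝔽_2[D_8] → 𝔽_2[C_2²]` -/
def r42 : Dbl F4' false →+* Dbl F2' false := Dbl.map s42 s42_conj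

theorem a8b8_inj {z : Z8} (h1 : a8 z = 0) (h2 : b8 z = 0) : z = 0 := by
  have e1 := congrArg Qs.re h1
  have e2 := congrArg Qs.im h1
  have e3 := congrArg Qs.re h2
  have e4 := congrArg Qs.im h2
  change z.re.re - z.re.im = 0 at e1
  change -z.im.im = 0 at e2
  change z.im.re + z.im.im = 0 at e3
  change z.re.im = 0 at e4
  ext <;> simp <;> omega

/-- the element with coordinates `p, q` -/
def mk8 (p q : K2) : Z8 := ⟨⟨p.re + q.im, q.im⟩, ⟨q.re + p.im, -p.im⟩⟩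

theorem a8_mk8 (p q : K2) : a8 (mk8 p q) = p := by ext <;> simp [a8, mk8]
theorem b8_mk8 (p q : K2) : b8 (mk8 p q) = q := by ext <;> simp [b8, mk8]

/-- `(2 + √2)⁻¹ √2 = √2 - 1` -/
theorem div_ρ (p : K2) (h : eK p = 0) : ∃ q : K2, p = (2 + ρ8) * q := by
  obtain ⟨k, hk⟩ : (2 : ℤ) ∣ p.re := by
    have h1 : zF2 p.re = 0 := h
    have h2 := (zF2_eq (x := 0) (y := p.re)).1 (by rw [h1, map_zero])
    simpa using h2
  -- `p = √2 (im + k √2)`, `√2 = (2 + √2)(√2 - 1)`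
  refine ⟨⟨-1, 1⟩ * ⟨p.im, k⟩, ?_⟩
  ext <;> simp [ρ8] <;> linarith

theorem gC_apply (t : Dbl Z8 false) : augB (r42 (redC t)) =
    zF2 ((t.fst.re.re + t.fst.re.im + (t.fst.im.re + t.fst.im.im)) +
      (t.snd.re.re + t.snd.re.im + (t.snd.im.re + t.snd.im.im))) := by
  have h : ∀ z : Z8, (s42 (R4m zF2 (by decide) z)).re + (s42 (R4m zF2 (by decide) z)).im =
      zF2 (z.re.re + z.re.im + (z.im.re + z.im.im)) := by
    intro z
    rw [map_add, map_add, map_add]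
    simp [s42, R4m, R2m]
  have h1 := h t.fst
  have h2 := h t.snd
  rw [map_add, ← h1, ← h2, ← add_assoc]
  rfl

theorem TR_Z8 : TR (Dbl Z8 false) := by
  refine TR_diag K2.bez (2 - ρ8) eK (by decide) fC (augB.comp (r42.comp redC)) ?_ ?_ ?_ ?_
  · intro t
    rw [RingHom.comp_apply, RingHom.comp_apply, gC_apply]
    change zF2 (t.fst.re.re - t.fst.re.im + (t.fst.im.re + t.fst.im.im) +
      (t.snd.re.re - t.snd.re.im) + (t.snd.im.re + t.snd.im.im)) = _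
    rw [zF2_eq]
    exact ⟨t.fst.re.im + t.snd.re.im, by ring⟩
  · intro t
    rw [RingHom.comp_apply, RingHom.comp_apply, gC_apply]
    have e : (fC t).d.re = t.fst.re.re - t.fst.re.im + (t.fst.im.re + t.fst.im.im) -
        (2 * (t.fst.im.re + t.fst.im.im) - 2 * t.fst.re.im) -
      (t.snd.re.re - t.snd.re.im) - (t.snd.im.re + t.snd.im.im) := by
      change (a8 t.fst + b8 t.fst - (2 - ρ8) * b8 t.fst - a8 t.snd - b8 t.snd).re = _
      simp [a8, b8, ρ8]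
      ring
    change zF2 (fC t).d.re = _
    rw [e, zF2_eq]
    exact ⟨t.fst.im.re + t.fst.im.im + t.snd.re.re + t.snd.im.re + t.snd.im.im, by ring⟩
  · intro t ht
    have a : a8 t.fst + b8 t.fst + a8 t.snd + b8 t.snd = 0 := congrArg Cyc.Gam.a ht
    have b : a8 t.snd + b8 t.fst = 0 := congrArg Cyc.Gam.b ht
    have c : -b8 t.fst - b8 t.snd = 0 := congrArg Cyc.Gam.c ht
    have d : a8 t.fst + b8 t.fst - (2 - ρ8) * b8 t.fst - a8 t.snd - b8 t.snd = 0 :=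
      congrArg Cyc.Gam.d ht
    -- `d - a + 2 b + 2 c = - (2 + √2) im`
    have e1 : (2 + ρ8) * b8 t.fst = 0 := by linear_combination (-1 : K2) * a + d + 2 * b - 2 * c
    have e2 : b8 t.fst = 0 := by
      have h := congrArg (fun z : K2 => (⟨2, -1⟩ : K2) * z) e1
      have h' : (⟨2, -1⟩ : K2) * (2 + ρ8) = 2 := by decide
      simp only [mul_zero] at h
      rw [← mul_assoc, h'] at h
      have h3 := congrArg Qs.re h
      have h4 := congrArg Qs.im h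
      simp at h3 h4
      ext
      · exact h3
      · exact h4
    rw [e2] at a b c d
    have e3 : b8 t.snd = 0 := by linear_combination -c
    have e4 : a8 t.snd = 0 := by linear_combination b
    have e5 : a8 t.fst = 0 := by rw [e3, e4] at a; linear_combination a
    apply Dbl.ext
    · exact a8b8_inj e5 e2
    · exact a8b8_inj e4 e3
  · intro m hm
    obtain ⟨q, hq⟩ := div_ρ (2 * m.b - 2 * m.c - (m.a - m.d)) (by
      have h2 : (eK 2 : F2) = 0 := by decide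
      rw [map_sub, map_sub, map_mul, map_mul, map_sub, h2, hm]
      simp)
    refine ⟨⟨mk8 (m.a - m.b + m.c + q) q, mk8 (m.b - q) (-m.c - q)⟩, ?_⟩
    apply Cyc.Gam.ext
    · change a8 (mk8 _ _) + b8 (mk8 _ _) + a8 (mk8 _ _) + b8 (mk8 _ _) = m.a
      rw [a8_mk8, a8_mk8, b8_mk8, b8_mk8]
      ring
    · change a8 (mk8 _ _) + b8 (mk8 _ _) = m.b
      rw [a8_mk8, b8_mk8]
      ring
    · change -b8 (mk8 _ _) - b8 (mk8 _ _) = m.c
      rw [b8_mk8, b8_mk8]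
      ring
    · change a8 (mk8 _ _) + b8 (mk8 _ _) - (2 - ρ8) * b8 (mk8 _ _) - a8 (mk8 _ _) -
        b8 (mk8 _ _) = m.d
      rw [a8_mk8, a8_mk8, b8_mk8, b8_mk8]
      linear_combination -hq

/-! ### lifting of units -/

/-- `δ` is the image of a unit -/
def Lft {A C : Type} [Ring A] [Ring C] (r : A →+* C) (δ : C) : Prop :=
  ∃ ε ε' : A, ε * ε' = 1 ∧ ε' * ε = 1 ∧ r ε = δ

theorem Lft.one {A C : Type} [Ring A] [Ring C] (r : A →+* C) : Lft r 1 :=
  ⟨1, 1, one_mul 1, one_mul 1, map_one r⟩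

theorem Lft.mul {A C : Type} [Ring A] [Ring C] {r : A →+* C} {δ δ' : C} (h : Lft r δ)
    (h' : Lft r δ') : Lft r (δ * δ') := by
  obtain ⟨a, b, h1, h2, h3⟩ := h
  obtain ⟨c, d, h4, h5, h6⟩ := h'
  refine ⟨a * c, d * b, ?_, ?_, by rw [map_mul, h3, h6]⟩
  · rw [mul_assoc, ← mul_assoc c, h4, one_mul, h1]
  · rw [mul_assoc, ← mul_assoc b, h2, one_mul, h5]

/-- reduction by a list of (test, multiplier) -/
def rd {C : Type} [Ring C] (L : List ((C → Bool) × C)) (δ : C) : C :=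
  L.foldl (fun δ p => bif p.1 δ then δ * p.2 else δ) δ

theorem Lft_of_rd {A C : Type} [Ring A] [Ring C] {r : A →+* C} (L : List ((C → Bool) × C))
    (hL : ∀ p ∈ L, ∃ ε ε' : A, ε * ε' = 1 ∧ ε' * ε = 1 ∧ r ε' = p.2) :
    ∀ δ : C, Lft r (rd L δ) → Lft r δ := by
  induction L with
  | nil => intro δ h; exact h
  | cons p L ih =>
    intro δ h
    have h1 := ih (fun q hq => hL q (List.mem_cons_of_mem _ hq)) _ h
    cases hb : p.1 δ with
    | false => simpa [hb] using h1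
    | true =>
      simp only [hb, cond_true] at h1
      obtain ⟨ε, ε', e1, e2, e3⟩ := hL p List.mem_cons_self
      have h2 := h1.mul (δ' := r ε) ⟨ε, ε', e1, e2, rfl⟩
      rw [mul_assoc, ← e3, ← map_mul, e2, map_one, mul_one] at h2
      exact h2

/-- units of `ℤ[i] ∘ C_2` -/
def uB : List (Dbl Z4 false × Dbl Z4 false) :=
  [(1, 1), (⟨⟨0, 1⟩, 0⟩, ⟨⟨0, -1⟩, 0⟩), (⟨0, 1⟩, ⟨0, 1⟩), (⟨0, ⟨0, 1⟩⟩, ⟨0, ⟨0, 1⟩⟩),
   (⟨⟨1, 1⟩, ⟨0, 1⟩⟩, ⟨⟨1, -1⟩, ⟨0, -1⟩⟩), (⟨⟨1, 1⟩, ⟨1, 0⟩⟩, ⟨⟨1, -1⟩, ⟨-1, 0⟩⟩),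
   (⟨⟨1, 0⟩, ⟨1, 1⟩⟩, ⟨⟨-1, 0⟩, ⟨1, 1⟩⟩), (⟨⟨0, 1⟩, ⟨1, 1⟩⟩, ⟨⟨0, 1⟩, ⟨1, 1⟩⟩)]

theorem uB_spec : ∀ p ∈ uB, p.1 * p.2 = 1 ∧ p.2 * p.1 = 1 := by decide

theorem uB_lift : ∀ δ : Dbl F2' false, augB δ = 1 → ∃ p ∈ uB, redB p.1 = δ := by decide

theorem F2_unit : ∀ x y : F2, x * y = 1 → x = 1 := by decide

theorem lftB (δ δ' : Dbl F2' false) (h : δ * δ' = 1) : Lft redB δ := by
  have h1 : augB δ = 1 := F2_unit _ (augB δ') (by rw [← map_mul, h, map_one])
  obtain ⟨p, hp, h2⟩ := uB_lift δ h1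
  exact ⟨p.1, p.2, (uB_spec p hp).1, (uB_spec p hp).2, h2⟩

/-- the element of `ℤ[ζ_8] ∘ C_2` with given coordinates -/
def e8 (a b c d a' b' c' d' : ℤ) : Dbl Z8 false := ⟨⟨⟨a, c⟩, ⟨b, d⟩⟩, ⟨⟨a', c'⟩, ⟨b', d'⟩⟩⟩

/-- boolean from `𝔽_2` -/
def bo (x : F2) : Bool := decide (x = 1)

/-- units of `ℤ[ζ_8] ∘ C_2`: tests, inverse, unit -/
def uC : List ((Dbl F4' false → Bool) × (Dbl Z8 false × Dbl Z8 false)) :=
  [(fun δ => bo (δ.fst.im.re + δ.fst.im.im + δ.snd.im.re + δ.snd.im.im),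
      e8 0 1 0 0 0 0 0 0, e8 0 0 0 (-1) 0 0 0 0),
   (fun δ => bo (δ.snd.re.re + δ.snd.re.im + δ.snd.im.re + δ.snd.im.im),
      e8 0 0 0 0 1 0 0 0, e8 0 0 0 0 1 0 0 0),
   (fun δ => bo (δ.fst.re.im + δ.fst.im.im + δ.snd.re.im + δ.snd.im.im),
      e8 0 0 1 0 0 0 0 0, e8 0 0 (-1) 0 0 0 0 0),
   (fun δ => bo (δ.snd.im.re + δ.snd.im.im),
      e8 0 1 0 0 1 1 0 0, e8 (-1) 0 1 (-1) 0 0 1 (-1)),
   (fun δ => bo (δ.fst.im.im + δ.snd.im.im),
      e8 0 1 1 1 0 0 0 0, e8 0 (-1) 1 (-1) 0 0 0 0),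
   (fun δ => bo (δ.snd.re.im + δ.snd.im.im),
      e8 0 0 1 0 1 0 1 0, e8 0 0 1 0 1 0 1 0),
   (fun δ => bo δ.snd.im.im,
      e8 0 1 1 1 1 1 1 1, e8 0 1 1 1 1 1 1 1)]

/-- the reduction list -/
def lC : List ((Dbl F4' false → Bool) × Dbl F4' false) := uC.map fun p => (p.1, redC p.2.2)

theorem uC_spec : ∀ p ∈ uC, p.2.1 * p.2.2 = 1 ∧ p.2.2 * p.2.1 = 1 := by decide

/-- augmentation of `𝔽_2[D_8]` -/
def augC : Dbl F4' false →+* F2 := augB.comp r42

theorem lC_lift : ∀ δ : Dbl F4' false, augC δ = 1 → rd lC δ = 1 := by decide +kernel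

theorem lftC (δ δ' : Dbl F4' false) (h : δ * δ' = 1) : Lft redC δ := by
  have h1 : augC δ = 1 := F2_unit _ (augC δ') (by rw [← map_mul, h, map_one])
  apply Lft_of_rd lC
  · intro p hp
    obtain ⟨q, hq, rfl⟩ := List.mem_map.1 hp
    exact ⟨q.2.1, q.2.2, (uC_spec q hq).1, (uC_spec q hq).2, rfl⟩
  · rw [lC_lift δ h1]
    exact Lft.one _

/-! ### pullback squares -/

/-- a pullback square of rings -/
structure PB {T A B C : Type} [Ring T] [Ring A] [Ring B] [Ring C] (f : T →+* A) (g : T →+* B)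
    (p : A →+* C) (q : B →+* C) : Prop where
  comm : ∀ t, p (f t) = q (g t)
  inj : ∀ t, f t = 0 → g t = 0 → t = 0
  surj : ∀ x y, p x = q y → ∃ t, f t = x ∧ g t = y

theorem PB.qs {T A B C : Type} [CommRing T] [CommRing A] [CommRing B] [CommRing C] {f : T →+* A}
    {g : T →+* B} {p : A →+* C} {q : B →+* C} (h : PB f g p q) {s : T} {s1 : A} {s2 : B} {s3 : C}
    (h1 : f s = s1) (h2 : g s = s2) (h3 : p s1 = s3) (h4 : q s2 = s3) :
    PB (Qs.map f h1) (Qs.map g h2) (Qs.map p h3) (Qs.map q h4) where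
  comm t := by
    ext
    · exact h.comm _
    · exact h.comm _
  inj t ha hb := by
    ext
    · exact h.inj _ (congrArg Qs.re ha) (congrArg Qs.re hb)
    · exact h.inj _ (congrArg Qs.im ha) (congrArg Qs.im hb)
  surj x y hxy := by
    obtain ⟨a, ha1, ha2⟩ := h.surj x.re y.re (congrArg Qs.re hxy)
    obtain ⟨b, hb1, hb2⟩ := h.surj x.im y.im (congrArg Qs.im hxy)
    refine ⟨⟨a, b⟩, ?_, ?_⟩
    · ext
      · exact ha1
      · exact hb1
    · ext
      · exact ha2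
      · exact hb2

theorem PB.dbl {T A B C : Type} [CommRing T] [CommRing A] [CommRing B] [CommRing C] [Invo T]
    [Invo A] [Invo B] [Invo C] {f : T →+* A}
    {g : T →+* B} {p : A →+* C} {q : B →+* C} (h : PB f g p q) (b : Bool)
    (hf : ∀ x, f (conj x) = conj (f x))
    (hg : ∀ x, g (conj x) = conj (g x)) (hp : ∀ x, p (conj x) = conj (p x))
    (hq : ∀ x, q (conj x) = conj (q x)) :
    PB (Dbl.map f hf : Dbl T b →+* Dbl A b) (Dbl.map g hg : Dbl T b →+* Dbl B b)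
      (Dbl.map p hp : Dbl A b →+* Dbl C b) (Dbl.map q hq : Dbl B b →+* Dbl C b) where
  comm t := by
    ext
    · exact h.comm _
    · exact h.comm _
  inj t ha hb := by
    ext
    · exact h.inj _ (congrArg Dbl.fst ha) (congrArg Dbl.fst hb)
    · exact h.inj _ (congrArg Dbl.snd ha) (congrArg Dbl.snd hb)
  surj x y hxy := by
    obtain ⟨a, ha1, ha2⟩ := h.surj x.fst y.fst (congrArg Dbl.fst hxy)
    obtain ⟨b, hb1, hb2⟩ := h.surj x.snd y.snd (congrArg Dbl.snd hxy)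
    refine ⟨⟨a, b⟩, ?_, ?_⟩
    · ext
      · exact ha1
      · exact hb1
    · ext
      · exact ha2
      · exact hb2

/-- `ℤ[C_2] → ℤ, ℤ` over `𝔽_2` -/
theorem pb0 : PB (Qs.ev (-1) (by decide) : Qs ℤ 1 →+* ℤ) (Qs.ev 1 (one_mul 1)) zF2 zF2 where
  comm t := by
    rw [zF2_eq]
    simp only [Qs.ev_apply]
    exact ⟨t.im, by ring⟩
  inj t h1 h2 := by
    simp only [Qs.ev_apply] at h1 h2
    ext <;> simp <;> linarith
  surj x y h := by
    obtain ⟨k, hk⟩ := zF2_eq.1 h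
    refine ⟨⟨x + k, k⟩, ?_, ?_⟩
    · simp only [Qs.ev_apply]; ring
    · simp only [Qs.ev_apply]; linarith

/-- `ℤ[C_4] → ℤ[i]` -/
def s4z : S4 →+* Z4 := Qs.map (Qs.ev (-1) (by decide)) (by decide)
/-- `ℤ[C_4] → ℤ[C_2]` -/
def s4s : S4 →+* S2 := Qs.map (Qs.ev 1 (one_mul 1)) (by decide)
/-- `ℤ[C_8] → ℤ[ζ_8]` -/
def s8z : S8 →+* Z8 := Qs.map s4z (Qs.map_gen _ _)
/-- `ℤ[C_8] → ℤ[C_4]` -/
def s8s : S8 →+* S4 := Qs.map s4s (Qs.map_gen _ _)

theorem evm_conj (x : Qs ℤ 1) : (Qs.ev (-1) (by decide) : Qs ℤ 1 →+* ℤ) (conj x) =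
    conj ((Qs.ev (-1) (by decide) : Qs ℤ 1 →+* ℤ) x) := Qs.ev_conj _ _ (by decide) x
theorem evp_conj (x : Qs ℤ 1) : (Qs.ev 1 (one_mul 1) : Qs ℤ 1 →+* ℤ) (conj x) =
    conj ((Qs.ev 1 (one_mul 1) : Qs ℤ 1 →+* ℤ) x) := Qs.ev_conj _ _ (by decide) x

theorem s4z_conj (x : S4) : s4z (conj x) = conj (s4z x) := Qs.map_conj _ _ evm_conj x
theorem s4s_conj (x : S4) : s4s (conj x) = conj (s4s x) := Qs.map_conj _ _ evp_conj x
theorem s8z_conj (x : S8) : s8z (conj x) = conj (s8z x) := Qs.map_conj _ _ s4z_conj x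
theorem s8s_conj (x : S8) : s8s (conj x) = conj (s8s x) := Qs.map_conj _ _ s4s_conj x

/-- reduction of `ℤ[C_2]` -/
def m2 : S2 →+* F2' := R2m zF2 (by decide)
/-- reduction of `ℤ[i]` -/
def n2 : Z4 →+* F2' := R2m zF2 (by decide)
/-- reduction of `ℤ[C_4]` -/
def m4 : S4 →+* F4' := R4m zF2 (by decide)
/-- reduction of `ℤ[ζ_8]` -/
def n4 : Z8 →+* F4' := R4m zF2 (by decide)

theorem m2_conj (x : S2) : m2 (conj x) = conj (m2 x) := R2m_conj _ _ zF2_conj x
theorem n2_conj (x : Z4) : n2 (conj x) = conj (n2 x) := R2m_conj _ _ zF2_conj x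
theorem m4_conj (x : S4) : m4 (conj x) = conj (m4 x) := R4m_conj _ _ zF2_conj x
theorem n4_conj (x : Z8) : n4 (conj x) = conj (n4 x) := R4m_conj _ _ zF2_conj x

theorem pb4 : PB s4z s4s n2 m2 := pb0.qs _ _ (by decide) (by decide)
theorem pb8 : PB s8z s8s n4 m4 :=
  pb4.qs _ _ (Qs.map_gen zF2 (by decide)) (Qs.map_gen zF2 (by decide))

/-- transitivity for `ℤ[D_8]` -/
theorem TR_S4 : TR (Dbl S4 false) := by
  have h := pb4.dbl false s4z_conj s4s_conj n2_conj m2_conj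
  exact TR_glue _ _ _ _ h.comm h.inj h.surj TR_Z4 TR_S2 (fun δ δ' h1 _ => lftB δ δ' h1)

/-- transitivity for `ℤ[D_16]` -/
theorem TR_PP : TR PP := by
  have h := pb8.dbl false s8z_conj s8s_conj n4_conj m4_conj
  exact TR_glue _ _ _ _ h.comm h.inj h.surj TR_Z8 TR_S4 (fun δ δ' h1 _ => lftC δ δ' h1)

end Vale.Agent.P246.Q32.U

namespace Vale.Agent.P246.Q32

open Vale.Agent.P246.Q24

/-- transitivity for `ℤ[D_16]` -/
theorem TR_PP : TR PP := U.TR_PP

end Vale.Agent.P246.Q32
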