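import Vale.Agent.P246.Q32.Fr
import Vale.Agent.P246.Q32.Cr
import Mathlib.NumberTheory.Real.Irrational

/-!
# Arithmetic of `ℤ[ζ_16]` and of its real subring
-/

set_option linter.all false

namespace Vale.Agent.P246.Q32

open Vale.Agent.P246 Vale.Agent.P246.Q24 Vale.Agent.P246.Gen

theorem kz_mul (a0 a1 a2 a3 b0 b1 b2 b3 : ℤ) : kz a0 a1 a2 a3 * kz b0 b1 b2 b3 =
    kz (a0 * b0 + 2 * a1 * b1 + 2 * a2 * b2 + 2 * a3 * b3)
      (a0 * b1 + a1 * b0 + a1 * b2 + a2 * b1 + a2 * b3 + a3 * b2)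
      (a0 * b2 + a2 * b0 + a1 * b1 + a1 * b3 + a3 * b1 - a3 * b3)
      (a0 * b3 + a3 * b0 + a1 * b2 + a2 * b1 - a2 * b3 - a3 * b2) := by
  ext <;> simp [kz] <;> ring

theorem kz_add (a0 a1 a2 a3 b0 b1 b2 b3 : ℤ) : kz a0 a1 a2 a3 + kz b0 b1 b2 b3 =
    kz (a0 + b0) (a1 + b1) (a2 + b2) (a3 + b3) := by
  ext <;> simp [kz] <;> ring

theorem kz_neg (a0 a1 a2 a3 : ℤ) : -kz a0 a1 a2 a3 = kz (-a0) (-a1) (-a2) (-a3) := by
  ext <;> simp [kz]

theorem kz_int (m : ℤ) : (m : Z16) = kz m 0 0 0 := by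
  ext <;> simp [kz]

theorem kz_one : (1 : Z16) = kz 1 0 0 0 := by
  ext <;> simp [kz]

theorem kz_zero : (0 : Z16) = kz 0 0 0 0 := by
  ext <;> simp [kz]

theorem kz_inj {a0 a1 a2 a3 b0 b1 b2 b3 : ℤ} (h : kz a0 a1 a2 a3 = kz b0 b1 b2 b3) :
    a0 = b0 ∧ a1 = b1 ∧ a2 = b2 ∧ a3 = b3 :=
  ⟨congrArg (fun z : Z16 => z.re.re.re) h, congrArg (fun z : Z16 => z.im.re.re) h,
    congrArg (fun z : Z16 => z.re.im.re) h, congrArg (fun z : Z16 => z.im.im.re) h⟩

theorem TT_kz (a0 a1 a2 a3 : ℤ) : TT (kz a0 a1 a2 a3) = a0 + a1 := rfl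

theorem kz_conj (a0 a1 a2 a3 : ℤ) : conj (kz a0 a1 a2 a3) = kz a0 a1 a2 a3 := by
  ext <;> simp [kz]

theorem sym_kz {y : Z16} (h : conj y = y) :
    y = kz y.re.re.re y.im.re.re y.re.im.re y.im.im.re := by
  have h1 := congrArg (fun z : Z16 => z.re.re.im) h
  have h2 := congrArg (fun z : Z16 => z.re.im.im) h
  have h3 := congrArg (fun z : Z16 => z.im.re.im) h
  have h4 := congrArg (fun z : Z16 => z.im.im.im) h
  have h5 := congrArg (fun z : Z16 => z.re.im.re) h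
  have h6 := congrArg (fun z : Z16 => z.im.im.re) h
  have h7 := congrArg (fun z : Z16 => z.im.re.re) h
  simp at h1 h2 h3 h4 h5 h6 h7
  ext <;> simp [kz] <;> omega

/-- `2` is not a square -/
theorem sq2 {p q : ℤ} (h : p * p = 2 * (q * q)) : p = 0 ∧ q = 0 := by
  have key : q = 0 := by
    by_contra hq
    have h1 : Irrational (Real.sqrt 2) := irrational_sqrt_two
    apply h1
    have hq' : (q : ℝ) ≠ 0 := by exact_mod_cast hq
    have h2 : (p : ℝ) * p = 2 * (q * q) := by exact_mod_cast h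
    have h3 : (|(p : ℝ) / q|) ^ 2 = 2 := by
      rw [sq_abs, div_pow, div_eq_iff (by positivity)]
      linarith [h2]
    have h4 : Real.sqrt 2 = |(p : ℝ) / q| := by
      rw [← h3]
      exact Real.sqrt_sq (abs_nonneg _)
    rw [h4]
    refine ⟨|(p : ℚ) / q|, ?_⟩
    push_cast
    rfl
  subst key
  refine ⟨?_, rfl⟩
  have : p * p = 0 := by linarith
  exact mul_self_eq_zero.1 this

/-- a nonzero symmetric element divides a nonzero integer -/
theorem exists_cof {y : Z16} (h : conj y = y) (h0 : y ≠ 0) :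
    ∃ (z : Z16) (m : ℤ), conj z = z ∧ m ≠ 0 ∧ y * z = (m : Z16) := by
  rw [sym_kz h] at h0 ⊢
  generalize y.re.re.re = n0 at *
  generalize y.im.re.re = n1 at *
  generalize y.re.im.re = n2 at *
  generalize y.im.im.re = n3 at *
  obtain ⟨p, hp⟩ : ∃ p, p = n0 * n0 + 2 * (n2 * n2) - 2 * (n1 * n1) - 2 * (n3 * n3) := ⟨_, rfl⟩
  obtain ⟨q, hq⟩ : ∃ q, q = 2 * n0 * n2 - n1 * n1 + n3 * n3 - 2 * n1 * n3 := ⟨_, rfl⟩
  have e1 : kz n0 n1 n2 n3 * kz n0 (-n1) n2 (-n3) = kz p 0 q 0 := by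
    rw [kz_mul, hp, hq]
    congr 1 <;> ring
  have e2 : kz p 0 q 0 * kz p 0 (-q) 0 = kz (p * p - 2 * (q * q)) 0 0 0 := by
    rw [kz_mul]
    congr 1 <;> ring
  refine ⟨kz n0 (-n1) n2 (-n3) * kz p 0 (-q) 0, p * p - 2 * (q * q), ?_, ?_, ?_⟩
  · rw [map_mul, kz_conj, kz_conj]
  · intro h1
    obtain ⟨hp0, hq0⟩ := sq2 (p := p) (q := q) (by linarith)
    rw [hp] at hp0
    rw [hq] at hq0
    -- norms of `A = n0 + n2 √2` and `B = (n1 - n3) + n3 √2`
    obtain ⟨b, hb⟩ : ∃ b, b = n1 - n3 := ⟨_, rfl⟩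
    have hn1 : n1 = b + n3 := by rw [hb]; ring
    subst hn1
    have e3 : (n0 * n0 - 2 * (n2 * n2)) * (n0 * n0 - 2 * (n2 * n2)) =
        2 * ((b * b - 2 * (n3 * n3)) * (b * b - 2 * (n3 * n3))) := by
      linear_combination (n0 * n0 + 2 * (n2 * n2) + 2 * ((b + n3) * (b + n3)) + 2 * (n3 * n3)) * hp0
        - 2 * (2 * n0 * n2 + (b + n3) * (b + n3) - n3 * n3 + 2 * (b + n3) * n3) * hq0
    obtain ⟨e4, e5⟩ := sq2 e3
    obtain ⟨e6, e7⟩ := sq2 (p := n0) (q := n2) (by linarith)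
    obtain ⟨e8, e9⟩ := sq2 (p := b) (q := n3) (by linarith)
    subst e6 e7 e8 e9
    apply h0
    rw [kz_zero]
    simp
  · rw [← mul_assoc, e1, e2, kz_int]

theorem TT_self (a : Z16) : 2 * TT (a * conj a) =
    (a.re.re.re + a.im.re.re) * (a.re.re.re + a.im.re.re) +
    (a.im.re.re + a.re.im.re) * (a.im.re.re + a.re.im.re) +
    (a.re.im.re + a.im.im.re) * (a.re.im.re + a.im.im.re) +
    (a.im.im.re + a.re.re.im) * (a.im.im.re + a.re.re.im) +
    (a.re.re.im + a.im.re.im) * (a.re.re.im + a.im.re.im) +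
    (a.im.re.im + a.re.im.im) * (a.im.re.im + a.re.im.im) +
    (a.re.im.im + a.im.im.im) * (a.re.im.im + a.im.im.im) +
    (a.im.im.im - a.re.re.re) * (a.im.im.im - a.re.re.re) := by
  simp [TT]
  ring

theorem TT_y3 (a : Z16) : TT (a * conj a * y3) =
    a.re.re.re * a.re.re.re + a.im.re.re * a.im.re.re + a.re.im.re * a.re.im.re +
    a.im.im.re * a.im.im.re + a.re.re.im * a.re.re.im + a.im.re.im * a.im.re.im +
    a.re.im.im * a.re.im.im + a.im.im.im * a.im.im.im := by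
  simp [TT, y3, kz]
  ring

theorem TT_self_nonneg (a : Z16) : 0 ≤ TT (a * conj a) := by
  have h := TT_self a
  have h1 : ∀ t : ℤ, 0 ≤ t * t := fun t => mul_self_nonneg t
  have := h1 (a.re.re.re + a.im.re.re)
  have := h1 (a.im.re.re + a.re.im.re)
  have := h1 (a.re.im.re + a.im.im.re)
  have := h1 (a.im.im.re + a.re.re.im)
  have := h1 (a.re.re.im + a.im.re.im)
  have := h1 (a.im.re.im + a.re.im.im)
  have := h1 (a.re.im.im + a.im.im.im)
  have := h1 (a.im.im.im - a.re.re.re)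
  linarith

theorem TT_self_zero {a : Z16} (h0 : TT (a * conj a) = 0) : a = 0 := by
  have h := TT_self a
  rw [h0] at h
  have h1 : ∀ t : ℤ, 0 ≤ t * t := fun t => mul_self_nonneg t
  have g1 := h1 (a.re.re.re + a.im.re.re)
  have g2 := h1 (a.im.re.re + a.re.im.re)
  have g3 := h1 (a.re.im.re + a.im.im.re)
  have g4 := h1 (a.im.im.re + a.re.re.im)
  have g5 := h1 (a.re.re.im + a.im.re.im)
  have g6 := h1 (a.im.re.im + a.re.im.im)
  have g7 := h1 (a.re.im.im + a.im.im.im)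
  have g8 := h1 (a.im.im.im - a.re.re.re)
  have k1 := mul_self_eq_zero.1 (by linarith : (a.re.re.re + a.im.re.re) * (a.re.re.re + a.im.re.re) = 0)
  have k2 := mul_self_eq_zero.1 (by linarith : (a.im.re.re + a.re.im.re) * (a.im.re.re + a.re.im.re) = 0)
  have k3 := mul_self_eq_zero.1 (by linarith : (a.re.im.re + a.im.im.re) * (a.re.im.re + a.im.im.re) = 0)
  have k4 := mul_self_eq_zero.1 (by linarith : (a.im.im.re + a.re.re.im) * (a.im.im.re + a.re.re.im) = 0)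
  have k5 := mul_self_eq_zero.1 (by linarith : (a.re.re.im + a.im.re.im) * (a.re.re.im + a.im.re.im) = 0)
  have k6 := mul_self_eq_zero.1 (by linarith : (a.im.re.im + a.re.im.im) * (a.im.re.im + a.re.im.im) = 0)
  have k7 := mul_self_eq_zero.1 (by linarith : (a.re.im.im + a.im.im.im) * (a.re.im.im + a.im.im.im) = 0)
  have k8 := mul_self_eq_zero.1 (by linarith : (a.im.im.im - a.re.re.re) * (a.im.im.im - a.re.re.re) = 0)
  ext <;> simp <;> omega

theorem int_mul_zero {m : ℤ} (hm : m ≠ 0) {x : Z16} (h : (m : Z16) * x = 0) : x = 0 := by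
  have k1 := congrArg (fun z : Z16 => z.re.re.re) h
  have k2 := congrArg (fun z : Z16 => z.re.re.im) h
  have k3 := congrArg (fun z : Z16 => z.re.im.re) h
  have k4 := congrArg (fun z : Z16 => z.re.im.im) h
  have k5 := congrArg (fun z : Z16 => z.im.re.re) h
  have k6 := congrArg (fun z : Z16 => z.im.re.im) h
  have k7 := congrArg (fun z : Z16 => z.im.im.re) h
  have k8 := congrArg (fun z : Z16 => z.im.im.im) h
  simp [hm] at k1 k2 k3 k4 k5 k6 k7 k8
  ext <;> simp [*]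

theorem sym_mul_zero {y x : Z16} (hy : conj y = y) (h0 : y ≠ 0) (h : y * x = 0) : x = 0 := by
  obtain ⟨z, m, h1, h2, h3⟩ := exists_cof hy h0
  apply int_mul_zero h2
  rw [← h3]
  linear_combination z * h

instance : NoZeroDivisors Z16 where
  eq_zero_or_eq_zero_of_mul_eq_zero := by
    intro x y h
    by_cases hx : x = 0
    · exact Or.inl hx
    · right
      have h1 : x * conj x ≠ 0 := by
        intro h2
        apply hx
        apply TT_self_zero
        rw [h2]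
        rfl
      have h3 : conj (x * conj x) = x * conj x := by rw [map_mul, conj_conj, mul_comm]
      apply sym_mul_zero h3 h1
      linear_combination (conj x) * h

instance : Nontrivial Z16 := ⟨0, 1, by decide +kernel⟩

theorem nrd_Gam (z : Gam) : Dbl.nrd z = z.fst * conj z.fst + z.snd * conj z.snd := by
  simp [Dbl.nrd]

theorem TT_add (x y : Z16) : TT (x + y) = TT x + TT y := by
  simp [TT]; ring

theorem TT_nrd_nonneg (z : Gam) : 0 ≤ TT (Dbl.nrd z) := by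
  rw [nrd_Gam, TT_add]
  exact add_nonneg (TT_self_nonneg _) (TT_self_nonneg _)

theorem TT_nrd_zero {z : Gam} (h : TT (Dbl.nrd z) = 0) : z = 0 := by
  rw [nrd_Gam, TT_add] at h
  have h1 := TT_self_nonneg z.fst
  have h2 := TT_self_nonneg z.snd
  exact Dbl.ext (TT_self_zero (by linarith)) (TT_self_zero (by linarith))

theorem nrd_zero {z : Gam} (h : Dbl.nrd z = 0) : z = 0 := by
  apply TT_nrd_zero
  rw [h]
  rfl

theorem Gam_dom {z w : Gam} (h : z * w = 0) : z = 0 ∨ w = 0 := by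
  have h1 : Dbl.nrd z * Dbl.nrd w = 0 := by
    rw [← Dbl.nrd_mul, h]
    simp [Dbl.nrd]
  rcases mul_eq_zero.1 h1 with h2 | h2
  · exact Or.inl (nrd_zero h2)
  · exact Or.inr (nrd_zero h2)

end Vale.Agent.P246.Q32
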