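import Vale.Agent.P246.Q32.Chi
import Vale.Agent.P246.Gen.J

/-!
# Frames: the three classes of kernels of unimodular columns over `ℤ[ζ_16, j]`
-/

set_option linter.all false

namespace Vale.Agent.P246.Q32

open Vale.Agent.P246 Vale.Agent.P246.Q24 Vale.Agent.P246.Gen

/-- the kernel of the column `(a, b)` -/
abbrev Kr (a b : Gam) : Type := LinearMap.ker (colR a b)

/-- the form: reduced norm of the matrix with rows `(c, d)` and `w` -/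
def hh (c d : Gam) (w : Fin 2 → Gam) : Z16 := Dt !![c, d; w 0, w 1]

/-- the coefficient functional `coef(1) + coef(x)` -/
def TT (y : Z16) : ℤ := y.re.re.re + y.im.re.re

/-- the symmetric element `n0 + n1 (x + x⁻¹) + n2 (x² + x⁻²) + n3 (x³ + x⁻³)` -/
def kz (n0 n1 n2 n3 : ℤ) : Z16 := ⟨⟨⟨n0, 0⟩, ⟨n2, -n2⟩⟩, ⟨⟨n1, -n3⟩, ⟨n3, -n1⟩⟩⟩

/-- a totally positive element of norm eight -/
def y3 : Z16 := kz 4 (-3) 2 (-1)
/-- `2 + √2` -/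
def y4 : Z16 := kz 2 0 1 0

/-- the left ideal of all `γ` with `γ g = 0` modulo two -/
def Ig (g : AA) : Submodule Gam Gam where
  carrier := {t | bG t * g = 0}
  add_mem' := by
    intro s t hs ht
    change bG (s + t) * g = 0
    rw [map_add, add_mul, show bG s * g = 0 from hs, show bG t * g = 0 from ht, add_zero]
  zero_mem' := by
    change bG 0 * g = 0
    rw [map_zero, zero_mul]
  smul_mem' := by
    intro c t ht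
    change bG (c * t) * g = 0
    rw [map_mul, mul_assoc, show bG t * g = 0 from ht, mul_zero]

theorem mem_Ig {g : AA} {t : Gam} : t ∈ Ig g ↔ bG t * g = 0 := Iff.rfl

/-- the kernel is isometric to the left ideal `Ig g` with the form `nrd * y / 4` -/
def Frame (a b c d : Gam) (y : Z16) (g : AA) : Prop :=
  ∃ e : Kr a b ≃ₗ[Gam] Ig g, ∀ w : Kr a b, 4 * hh c d w.1 = Dbl.nrd (e w).1 * y

/-- coordinates modulo two -/
structure Beta (a b c d : Gam) where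
  bt : Kr a b → AA
  add : ∀ w w', bt (w + w') = bt w + bt w'
  smul : ∀ (t : Gam) w, bt (t • w) = bG t * bt w
  zero : ∀ w, bt w = 0 → ∃ w', w = w' + w'
  one : ∃ w, bt w = 1
  del : F8
  del' : F8
  del_conj : conj del = del
  del_inv : del * del' = 1
  del_chi : chi del = 0
  det : ∀ w : Kr a b, rZ (hh c d w.1) = Dbl.nrd (bt w) * del

/-- `1 + x⁴ + x⁵` -/
def f0 : F8 := ⟨⟨⟨1, 1⟩, ⟨0, 0⟩⟩, ⟨⟨0, 1⟩, ⟨0, 0⟩⟩⟩
/-- `x + x⁵ + x⁶` -/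
def f0x : F8 := ⟨⟨⟨0, 0⟩, ⟨0, 1⟩⟩, ⟨⟨1, 1⟩, ⟨0, 0⟩⟩⟩
/-- `1 + x + x²` -/
def f1 : F8 := ⟨⟨⟨1, 0⟩, ⟨1, 0⟩⟩, ⟨⟨1, 0⟩, ⟨0, 0⟩⟩⟩
/-- `x + x² + x³` -/
def f1x : F8 := ⟨⟨⟨0, 0⟩, ⟨1, 0⟩⟩, ⟨⟨1, 0⟩, ⟨1, 0⟩⟩⟩

/-- `f0 + y` -/
def gB : AA := ⟨f0, 1⟩
/-- `f0 x + y` -/
def gB' : AA := ⟨f0x, 1⟩
/-- `f1 + y` -/
def gA : AA := ⟨f1, 1⟩
/-- `f1 x + y` -/
def gA' : AA := ⟨f1x, 1⟩

theorem f_checks : f0 * ⟨0, 1⟩ = f0x ∧ f1 * ⟨0, 1⟩ = f1x ∧ Dbl.nrd gB = rZ y3 ∧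
    Dbl.nrd gB' = rZ y3 ∧ Dbl.nrd gA = rZ y4 ∧ Dbl.nrd gA' = rZ y4 := by decide +kernel

end Vale.Agent.P246.Q32
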