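import Vale.Agent.P246.Q32.Glue
import Vale.Agent.P246.Q32.Fr
import Vale.Agent.P246.Gen.MPT

/-!
# Assembly for `Q_32`
-/

set_option linter.all false

namespace Vale.Agent.P246.Q32

open Vale.Agent.P246 Vale.Agent.P246.Q24 Vale.Agent.P246.Gen

attribute [local irreducible] Dt Dbl.nrd

/-- coordinates modulo two exist for columns over `ℤ[Q_32]` -/
theorem exists_beta (TRP : TR PP) {a b c d : LL} (h : c * a + d * b = 1) :
    Nonempty (Beta (Sq.q a) (Sq.q b) (Sq.q c) (Sq.q d)) := by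
  obtain ⟨g, k, hc⟩ := Sq.exists_cmp TRP h
  have t1 : Dt g * Dt k = 1 := by rw [← Dt_mul, hc.gk, Dt_one]
  have t2 : rS (Dt g) * rS (Dt k) = 1 := by rw [← map_mul, t1, map_one]
  exact ⟨{
    bt := Sq.bet k
    add := Sq.bet_add k
    smul := Sq.bet_smul k
    zero := Sq.bet_zero hc
    one := Sq.bet_one hc h
    del := rS (Dt g)
    del' := rS (Dt k)
    del_conj := rS_sym (conj_Dt g)
    del_inv := t2
    del_chi := chi_rS (conj_Dt g) t1
    det := Dt_bet hc h }⟩

theorem four_cancel {x y : Z16} (h : 4 * x = 4 * y) : x = y := by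
  have k1 := congrArg (fun z : Z16 => z.re.re.re) h
  have k2 := congrArg (fun z : Z16 => z.re.re.im) h
  have k3 := congrArg (fun z : Z16 => z.re.im.re) h
  have k4 := congrArg (fun z : Z16 => z.re.im.im) h
  have k5 := congrArg (fun z : Z16 => z.im.re.re) h
  have k6 := congrArg (fun z : Z16 => z.im.re.im) h
  have k7 := congrArg (fun z : Z16 => z.im.im.re) h
  have k8 := congrArg (fun z : Z16 => z.im.im.im) h
  simp at k1 k2 k3 k4 k5 k6 k7 k8
  ext <;> assumption

/-- two columns with a common frame have isomorphic kernels -/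
theorem iso_of_frames (TRP : TR PP) (US : UnitSplit) {a b c d a' b' c' d' : LL}
    (h : c * a + d * b = 1) (h' : c' * a' + d' * b' = 1) {y : Z16} {g : AA}
    (F : Frame (Sq.q a) (Sq.q b) (Sq.q c) (Sq.q d) y g)
    (F' : Frame (Sq.q a') (Sq.q b') (Sq.q c') (Sq.q d') y g) :
    Nonempty (LinearMap.ker (colR a b) ≃ₗ[LL] LinearMap.ker (colR a' b')) := by
  obtain ⟨e, he⟩ := F
  obtain ⟨e', he'⟩ := F'
  refine glue_main TRP US h h' (e.trans e'.symm) ?_
  intro w
  apply four_cancel
  have h1 := he w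
  have h2 := he' ((e.trans e'.symm) w)
  rw [LinearEquiv.trans_apply, LinearEquiv.apply_symm_apply] at h2
  rw [LinearEquiv.trans_apply]
  exact h2.trans h1.symm

/-- the classification over `ℤ[ζ_16, j]` -/
def Classify : Prop := ∀ a b c d : Gam, c * a + d * b = 1 → Beta a b c d →
  Frame a b c d 4 0 ∨ Frame a b c d y3 gB ∨ Frame a b c d y3 gB' ∨ Frame a b c d y4 gA ∨
    Frame a b c d y4 gA'

/-- the frames of a column -/
def Cert (a b : LL) (F : Gam → Gam → Gam → Gam → Prop) : Prop :=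
  ∃ c d : LL, c * a + d * b = 1 ∧ F (pG a) (pG b) (pG c) (pG d)

theorem main_of (TRP : TR PP) (US : UnitSplit) (CL : Classify)
    (C0 : Cert 1 (-(Xn 8 - Yn 8)) (fun a b c d => Frame a b c d 4 0))
    (C1 : Cert (be 8) (Yn 8 - Xn 8) (fun a b c d => Frame a b c d y3 gB' ∧ Frame a b c d y4 gA))
    (C2 : Cert (be 8) (Yn 8 - Xn 8 * Xn 8)
      (fun a b c d => Frame a b c d y3 gB ∧ Frame a b c d y4 gA')) :
    AlgebraicD2Property (QuaternionGroup 8) := by
  apply d2_of 8
  intro a b c d h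
  obtain ⟨B⟩ := exists_beta TRP h
  obtain ⟨c0, d0, h0, F0⟩ := C0
  obtain ⟨c1, d1, h1, F1, F1'⟩ := C1
  obtain ⟨c2, d2, h2, F2, F2'⟩ := C2
  have hG : Sq.q c * Sq.q a + Sq.q d * Sq.q b = 1 := by
    have h2 := congrArg Sq.q h
    simpa only [map_add, map_mul, map_one] using h2
  rcases CL _ _ _ _ hG B with F | F | F | F | F
  · exact realized_std 8 (iso_of_frames TRP US h h0 F F0)
  · exact realized_MP' 8 (iso_of_frames TRP US h h2 F F2)
  · exact realized_MP 8 (iso_of_frames TRP US h h1 F F1)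
  · exact realized_MP 8 (iso_of_frames TRP US h h1 F F1')
  · exact realized_MP' 8 (iso_of_frames TRP US h h2 F F2')

end Vale.Agent.P246.Q32
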