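import Vale.Agent.P246.Q24.F

/-!
# Base rings for the `Q_32` computation

`Qs K s = K[t]`, `t² = s`, `conj t = t⁻¹ = conj s * t` for `s * conj s = 1`; towers
`R2 A e = A[x]/(x² - e)`, `R4`, `R8`.
-/

set_option linter.all false

namespace Vale.Agent.P246.Q32

open Vale.Agent.P246.Q24

/-- elements of norm one -/
class UN {K : Type} [CommRing K] [Invo K] (s : K) : Type where
  h : s * conj s = 1

theorem UN.h' {K : Type} [CommRing K] [Invo K] (s : K) [UN s] : conj s * s = 1 := by
  rw [mul_comm]; exact UN.h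

instance {K : Type} [CommRing K] [Invo K] : UN (1 : K) := ⟨by simp⟩
instance {K : Type} [CommRing K] [Invo K] : UN (-1 : K) := ⟨by simp⟩

/-- `re + im t`, `t² = s` -/
@[ext] structure Qs (K : Type) (s : K) where
  re : K
  im : K
deriving DecidableEq

namespace Qs

variable {K : Type} [CommRing K] {s : K}

instance : Zero (Qs K s) := ⟨⟨0, 0⟩⟩
instance : One (Qs K s) := ⟨⟨1, 0⟩⟩
instance : Add (Qs K s) := ⟨fun x y => ⟨x.re + y.re, x.im + y.im⟩⟩
instance : Neg (Qs K s) := ⟨fun x => ⟨-x.re, -x.im⟩⟩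
instance : Sub (Qs K s) := ⟨fun x y => ⟨x.re - y.re, x.im - y.im⟩⟩
instance : Mul (Qs K s) := ⟨fun x y => ⟨x.re * y.re + s * (x.im * y.im),
  x.re * y.im + x.im * y.re⟩⟩
instance : SMul ℕ (Qs K s) := ⟨fun n x => ⟨n • x.re, n • x.im⟩⟩
instance : SMul ℤ (Qs K s) := ⟨fun n x => ⟨n • x.re, n • x.im⟩⟩
instance : NatCast (Qs K s) := ⟨fun n => ⟨n, 0⟩⟩
instance : IntCast (Qs K s) := ⟨fun n => ⟨n, 0⟩⟩

@[simp] theorem zero_re : (0 : Qs K s).re = 0 := rfl
@[simp] theorem zero_im : (0 : Qs K s).im = 0 := rfl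
@[simp] theorem one_re : (1 : Qs K s).re = 1 := rfl
@[simp] theorem one_im : (1 : Qs K s).im = 0 := rfl
@[simp] theorem add_re (x y : Qs K s) : (x + y).re = x.re + y.re := rfl
@[simp] theorem add_im (x y : Qs K s) : (x + y).im = x.im + y.im := rfl
@[simp] theorem neg_re (x : Qs K s) : (-x).re = -x.re := rfl
@[simp] theorem neg_im (x : Qs K s) : (-x).im = -x.im := rfl
@[simp] theorem sub_re (x y : Qs K s) : (x - y).re = x.re - y.re := rfl
@[simp] theorem sub_im (x y : Qs K s) : (x - y).im = x.im - y.im := rfl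
@[simp] theorem mul_re (x y : Qs K s) :
    (x * y).re = x.re * y.re + s * (x.im * y.im) := rfl
@[simp] theorem mul_im (x y : Qs K s) : (x * y).im = x.re * y.im + x.im * y.re := rfl
@[simp] theorem nsmul_re (n : ℕ) (x : Qs K s) : (n • x).re = n • x.re := rfl
@[simp] theorem nsmul_im (n : ℕ) (x : Qs K s) : (n • x).im = n • x.im := rfl
@[simp] theorem zsmul_re (n : ℤ) (x : Qs K s) : (n • x).re = n • x.re := rfl
@[simp] theorem zsmul_im (n : ℤ) (x : Qs K s) : (n • x).im = n • x.im := rfl
@[simp] theorem natCast_re (n : ℕ) : (n : Qs K s).re = n := rfl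
@[simp] theorem natCast_im (n : ℕ) : (n : Qs K s).im = 0 := rfl
@[simp] theorem intCast_re (n : ℤ) : (n : Qs K s).re = n := rfl
@[simp] theorem intCast_im (n : ℤ) : (n : Qs K s).im = 0 := rfl

instance : CommRing (Qs K s) where
  add_assoc a b c := by ext <;> simp [add_assoc]
  zero_add a := by ext <;> simp
  add_zero a := by ext <;> simp
  add_comm a b := by ext <;> simp [add_comm]
  neg_add_cancel a := by ext <;> simp
  sub_eq_add_neg a b := by ext <;> simp [sub_eq_add_neg]
  nsmul n x := n • x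
  nsmul_zero x := by ext <;> simp
  nsmul_succ n x := by ext <;> simp [add_mul]
  zsmul n x := n • x
  zsmul_zero' x := by ext <;> simp
  zsmul_succ' n x := by ext <;> simp [add_mul]
  zsmul_neg' n x := by ext <;> simp <;> ring
  mul_assoc a b c := by ext <;> simp <;> ring
  one_mul a := by ext <;> simp
  mul_one a := by ext <;> simp
  mul_comm a b := by ext <;> simp <;> ring
  left_distrib a b c := by ext <;> simp <;> ring
  right_distrib a b c := by ext <;> simp <;> ring
  zero_mul a := by ext <;> simp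
  mul_zero a := by ext <;> simp
  natCast n := n
  natCast_zero := by ext <;> simp
  natCast_succ n := by ext <;> simp
  intCast n := n
  intCast_ofNat n := by ext <;> simp
  intCast_negSucc n := by ext <;> simp

@[simp] theorem ofNat_re (n : ℕ) [n.AtLeastTwo] : (ofNat(n) : Qs K s).re = ofNat(n) := by
  change ((n : ℕ) : Qs K s).re = _
  simp; rfl
@[simp] theorem ofNat_im (n : ℕ) [n.AtLeastTwo] : (ofNat(n) : Qs K s).im = 0 := by
  change ((n : ℕ) : Qs K s).im = _
  simp

/-- the generator `t` -/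
def gen : Qs K s := ⟨0, 1⟩

@[simp] theorem gen_re : (gen : Qs K s).re = 0 := rfl
@[simp] theorem gen_im : (gen : Qs K s).im = 1 := rfl

/-- `conj (a + bt) = conj a + conj b conj s t` -/
instance [Invo K] [UN s] : Invo (Qs K s) where
  conj :=
    { toFun := fun x => ⟨conj x.re, conj s * conj x.im⟩
      map_one' := by ext <;> simp
      map_zero' := by ext <;> simp
      map_add' := fun x y => by ext <;> simp <;> ring
      map_mul' := fun x y => by
        ext
        · simp only [mul_re, map_add, map_mul]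
          linear_combination (-(conj s * conj x.im * conj y.im)) * UN.h' s
        · simp only [mul_im, map_add, map_mul]
          ring }
  conj_conj x := by
    ext
    · simp
    · simp only [map_mul, conj_conj, RingHom.coe_mk, MonoidHom.coe_mk, OneHom.coe_mk]
      linear_combination x.im * UN.h' s

@[simp] theorem conj_re [Invo K] [UN s] (x : Qs K s) : (conj x : Qs K s).re = conj x.re := rfl
@[simp] theorem conj_im [Invo K] [UN s] (x : Qs K s) :
    (conj x : Qs K s).im = conj s * conj x.im := rfl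

instance [Invo K] [UN s] : UN (gen : Qs K s) where
  h := by
    ext
    · simp [UN.h]
    · simp

/-- the inclusion of `K` -/
def C : K →+* Qs K s where
  toFun := fun a => ⟨a, 0⟩
  map_one' := rfl
  map_zero' := rfl
  map_add' := fun x y => by ext <;> simp
  map_mul' := fun x y => by ext <;> simp

@[simp] theorem C_re (a : K) : (C a : Qs K s).re = a := rfl
@[simp] theorem C_im (a : K) : (C a : Qs K s).im = 0 := rfl

/-- functoriality -/
def map {L : Type} [CommRing L] {s' : L} (f : K →+* L) (hs : f s = s') : Qs K s →+* Qs L s' where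
  toFun := fun x => ⟨f x.re, f x.im⟩
  map_one' := by ext <;> simp
  map_zero' := by ext <;> simp
  map_add' := fun x y => by ext <;> simp
  map_mul' := fun x y => by ext <;> simp [hs]

@[simp] theorem map_re {L : Type} [CommRing L] {s' : L} (f : K →+* L) (hs : f s = s')
    (x : Qs K s) : (map f hs x).re = f x.re := rfl
@[simp] theorem map_im {L : Type} [CommRing L] {s' : L} (f : K →+* L) (hs : f s = s')
    (x : Qs K s) : (map f hs x).im = f x.im := rfl

theorem map_gen {L : Type} [CommRing L] {s' : L} (f : K →+* L) (hs : f s = s') :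
    map f hs gen = gen := by ext <;> simp

theorem map_conj [Invo K] [UN s] {L : Type} [CommRing L] [Invo L] {s' : L} [UN s'] (f : K →+* L)
    (hs : f s = s') (hf : ∀ r, f (conj r) = conj (f r)) (x : Qs K s) :
    map f hs (conj x) = conj (map f hs x) := by
  ext
  · simp [hf]
  · simp [hf, hs]

/-- evaluation `t ↦ c`, `c² = s` -/
def ev (c : K) (hc : c * c = s) : Qs K s →+* K where
  toFun := fun x => x.re + c * x.im
  map_one' := by simp
  map_zero' := by simp
  map_add' := fun x y => by simp; ring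
  map_mul' := fun x y => by
    simp only [mul_re, mul_im]
    linear_combination (-(x.im * y.im)) * hc

@[simp] theorem ev_apply (c : K) (hc : c * c = s) (x : Qs K s) : ev c hc x = x.re + c * x.im := rfl

theorem ev_conj [Invo K] [UN s] (c : K) (hc : c * c = s) (hc' : c * conj c = 1) (x : Qs K s) :
    ev c hc (conj x) = conj (ev c hc x) := by
  simp only [ev_apply, conj_re, conj_im, map_add, map_mul]
  have h : c * conj s = conj c := by
    rw [← hc, map_mul]
    linear_combination (conj c) * hc'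
  linear_combination (conj x.im) * h

instance [Fintype K] : Fintype (Qs K s) :=
  Fintype.ofEquiv (K × K) ⟨fun p => ⟨p.1, p.2⟩, fun x => (x.re, x.im), fun _ => rfl, fun _ => rfl⟩

end Qs

instance {R : Type} {b : Bool} [Fintype R] : Fintype (Dbl R b) :=
  Fintype.ofEquiv (R × R) ⟨fun p => ⟨p.1, p.2⟩, fun x => (x.fst, x.snd), fun _ => rfl, fun _ => rfl⟩

/-- `A[x]/(x² - e)` -/
abbrev R2 (A : Type) (e : A) : Type := Qs A e
/-- `A[x]/(x⁴ - e)` -/
abbrev R4 (A : Type) [CommRing A] (e : A) : Type := Qs (R2 A e) Qs.gen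
/-- `A[x]/(x⁸ - e)` -/
abbrev R8 (A : Type) [CommRing A] (e : A) : Type := Qs (R4 A e) Qs.gen

section Maps

variable {A B : Type} [CommRing A] [CommRing B] {e : A} {e' : B}

/-- base change -/
def R2m (f : A →+* B) (h : f e = e') : R2 A e →+* R2 B e' := Qs.map f h
/-- base change -/
def R4m (f : A →+* B) (h : f e = e') : R4 A e →+* R4 B e' := Qs.map (R2m f h) (Qs.map_gen _ _)
/-- base change -/
def R8m (f : A →+* B) (h : f e = e') : R8 A e →+* R8 B e' := Qs.map (R4m f h) (Qs.map_gen _ _)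

variable [Invo A] [Invo B] [UN e] [UN e']

theorem R2m_conj (f : A →+* B) (h : f e = e') (hf : ∀ r, f (conj r) = conj (f r)) (x : R2 A e) :
    R2m f h (conj x) = conj (R2m f h x) := Qs.map_conj f h hf x
theorem R4m_conj (f : A →+* B) (h : f e = e') (hf : ∀ r, f (conj r) = conj (f r)) (x : R4 A e) :
    R4m f h (conj x) = conj (R4m f h x) := Qs.map_conj _ _ (R2m_conj f h hf) x
theorem R8m_conj (f : A →+* B) (h : f e = e') (hf : ∀ r, f (conj r) = conj (f r)) (x : R8 A e) :
    R8m f h (conj x) = conj (R8m f h x) := Qs.map_conj _ _ (R4m_conj f h hf) x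

end Maps

/-- `ℤ[C_8]` -/
abbrev S8 : Type := R8 ℤ 1
/-- `ℤ[ζ_16]` -/
abbrev Z16 : Type := R8 ℤ (-1)
/-- `𝔽_2[C_8]` -/
abbrev F8 : Type := R8 F2 1
/-- `ℤ[C_4]` -/
abbrev S4 : Type := R4 ℤ 1
/-- `ℤ[ζ_8]` -/
abbrev Z8 : Type := R4 ℤ (-1)
/-- `𝔽_2[C_4]` -/
abbrev F4' : Type := R4 F2 1
/-- `ℤ[C_2]` -/
abbrev S2 : Type := R2 ℤ 1
/-- `ℤ[i]` -/
abbrev Z4 : Type := R2 ℤ (-1)
/-- `𝔽_2[C_2]` -/
abbrev F2' : Type := R2 F2 1

/-- `ℤ[D_16]` (dihedral of order sixteen) -/
abbrev PP : Type := Dbl S8 false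
/-- `ℤ[ζ_16, j]` -/
abbrev Gam : Type := Dbl Z16 true
/-- `𝔽_2[D_16]` -/
abbrev AA : Type := Dbl F8 false

/-- reduction of `ℤ[D_16]` -/
def aP : PP →+* AA := Dbl.map (R8m zF2 (by decide)) (R8m_conj _ _ zF2_conj)

/-- reduction `ℤ[ζ_16] → 𝔽_2[C_8]` -/
def rZ : Z16 →+* F8 := R8m zF2 (by decide)

theorem rZ_conj (x : Z16) : rZ (conj x) = conj (rZ x) := R8m_conj _ _ zF2_conj x

/-- reduction `ℤ[C_8] → 𝔽_2[C_8]` -/
def rS : S8 →+* F8 := R8m zF2 (by decide)

theorem rS_conj (x : S8) : rS (conj x) = conj (rS x) := R8m_conj _ _ zF2_conj x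

/-- reduction of `ℤ[ζ_16, j]` -/
def bG : Gam →+* AA := Dbl.red2 (by decide) rZ rZ_conj

/-- the coefficient functional `coef(x) + coef(x³)`; `x² = gen`, `x³ = x gen` -/
def chi (z : F8) : F2 := z.im.re.re + z.im.im.re

end Vale.Agent.P246.Q32
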