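import Vale.Agent.P246.Q32.Asm
import Vale.Agent.P246.Q32.Cr

/-!
# The frame of the standard column
-/

set_option linter.all false

namespace Vale.Agent.P246.Q32

open Vale.Agent.P246 Vale.Agent.P246.Q24 Vale.Agent.P246.Gen

theorem D2_one {R : Type} [CommRing R] [Invo R] {i : Bool} (u v : Dbl R i) :
    D2 1 0 u v = Dbl.nrd v := by
  have h1 : Dbl.nrd (1 : Dbl R i) = 1 := by simp [Dbl.nrd]
  rw [D2, Dt_lower, h1, one_mul]

theorem ker_std {R : Type} [Ring R] (a b : R) (ha : a = 1) (I : Submodule R R)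
    (hI : ∀ t, t ∈ I) : ∃ e : LinearMap.ker (colR a b) ≃ₗ[R] I, ∀ w, (e w).1 = w.1 1 := by
  subst ha
  let f : LinearMap.ker (colR 1 b) →ₗ[R] I :=
    { toFun := fun w => ⟨w.1 1, hI _⟩
      map_add' := fun v w => rfl
      map_smul' := fun c w => rfl }
  have hw : ∀ w : LinearMap.ker (colR 1 b), w.1 0 = -(w.1 1 * b) := by
    intro w
    have h : w.1 0 * 1 + w.1 1 * b = 0 := w.2
    rw [mul_one] at h
    exact eq_neg_of_add_eq_zero_left h
  refine ⟨LinearEquiv.ofBijective f ⟨?_, ?_⟩, fun w => rfl⟩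
  · rw [← LinearMap.ker_eq_bot, LinearMap.ker_eq_bot']
    intro w h
    have h1 : w.1 1 = 0 := congrArg Subtype.val h
    have h0 : w.1 0 = 0 := by rw [hw, h1, zero_mul, neg_zero]
    apply Subtype.ext
    funext j
    fin_cases j
    · exact h0
    · exact h1
  · rintro ⟨t, ht⟩
    refine ⟨⟨![-(t * b), t], ?_⟩, rfl⟩
    change -(t * b) * 1 + t * b = 0
    rw [mul_one, neg_add_cancel]

attribute [local irreducible] Dt Dbl.nrd

theorem Ig_zero (t : Gam) : t ∈ Ig 0 := by rw [mem_Ig, mul_zero]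

theorem hh_std (a b : Gam) (w : Kr a b) : hh 1 0 w.1 = Dbl.nrd (w.1 1) := D2_one _ _

theorem four_comm (x : Z16) : 4 * x = x * 4 := mul_comm _ _

theorem exists_e (a b : Gam) (ha : a = 1) : ∃ e : Kr a b ≃ₗ[Gam] Ig 0, ∀ w, (e w).1 = w.1 1 :=
  ker_std a b ha (Ig 0) Ig_zero

theorem frame_aux (a b : Gam) (e : Kr a b ≃ₗ[Gam] Ig 0) (he : ∀ w, (e w).1 = w.1 1)
    (w : Kr a b) : 4 * hh 1 0 w.1 = Dbl.nrd (e w).1 * 4 := by
  rw [hh_std, he, four_comm]

theorem frame_std (a b : Gam) (ha : a = 1) : Frame a b 1 0 4 0 := by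
  obtain ⟨e, he⟩ := exists_e a b ha
  exact ⟨e, frame_aux a b e he⟩

theorem cert0 : Cert 1 (-(Xn 8 - Yn 8)) (fun a b c d => Frame a b c d 4 0) := by
  refine ⟨1, 0, by rw [one_mul, zero_mul, add_zero], ?_⟩
  have h1 : pG 1 = 1 := map_one pG
  have h0 : pG 0 = 0 := map_zero pG
  have h := frame_std (pG 1) (pG (-(Xn 8 - Yn 8))) h1
  rw [← h1, ← h0] at h
  exact h

end Vale.Agent.P246.Q32
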