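import Vale.Agent.P246.Q32.Chi
import Vale.Agent.P246.Q32.GlueA

/-!
# Gluing: stably free modules over `ℤ[Q_32]` are determined by their image over `ℤ[ζ_16, j]`
-/

set_option linter.all false

namespace Vale.Agent.P246.Q32

open Vale.Agent.P246 Vale.Agent.P246.Q24 Vale.Agent.P246.Gen

/-- the fibre square -/
noncomputable def Sq : FSq LL PP Gam AA where
  p := pP
  q := pG
  f := aP
  h := bG
  comm := sq
  inj _ := pi_inj
  surj x y h := pi_surj x y h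
  hsurj := bG_surj
  hker _ := bG_ker
  two _ := Gam_two
  char2 := AA_two

theorem Sq_h : Sq.h = bG := rfl
theorem Sq_f : Sq.f = aP := rfl
theorem Sq_q : Sq.q = pG := rfl
theorem Sq_p : Sq.p = pP := rfl

/-- lifting of units -/
def UnitSplit : Prop := ∀ al al' : AA, al * al' = 1 → al' * al = 1 → chi (Dbl.nrd al) = 0 →
  ∃ (e e' : PP) (h h' : Z16), e * e' = 1 ∧ e' * e = 1 ∧ h * h' = 1 ∧ conj h = h ∧ conj h' = h' ∧
    al = aP e * bG (Dbl.C h)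

theorem nrd_one_b {R : Type} [CommRing R] [Invo R] {b : Bool} : Dbl.nrd (1 : Dbl R b) = 1 := by
  simp [Dbl.nrd]

theorem Dt_up {R : Type} [CommRing R] [Invo R] {b : Bool} (M : Matrix (Fin 2) (Fin 2) (Dbl R b))
    (h0 : M 0 0 = 1) (h1 : M 1 0 = 0) : Dt M = Dbl.nrd (M 1 1) := by
  have h : M = !![1, M 0 1; 0, M 1 1] := by
    apply Matrix.ext
    intro i j
    fin_cases i <;> fin_cases j
    · exact h0
    · rfl
    · exact h1
    · rfl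
  rw [h, Dt_upper, nrd_one_b, one_mul]
  rfl

theorem gup_Dt {R : Type} [CommRing R] [Invo R] {b : Bool} (s d : Dbl R b) :
    Dt (gup s d) = Dbl.nrd d := Dt_up _ rfl rfl

theorem bG_C (h : Z16) : bG (Dbl.C h) = Dbl.C (rZ h) := rfl

theorem Dt_bG (M : Matrix (Fin 2) (Fin 2) Gam) : Dt (bG.mapMatrix M) = rZ (Dt M) :=
  Dt_red2 _ rZ rZ_conj M

theorem Dt_aP (M : Matrix (Fin 2) (Fin 2) PP) : Dt (aP.mapMatrix M) = rS (Dt M) :=
  Dt_map rS rS_conj M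

attribute [local irreducible] Dt Dbl.nrd

/-- the determinant modulo two -/
theorem Dt_bet {a b : LL} {g k : Matrix (Fin 2) (Fin 2) PP} (hc : Cmp (Sq.p a) (Sq.p b) g k)
    {c d : LL} (h : c * a + d * b = 1) (w : Sq.K a b) :
    rZ (Dt !![Sq.q c, Sq.q d; w.1 0, w.1 1]) = Dbl.nrd (Sq.bet k w) * rS (Dt g) := by
  obtain ⟨s, hs⟩ := Sq.mat_bet hc h w
  have e2 := congrArg Dt hs
  rw [Dt_mul, gup_Dt, Sq_h, Sq_f, Dt_bG, Dt_aP] at e2
  exact e2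

theorem rS_sym {D : S8} (h : conj D = D) : conj (rS D) = rS D := by
  rw [← rS_conj, h]

theorem chi_key {D D' E E' : S8} (h1 : conj D = D) (h2 : conj E = E) (h3 : D * D' = 1)
    (h4 : E * E' = 1) {x y : F8} (hx : conj x = x) (h5 : x * y = 1) (h6 : rS D = x * rS E) :
    chi x = 0 := by
  have v2 : rS E * rS E' = 1 := by rw [← map_mul, h4, map_one]
  have c1 := chi_rS h1 h3
  have c2 := chi_rS h2 h4
  have c3 := chi_mul hx (rS_sym h2) (aug_unit h5) (aug_unit v2)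
  rw [← h6, c1, c2, add_zero] at c3
  exact c3.symm

theorem glue_chi {a b c d a' b' c' d' : LL}
    (h : c * a + d * b = 1) (h' : c' * a' + d' * b' = 1) (θ : Sq.K a b ≃ₗ[Gam] Sq.K a' b')
    (hθ : ∀ w, Dt !![Sq.q c', Sq.q d'; (θ w).1 0, (θ w).1 1] =
      Dt !![Sq.q c, Sq.q d; w.1 0, w.1 1]) {g k g' k' : Matrix (Fin 2) (Fin 2) PP}
    {w1 : Sq.K a b} {al al' : AA}
    (hc : Cmp (Sq.p a) (Sq.p b) g k) (hc' : Cmp (Sq.p a') (Sq.p b') g' k')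
    (hw1 : Sq.bet k w1 = 1)
    (hal : Sq.bet k' (θ w1) = al) (u1 : al * al' = 1) : chi (Dbl.nrd al) = 0 := by
  have d1 := Dt_bet hc h w1
  have d2 := Dt_bet hc' h' (θ w1)
  rw [hθ, d1, hw1, nrd_one_b, one_mul, hal] at d2
  have t1 : Dt g * Dt k = 1 := by rw [← Dt_mul, hc.gk, Dt_one]
  have t2 : Dt g' * Dt k' = 1 := by rw [← Dt_mul, hc'.gk, Dt_one]
  have v3 : Dbl.nrd al * Dbl.nrd al' = 1 := by rw [← Dbl.nrd_mul, u1, nrd_one_b]
  exact chi_key (conj_Dt g) (conj_Dt g') t1 t2 (Dbl.conj_nrd al) v3 d2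

theorem C_inv {R : Type} [CommRing R] [Invo R] {b : Bool} {x y : R} (h : x * y = 1) :
    (Dbl.C x : Dbl R b) * Dbl.C y = 1 := by rw [← map_mul, h, map_one]

theorem split_main (US : UnitSplit) {al al' : AA} (u1 : al * al' = 1) (u2 : al' * al = 1)
    (c3 : chi (Dbl.nrd al) = 0) : ∃ (ε ε' : PP) (η η' : Gam), ε * ε' = 1 ∧ ε' * ε = 1 ∧
        η * η' = 1 ∧ η' * η = 1 ∧
        (∀ x, η * x = x * η) ∧ (∀ x, η' * x = x * η') ∧ (∀ x, Sq.h η * x = x * Sq.h η) ∧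
        (∀ x, Sq.h η' * x = x * Sq.h η') ∧ al = Sq.f ε * Sq.h η := by
  obtain ⟨e, e', η, η', f1, f2, f3, f4, f5, f6⟩ := US _ _ u1 u2 c3
  have f3' : η' * η = 1 := by rw [mul_comm, f3]
  have sz : conj (rZ η) = rZ η := by rw [← rZ_conj, f4]
  have sz' : conj (rZ η') = rZ η' := by rw [← rZ_conj, f5]
  have C1 : (Dbl.C η : Gam) * Dbl.C η' = 1 := C_inv f3
  have C2 : (Dbl.C η' : Gam) * Dbl.C η = 1 := C_inv f3'
  have g1 : Sq.h (Dbl.C η) = Dbl.C (rZ η) := by rw [Sq_h, bG_C]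
  have g2 : Sq.h (Dbl.C η') = Dbl.C (rZ η') := by rw [Sq_h, bG_C]
  have C3 : ∀ x, Sq.h (Dbl.C η) * x = x * Sq.h (Dbl.C η) := by
    rw [g1]; exact C_comm sz
  have C4 : ∀ x, Sq.h (Dbl.C η') * x = x * Sq.h (Dbl.C η') := by
    rw [g2]; exact C_comm sz'
  have C5 : ∀ x : Gam, Dbl.C η * x = x * Dbl.C η := C_comm f4
  have C6 : ∀ x : Gam, Dbl.C η' * x = x * Dbl.C η' := C_comm f5
  have C7 : al = Sq.f e * Sq.h (Dbl.C η) := by rw [Sq_f, Sq_h]; exact f6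
  exact ⟨e, e', Dbl.C η, Dbl.C η', f1, f2, C1, C2, C5, C6, C3, C4, C7⟩

theorem glue_main (TRP : TR PP) (US : UnitSplit) {a b c d a' b' c' d' : LL}
    (h : c * a + d * b = 1) (h' : c' * a' + d' * b' = 1) (θ : Sq.K a b ≃ₗ[Gam] Sq.K a' b')
    (hθ : ∀ w, Dt !![Sq.q c', Sq.q d'; (θ w).1 0, (θ w).1 1] =
      Dt !![Sq.q c, Sq.q d; w.1 0, w.1 1]) :
    Nonempty (LinearMap.ker (colR a b) ≃ₗ[LL] LinearMap.ker (colR a' b')) :=
  Sq.glue' TRP h h' θ (fun g k g' k' w1 al al' hc hc' hw1 hal u1 u2 =>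
    split_main US u1 u2 (glue_chi h h' θ hθ hc hc' hw1 hal u1))

end Vale.Agent.P246.Q32
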