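import Vale.Agent.P246.Q32.Ar

/-!
# The form on the kernel of a unimodular column over `ℤ[ζ_16, j]`
-/

set_option linter.all false

namespace Vale.Agent.P246.Q32

open Vale.Agent.P246 Vale.Agent.P246.Q24 Vale.Agent.P246.Gen

theorem hh_D2 (c d : Gam) (w : Fin 2 → Gam) : hh c d w = D2 c d (w 0) (w 1) := rfl

theorem smul_0 (z : Gam) {a b : Gam} (w : Kr a b) : (z • w).1 0 = z * w.1 0 := rfl
theorem smul_1 (z : Gam) {a b : Gam} (w : Kr a b) : (z • w).1 1 = z * w.1 1 := rfl

theorem Kr_eq {a b : Gam} (w : Kr a b) : w.1 0 * a + w.1 1 * b = 0 := w.2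

theorem Kr_ext {a b : Gam} {v w : Kr a b} (h0 : v.1 0 = w.1 0) (h1 : v.1 1 = w.1 1) : v = w := by
  apply Subtype.ext
  funext i
  fin_cases i
  · exact h0
  · exact h1

attribute [local irreducible] Dt Dbl.nrd D2

theorem hh_smul (c d z : Gam) {a b : Gam} (w : Kr a b) :
    hh c d (z • w).1 = Dbl.nrd z * hh c d w.1 := by
  rw [hh_D2, hh_D2, smul_0, smul_1, D2_smul]

theorem hh_sym (c d : Gam) {a b : Gam} (w : Kr a b) : conj (hh c d w.1) = hh c d w.1 := by
  rw [hh_D2, D2_conj]

theorem hh_kz (c d : Gam) {a b : Gam} (w : Kr a b) : ∃ n0 n1 n2 n3,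
    hh c d w.1 = kz n0 n1 n2 n3 := ⟨_, _, _, _, sym_kz (hh_sym c d w)⟩

theorem nrd_C' (m : Z16) : Dbl.nrd (Dbl.C m : Gam) = m * conj m := Dbl.nrd_C m

/-- an element with reduced norm as value of the form, associated to a nonzero element -/
theorem exists_red {a b c d : Gam} (h : c * a + d * b = 1) {w : Kr a b} (hw : w ≠ 0) :
    ∃ (s z : Gam), s ≠ 0 ∧ z ≠ 0 ∧ hh c d (s • w).1 = Dbl.nrd z := by
  by_cases hc : c = 0
  · subst hc
    rw [zero_mul, zero_add] at h
    have hd : d ≠ 0 := by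
      rintro rfl
      rw [zero_mul] at h
      have := congrArg (fun z : Gam => z.fst.re.re.re) h
      exact absurd this (by decide +kernel)
    have hb : b * d = 1 := by
      have h1 : (b * d - 1) * b = 0 := by
        have : (b * d - 1) * b = b * (d * b) - b := by noncomm_ring
        rw [this, h, mul_one, sub_self]
      rcases Gam_dom h1 with h2 | h2
      · exact sub_eq_zero.1 h2
      · rw [h2, mul_zero] at h
        have := congrArg (fun z : Gam => z.fst.re.re.re) h
        exact absurd this (by decide +kernel)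
    refine ⟨d, d * w.1 0 * d, hd, ?_, ?_⟩
    · intro h1
      rcases Gam_dom h1 with h2 | h2
      · rcases Gam_dom h2 with h3 | h3
        · exact hd h3
        · apply hw
          apply Kr_ext
          · exact h3
          · have h4 := Kr_eq w
            rw [h3, zero_mul, zero_add] at h4
            calc w.1 1 = w.1 1 * (b * d) := by rw [hb, mul_one]
              _ = w.1 1 * b * d := by rw [mul_assoc]
              _ = 0 := by rw [h4, zero_mul]
      · exact hd h2
    · rw [hh_smul, hh_D2, D2_swap, Dbl.nrd_mul, Dbl.nrd_mul]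
      ring
  · have hn : Dbl.nrd c ≠ 0 := fun h1 => hc (nrd_zero h1)
    have h1 := mul_left_cancel₀ hn (D2_schur c d (w.1 0) (w.1 1))
    refine ⟨c, Dbl.C (Dbl.nrd c) * w.1 1 - w.1 0 * Dbl.star c * d, hc, ?_, ?_⟩
    rotate_left
    · rw [hh_smul, hh_D2]
      exact h1
    · intro h2
      have h3 := Kr_eq w
      have h4 : Dbl.C (Dbl.nrd c) * w.1 1 = w.1 0 * Dbl.star c * d := sub_eq_zero.1 h2
      have hC : ∀ x : Gam, Dbl.C (Dbl.nrd c) * x = x * Dbl.C (Dbl.nrd c) :=
        C_comm (Dbl.conj_nrd c)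
      have h5 : w.1 0 * Dbl.star c = 0 := by
        calc w.1 0 * Dbl.star c = w.1 0 * Dbl.star c * (c * a + d * b) := by rw [h, mul_one]
          _ = w.1 0 * (Dbl.star c * c) * a + (w.1 0 * Dbl.star c * d) * b := by noncomm_ring
          _ = Dbl.C (Dbl.nrd c) * (w.1 0 * a + w.1 1 * b) := by
            rw [Dbl.star_mul_self, ← h4, ← hC, mul_add, mul_assoc, mul_assoc]
          _ = 0 := by rw [h3, mul_zero]
      have hs : Dbl.star c ≠ 0 := by
        intro h6
        apply hn
        have h7 := Dbl.star_mul_self c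
        rw [h6, zero_mul] at h7
        exact (congrArg Dbl.fst h7).symm
      have h6 : w.1 0 = 0 := (Gam_dom h5).resolve_right hs
      have h7 : Dbl.C (Dbl.nrd c) * w.1 1 = 0 := by rw [h4, h6, zero_mul, zero_mul]
      have h8 : (Dbl.C (Dbl.nrd c) : Gam) ≠ 0 := fun h9 => hn (congrArg Dbl.fst h9)
      exact hw (Kr_ext h6 ((Gam_dom h7).resolve_left h8))

theorem smul_ne {a b : Gam} {z : Gam} (hz : z ≠ 0) {w : Kr a b} (hw : w ≠ 0) : z • w ≠ 0 := by
  intro h
  have h0 : z * w.1 0 = 0 := congrFun (congrArg Subtype.val h) 0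
  have h1 : z * w.1 1 = 0 := congrFun (congrArg Subtype.val h) 1
  exact hw (Kr_ext ((Gam_dom h0).resolve_left hz) ((Gam_dom h1).resolve_left hz))

theorem hh_ne {a b c d : Gam} (h : c * a + d * b = 1) {w : Kr a b} (hw : w ≠ 0) :
    hh c d w.1 ≠ 0 := by
  obtain ⟨s, z, hs, hz, h1⟩ := exists_red h hw
  intro h2
  rw [hh_smul, h2, mul_zero] at h1
  exact hz (nrd_zero h1.symm)

theorem hh_zero (c d : Gam) {a b : Gam} : hh c d (0 : Kr a b).1 = 0 := by
  have h := hh_smul c d 0 (0 : Kr a b)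
  have h0 : Dbl.nrd (0 : Gam) = 0 := by
    have h1 := Dbl.nrd_C (b := true) (0 : Z16)
    rw [map_zero, zero_mul] at h1
    exact h1
  rw [h0, zero_mul, smul_zero] at h
  exact h

/-- positivity -/
theorem TT_pos {a b c d : Gam} (h : c * a + d * b = 1) {w : Kr a b} (hw : w ≠ 0) :
    0 < TT (hh c d w.1) := by
  obtain ⟨s, z, hs, hz, h1⟩ := exists_red h hw
  have hn : Dbl.nrd s ≠ 0 := fun h1 => hs (nrd_zero h1)
  obtain ⟨y, m, hy, hm, h2⟩ := exists_cof (Dbl.conj_nrd s) hn
  -- `m w = (y s*) (s w)`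
  have h3 : hh c d ((Dbl.C (m : Z16) : Gam) • w).1 = Dbl.nrd (Dbl.C y * Dbl.star s * z) := by
    have h4 : (Dbl.C (m : Z16) : Gam) • w = (Dbl.C y * Dbl.star s) • (s • w) := by
      rw [smul_smul, mul_assoc, Dbl.star_mul_self, ← map_mul, ← h2, mul_comm y]
    rw [h4, hh_smul, h1, ← Dbl.nrd_mul]
  have h5 : (Dbl.C y * Dbl.star s * z : Gam) ≠ 0 := by
    intro h6
    rcases Gam_dom h6 with h7 | h7
    · rcases Gam_dom h7 with h8 | h8
      · have h9 : y = 0 := congrArg Dbl.fst h8
        rw [h9, mul_zero] at h2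
        apply hm
        have := congrArg (fun z : Z16 => z.re.re.re) h2
        simpa using this.symm
      · apply hn
        have h9 := Dbl.star_mul_self s
        rw [h8, zero_mul] at h9
        exact (congrArg Dbl.fst h9).symm
    · exact hz h7
  have h6 : 0 < TT (Dbl.nrd (Dbl.C y * Dbl.star s * z)) := by
    rcases (TT_nrd_nonneg (Dbl.C y * Dbl.star s * z)).lt_or_eq with h7 | h7
    · exact h7
    · exact absurd (TT_nrd_zero h7.symm) h5
  rw [← h3, hh_smul, nrd_C'] at h6
  have h7 : TT ((m : Z16) * conj (m : Z16) * hh c d w.1) = m * m * TT (hh c d w.1) := by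
    rw [map_intCast]
    simp [TT]
    ring
  rw [h7] at h6
  exact (pos_iff_pos_of_mul_pos h6).1 (mul_self_pos.2 hm)

theorem TT_hh_nonneg {a b c d : Gam} (h : c * a + d * b = 1) (w : Kr a b) :
    0 ≤ TT (hh c d w.1) := by
  by_cases hw : w = 0
  · rw [hw, hh_zero]; decide +kernel
  · exact (TT_pos h hw).le

/-- Cramer's rule in the kernel -/
theorem Kr_cramer {a b c d : Gam} (h : c * a + d * b = 1) (v w : Kr a b) :
    ∃ t : Gam, (Dbl.C (hh c d v.1) : Gam) • w = t • v ∧
      (v ≠ 0 → hh c d v.1 * hh c d w.1 = Dbl.nrd t) := by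
  obtain ⟨t, h1, h2⟩ := cramer_ker h (Kr_eq v) (Kr_eq w)
  rw [← hh_D2] at h1 h2
  have h3 : (Dbl.C (hh c d v.1) : Gam) • w = t • v := Kr_ext h1 h2
  refine ⟨t, h3, fun hv => ?_⟩
  have h4 := congrArg (fun u : Kr a b => hh c d u.1) h3
  simp only [hh_smul] at h4
  rw [nrd_C', hh_sym] at h4
  apply mul_left_cancel₀ (hh_ne h hv)
  linear_combination h4

end Vale.Agent.P246.Q32
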