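import Vale.Agent.P246.Q32.H0
import Vale.Agent.P246.Q32.H2a

/-!
# The kernel of a unimodular column contains a vector with `TT = 1`
-/

set_option linter.all false

namespace Vale.Agent.P246.Q32

open Vale.Agent.P246 Vale.Agent.P246.Q24 Vale.Agent.P246.Gen

/-- coordinates -/
def eZ : Z16 ≃ₗ[ℤ] (Fin 8 → ℤ) where
  toFun a := ![a.re.re.re, a.im.re.re, a.re.im.re, a.im.im.re, a.re.re.im, a.im.re.im,
    a.re.im.im, a.im.im.im]
  invFun f := ⟨⟨⟨f 0, f 4⟩, ⟨f 2, f 6⟩⟩, ⟨⟨f 1, f 5⟩, ⟨f 3, f 7⟩⟩⟩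
  map_add' a b := by
    funext i
    fin_cases i <;> rfl
  map_smul' m a := by
    funext i
    fin_cases i <;> rfl
  left_inv := by
    intro a
    rfl
  right_inv f := by
    funext i
    fin_cases i <;> rfl

theorem eZ_apply (a : Z16) : eZ a = ![a.re.re.re, a.im.re.re, a.re.im.re, a.im.im.re, a.re.re.im,
    a.im.re.im, a.re.im.im, a.im.im.im] := rfl

instance : Module.Free ℤ Z16 := Module.Free.of_equiv eZ.symm

instance : Module.Finite ℤ Z16 := Module.Finite.equiv eZ.symm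

instance : IsDomain Z16 := NoZeroDivisors.to_isDomain _

/-- `1 + x⁻¹` -/
def uu : Z16 := ⟨⟨⟨1, 0⟩, ⟨0, 0⟩⟩, ⟨⟨0, 0⟩, ⟨0, -1⟩⟩⟩
/-- `uu⁸ / 2` -/
def ww : Z16 := ⟨⟨⟨0, -35⟩, ⟨-14, -14⟩⟩, ⟨⟨-4, -28⟩, ⟨-28, -4⟩⟩⟩
/-- the inverse of `ww` -/
def ww' : Z16 := ⟨⟨⟨0, 931⟩, ⟨658, 658⟩⟩, ⟨⟨-356, -860⟩, ⟨-860, -356⟩⟩⟩

theorem uu_8 : uu * uu * (uu * uu) * (uu * uu * (uu * uu)) = 2 * ww := by decide +kernel

theorem ww_inv : ww * ww' = 1 := by decide +kernel

theorem finrank_Z16 : Module.finrank ℤ Z16 = 8 := by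
  rw [LinearEquiv.finrank_eq eZ, Module.finrank_fin_fun]

theorem norm_two : Algebra.norm ℤ (2 : Z16) = 2 ^ 8 := by
  have h := Algebra.norm_algebraMap_of_basis (Module.Basis.ofEquivFun eZ) (2 : ℤ)
  have h2 : algebraMap ℤ Z16 2 = 2 := by simp
  rw [h2, Fintype.card_fin] at h
  exact h

theorem norm_uu : (Algebra.norm ℤ uu).natAbs = 2 := by
  have h1 := congrArg (Algebra.norm ℤ) uu_8
  have h2 := congrArg (Algebra.norm ℤ) ww_inv
  simp only [map_mul, map_one] at h1 h2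
  rw [norm_two] at h1
  generalize Algebra.norm ℤ uu = n at *
  generalize Algebra.norm ℤ ww = k at *
  generalize Algebra.norm ℤ ww' = k' at *
  have h3 := congrArg Int.natAbs h1
  have h4 : k.natAbs = 1 := by
    have := congrArg Int.natAbs h2
    rw [Int.natAbs_mul] at this
    exact Nat.eq_one_of_mul_eq_one_right this
  simp only [Int.natAbs_mul] at h3
  rw [h4, mul_one] at h3
  have h5 : n.natAbs ^ 8 = 2 ^ 8 := by
    rw [← show ((2 : ℤ) ^ 8).natAbs = 2 ^ 8 from rfl, ← h3]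
    ring
  exact Nat.pow_left_injective (by norm_num : 8 ≠ 0) h5

theorem norm_ne {y : Z16} (h : y ≠ 0) : Algebra.norm ℤ y ≠ 0 := Algebra.norm_ne_zero_iff.2 h

/-- coordinates of pairs -/
def e2 : (Fin 2 → Z16) ≃ₗ[ℤ] (Fin 2 × Fin 8 → ℤ) where
  toFun v p := eZ (v p.1) p.2
  invFun f i := eZ.symm (fun k => f (i, k))
  map_add' v w := by
    funext p
    simp
  map_smul' m v := by
    funext p
    change eZ (m • v p.1) p.2 = m • eZ (v p.1) p.2
    rw [map_smul]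
    rfl
  left_inv v := by
    funext i
    exact eZ.symm_apply_apply (v i)
  right_inv f := by
    funext p
    exact congrFun (eZ.apply_symm_apply (fun k => f (p.1, k))) p.2

theorem e2_apply (v : Fin 2 → Z16) (i : Fin 2) (k : Fin 8) : e2 v (i, k) = eZ (v i) k := rfl

/-- the vector of an element of `Gam` -/
def pv (z : Gam) : Fin 2 → Z16 := ![z.fst, z.snd]

theorem pv_sub (z w : Gam) : pv (z - w) = pv z - pv w := by
  funext i
  fin_cases i <;> rfl

theorem pv_C (m : ℤ) (z : Gam) : pv ((Dbl.C (m : Z16) : Gam) * z) = m • pv z := by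
  funext i
  fin_cases i <;> simp [pv]

theorem exists_pv (v : Fin 2 → Z16) : ∃ z : Gam, pv z = v := by
  refine ⟨⟨v 0, v 1⟩, ?_⟩
  funext i
  fin_cases i <;> rfl

theorem sum_uu (a : Z16) : ∑ k : Fin 8, eZ (uu * a) k * eZ (uu * a) k = 2 * TT (a * conj a) := by
  rw [TT_self, Fin.sum_univ_eight, eZ_apply]
  simp [uu]
  ring

theorem vecMul_rho (z z0 : Gam) : Matrix.vecMul (pv z) (Dbl.rho z0) = pv (z * z0) := by
  funext i
  fin_cases i <;> simp [pv, Dbl.rho, Matrix.vecMul, dotProduct, Fin.sum_univ_two] <;> ring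

theorem hh_big (c d : Gam) (w : Fin 2 → Gam) : (big !![c, d; w 0, w 1]).det = hh c d w := rfl

theorem vc_sub' (p q p' q' : Gam) : vc p q - vc p' q' = vc (p - p') (q - q') := by
  funext i
  rcases i with i | i <;> fin_cases i <;> rfl

theorem vc_mul' {R : Type} [CommRing R] [Invo R] {i : Bool} (s z c d v0 v1 : Dbl R i) :
    Matrix.vecMul (vc s z) (big !![c, d; v0, v1]) = vc (s * c + z * v0) (s * d + z * v1) := by
  rw [vc_mul]
  rfl

theorem sub_smul' {a b : Gam} (x y : Gam) (v : Kr a b) : (x - y) • v = x • v - y • v :=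
  Kr_ext (sub_mul x y (v.1 0)) (sub_mul x y (v.1 1))

attribute [local irreducible] Dt Dbl.nrd D2

theorem exists_B (z0 : Gam) : ∃ B : Matrix (Fin 2 × Fin 8) (Fin 2 × Fin 8) ℤ,
    B.det.natAbs = (Algebra.norm ℤ (Dbl.nrd z0)).natAbs * 4 ∧
    ∀ z : Gam, ∑ c, B.mulVec (e2 (pv z)) c * B.mulVec (e2 (pv z)) c =
      2 * TT (Dbl.nrd (z * z0)) := by
  obtain ⟨M, hM⟩ : ∃ M, M = uu • Dbl.rho z0 := ⟨_, rfl⟩
  have hMd : M.det = uu ^ 2 * Dbl.nrd z0 := by
    rw [hM, Matrix.det_smul, Fintype.card_fin, det_rho]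
  let g : (Fin 2 → Z16) →ₗ[Z16] (Fin 2 → Z16) := Matrix.toLin' M.transpose
  have hg : ∀ x, g x = Matrix.vecMul x M := by
    intro x
    rw [Matrix.toLin'_apply, Matrix.mulVec_transpose]
  let G : (Fin 2 → Z16) →ₗ[ℤ] (Fin 2 → Z16) := g.restrictScalars ℤ
  have hG : LinearMap.det G = Algebra.norm ℤ (uu ^ 2 * Dbl.nrd z0) := by
    rw [LinearMap.det_restrictScalars, LinearMap.det_toLin', Matrix.det_transpose, hMd]
  let E : (Fin 2 × Fin 8 → ℤ) →ₗ[ℤ] (Fin 2 × Fin 8 → ℤ) :=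
    e2.toLinearMap ∘ₗ G ∘ₗ e2.symm.toLinearMap
  have hE : LinearMap.det E = LinearMap.det G := LinearMap.det_conj G e2
  refine ⟨LinearMap.toMatrix' E, ?_, ?_⟩
  · rw [LinearMap.det_toMatrix', hE, hG, map_mul, map_pow, Int.natAbs_mul, Int.natAbs_pow,
      norm_uu, mul_comm]
  · intro z
    have h1 : (LinearMap.toMatrix' E).mulVec (e2 (pv z)) = e2 (uu • pv (z * z0)) := by
      rw [LinearMap.toMatrix'_mulVec]
      change e2 (G (e2.symm (e2 (pv z)))) = _
      rw [LinearEquiv.symm_apply_apply]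
      change e2 (g (pv z)) = _
      rw [hg, hM, Matrix.vecMul_smul, vecMul_rho]
    rw [h1, Fintype.sum_prod_type, Fin.sum_univ_two]
    have h2 : ∀ i, ∑ k : Fin 8, e2 (uu • pv (z * z0)) (i, k) * e2 (uu • pv (z * z0)) (i, k) =
        2 * TT (pv (z * z0) i * conj (pv (z * z0) i)) := fun i => sum_uu _
    rw [h2, h2, nrd_Gam, TT_add]
    change _ = 2 * (TT (pv (z * z0) 0 * conj (pv (z * z0) 0)) +
      TT (pv (z * z0) 1 * conj (pv (z * z0) 1)))
    ring

/-- constructor -/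
def mkKr {a b : Gam} (w0 w1 : Gam) (h : w0 * a + w1 * b = 0) : Kr a b := ⟨![w0, w1], h⟩

theorem mkKr_0 {a b : Gam} (w0 w1 : Gam) (h : w0 * a + w1 * b = 0) : (mkKr w0 w1 h).1 0 = w0 := rfl
theorem mkKr_1 {a b : Gam} (w0 w1 : Gam) (h : w0 * a + w1 * b = 0) : (mkKr w0 w1 h).1 1 = w1 := rfl

theorem one_ne : (1 : Gam) ≠ 0 := by
  intro h
  have := congrArg (fun z : Gam => z.fst.re.re.re) h
  exact absurd this (by decide +kernel)

theorem exists_ne (a b : Gam) : ∃ w : Kr a b, w ≠ 0 := by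
  by_cases ha : a = 0
  · subst ha
    refine ⟨mkKr 1 0 (by rw [mul_zero, zero_mul, add_zero]), fun h => ?_⟩
    have h1 : (1 : Gam) = 0 := congrArg (fun w : Kr 0 b => w.1 0) h
    exact one_ne h1
  · have hn : Dbl.nrd a ≠ 0 := fun h => ha (nrd_zero h)
    have hC : ∀ x : Gam, Dbl.C (Dbl.nrd a) * x = x * Dbl.C (Dbl.nrd a) :=
      C_comm (Dbl.conj_nrd a)
    refine ⟨mkKr (-(b * Dbl.star a)) (Dbl.C (Dbl.nrd a)) ?_, fun h => ?_⟩
    · rw [hC, neg_mul, mul_assoc, Dbl.star_mul_self, neg_add_cancel]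
    · have h1 : (Dbl.C (Dbl.nrd a) : Gam) = 0 := congrArg (fun w : Kr a b => w.1 1) h
      exact hn (congrArg Dbl.fst h1)

theorem exists_split {a b c d : Gam} (h : c * a + d * b = 1) (p q : Gam) :
    ∃ (s : Gam) (w : Kr a b), p = w.1 0 + s * c ∧ q = w.1 1 + s * d := by
  refine ⟨p * a + q * b, mkKr (p - (p * a + q * b) * c) (q - (p * a + q * b) * d) ?_, ?_, ?_⟩
  · have : (p - (p * a + q * b) * c) * a + (q - (p * a + q * b) * d) * b =
        (p * a + q * b) - (p * a + q * b) * (c * a + d * b) := by noncomm_ring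
    rw [this, h, mul_one, sub_self]
  · rw [mkKr_0, sub_add_cancel]
  · rw [mkKr_1, sub_add_cancel]

theorem Kr_zero_of {a b : Gam} {w : Kr a b} (h0 : w.1 0 = 0) (h1 : w.1 1 = 0) : w = 0 :=
  Kr_ext h0 h1

theorem sub_0 {a b : Gam} (v w : Kr a b) : (v - w).1 0 = v.1 0 - w.1 0 := rfl
theorem sub_1 {a b : Gam} (v w : Kr a b) : (v - w).1 1 = v.1 1 - w.1 1 := rfl

theorem TT_mm (m : ℤ) (y : Z16) : TT ((m : Z16) * conj (m : Z16) * y) = m * m * TT y := by
  rw [map_intCast]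
  simp [TT]
  ring

theorem key_ineq {a b c d z0 : Gam} {v w : Kr a b} {T : Gam} {m : ℤ}
    (hz1 : hh c d v.1 = Dbl.nrd z0) (hT : (Dbl.C (m : Z16) : Gam) • w = T • v)
    (hw : 2 ≤ TT (hh c d w.1)) : 4 * (m * m) ≤ 2 * TT (Dbl.nrd (T * z0)) := by
  have h1 : hh c d ((Dbl.C (m : Z16) : Gam) • w).1 = hh c d (T • v).1 := by rw [hT]
  rw [hh_smul, hh_smul, nrd_C', hz1, ← Dbl.nrd_mul] at h1
  rw [← h1, TT_mm]
  have := mul_le_mul_of_nonneg_left hw (mul_self_nonneg m)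
  linarith

/-- differences of representatives are nonzero modulo the lattice -/
theorem reps_ne {a b c d : Gam} {v w w' : Kr a b} {p q p' q' s s' ζ : Gam}
    {M : Matrix (Fin 2 ⊕ Fin 2) (Fin 2 ⊕ Fin 2) Z16} (hM : M = big !![c, d; v.1 0, v.1 1])
    (hp : p = w.1 0 + s * c) (hq : q = w.1 1 + s * d)
    (hp' : p' = w'.1 0 + s' * c) (hq' : q' = w'.1 1 + s' * d) (h : w - w' - ζ • v = 0) :
    ∃ x, vc p q - vc p' q' = Matrix.vecMul x M := by
  refine ⟨vc (s - s') ζ, ?_⟩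
  have h1 : w - w' = ζ • v := sub_eq_zero.1 h
  have h2 : w.1 0 - w'.1 0 = ζ * v.1 0 := congrArg (fun u : Kr a b => u.1 0) h1
  have h3 : w.1 1 - w'.1 1 = ζ * v.1 1 := congrArg (fun u : Kr a b => u.1 1) h1
  have e0 : p - p' = (s - s') * c + ζ * v.1 0 := by
    rw [← h2, hp, hp']
    noncomm_ring
  have e1 : q - q' = (s - s') * d + ζ * v.1 1 := by
    rw [← h3, hq, hq']
    noncomm_ring
  rw [hM, vc_mul', vc_sub', e0, e1]

/-- the crucial existence statement -/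
theorem exists_root {a b c d : Gam} (h : c * a + d * b = 1) :
    ∃ w : Kr a b, TT (hh c d w.1) = 1 := by
  by_contra hcon
  push Not at hcon
  have hge : ∀ w : Kr a b, w ≠ 0 → 2 ≤ TT (hh c d w.1) := by
    intro w hw
    have h1 := TT_pos h hw
    have h2 := hcon w
    omega
  obtain ⟨w0, hw0⟩ := exists_ne a b
  obtain ⟨s0, z0, hs0, hz0, hz1⟩ := exists_red h hw0
  obtain ⟨v, hv⟩ : ∃ v, v = s0 • w0 := ⟨_, rfl⟩
  rw [← hv] at hz1
  have hv0 : v ≠ 0 := by rw [hv]; exact smul_ne hs0 hw0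
  have hn0 : Dbl.nrd z0 ≠ 0 := fun h1 => hz0 (nrd_zero h1)
  obtain ⟨y, m, hy, hm, hym⟩ := exists_cof (Dbl.conj_nrd z0) hn0
  -- coordinates with respect to `v`
  have hT : ∀ w : Kr a b, ∃ T : Gam, (Dbl.C (m : Z16) : Gam) • w = T • v := by
    intro w
    obtain ⟨t, h1, -⟩ := Kr_cramer h v w
    refine ⟨Dbl.C y * t, ?_⟩
    rw [mul_smul, ← h1, smul_smul, ← map_mul, hz1, mul_comm y, hym]
  -- representatives
  obtain ⟨M, hM⟩ : ∃ M : Matrix (Fin 2 ⊕ Fin 2) (Fin 2 ⊕ Fin 2) Z16,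
    M = big !![c, d; v.1 0, v.1 1] := ⟨_, rfl⟩
  have hMd : M.det = Dbl.nrd z0 := by
    rw [hM, ← hz1, ← hh_big]
  have hN := norm_ne hn0
  have hr := exists_reps M (by rw [hMd]; exact hn0) (by rw [hMd]; exact hN)
  rw [hMd] at hr
  obtain ⟨r, hr⟩ := hr
  choose p q hpq using fun i => exists_vc (b := true) (r i)
  choose s w hw1 hw2 using fun i => exists_split h (p i) (q i)
  choose T hTw using fun i => hT (w i)
  obtain ⟨B, hB1, hB2⟩ := exists_B z0
  have hN' := Int.natAbs_ne_zero.2 hN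
  have hB0 : B.det ≠ 0 := by
    intro h1
    rw [h1, Int.natAbs_zero] at hB1
    omega
  have key := pack_int (by rw [Fintype.card_prod, Fintype.card_fin, Fintype.card_fin]) B hB0
    (Algebra.norm ℤ (Dbl.nrd z0)).natAbs hN' hm (fun i => e2 (pv (T i))) ?_
  · omega
  · intro i j z hz
    obtain ⟨ζ, hζ⟩ := exists_pv (e2.symm z)
    have hz1' : z = e2 (pv ζ) := by rw [hζ, LinearEquiv.apply_symm_apply]
    have e1 : e2 (pv (T i)) - e2 (pv (T j)) - m • z =
        e2 (pv (T i - T j - (Dbl.C (m : Z16) : Gam) * ζ)) := by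
      rw [pv_sub, pv_sub, pv_C, map_sub, map_sub, map_smul, hz1']
    rw [e1, hB2]
    apply key_ineq hz1 (w := w i - w j - ζ • v)
    · rw [smul_sub, smul_sub, hTw, hTw, sub_smul', sub_smul', mul_smul]
    · apply hge
      intro h0
      have hij : i = j := by
        apply hr
        rw [hpq, hpq]
        exact reps_ne hM (hw1 i) (hw2 i) (hw1 j) (hw2 j) h0
      subst hij
      rw [sub_self, zero_sub, neg_eq_zero] at h0
      rcases hz with hz | hz
      · exact hz rfl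
      · apply hz
        by_contra hz2
        have hζ0 : ζ ≠ 0 := by
          intro h5
          apply hz2
          rw [hz1', h5]
          have : pv (0 : Gam) = 0 := by
            funext i
            fin_cases i <;> rfl
          rw [this, map_zero]
        exact smul_ne hζ0 hv0 h0

end Vale.Agent.P246.Q32
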