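import Vale.Agent.P246.Q32.H0

/-!
# The list of possible values of the form at a root
-/

set_option linter.all false

namespace Vale.Agent.P246.Q32

open Vale.Agent.P246 Vale.Agent.P246.Q24

attribute [local irreducible] Dt Dbl.nrd

/-- coefficients `a0 + a1 x + ... + a7 x⁷` -/
def zq (a0 a1 a2 a3 a4 a5 a6 a7 : ℤ) : Z16 := ⟨⟨⟨a0, a4⟩, ⟨a2, a6⟩⟩, ⟨⟨a1, a5⟩, ⟨a3, a7⟩⟩⟩

/-- `TT (z z̄ y)` -/
def tq (z : Z16) (n0 n1 n2 n3 : ℤ) : ℤ := TT (z * conj z * kz n0 n1 n2 n3)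

theorem tq1 (n0 n1 n2 n3 : ℤ) : tq (zq 1 1 0 0 0 0 0 0) n0 n1 n2 n3 =
    2 * (n0 + n1) + (2 * n1 + n0 + n2) := by
  simp [tq, TT, zq, kz]; ring

theorem tq1' (n0 n1 n2 n3 : ℤ) : tq (zq 1 (-1) 0 0 0 0 0 0) n0 n1 n2 n3 =
    2 * (n0 + n1) - (2 * n1 + n0 + n2) := by
  simp [tq, TT, zq, kz]; ring

theorem tq2 (n0 n1 n2 n3 : ℤ) : tq (zq 1 0 1 0 0 0 0 0) n0 n1 n2 n3 =
    2 * (n0 + n1) + (2 * n2 + n1 + n3) := by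
  simp [tq, TT, zq, kz]; ring

theorem tq2' (n0 n1 n2 n3 : ℤ) : tq (zq 1 0 (-1) 0 0 0 0 0) n0 n1 n2 n3 =
    2 * (n0 + n1) - (2 * n2 + n1 + n3) := by
  simp [tq, TT, zq, kz]; ring

theorem tq3 (n0 n1 n2 n3 : ℤ) : tq (zq 1 0 0 1 0 0 0 0) n0 n1 n2 n3 =
    2 * (n0 + n1) + (2 * n3 + n2) := by
  simp [tq, TT, zq, kz]; ring

theorem tq3' (n0 n1 n2 n3 : ℤ) : tq (zq 1 0 0 (-1) 0 0 0 0) n0 n1 n2 n3 =
    2 * (n0 + n1) - (2 * n3 + n2) := by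
  simp [tq, TT, zq, kz]; ring

/-- the list, abstract form -/
theorem root_abs (n0 n1 n2 n3 : ℤ) (hT : n0 + n1 = 1)
    (hp : ∀ z : Z16, z ≠ 0 → 0 < tq z n0 n1 n2 n3) :
    kz n0 n1 n2 n3 = kz 1 0 0 0 ∨ kz n0 n1 n2 n3 = kz 3 (-2) 1 0 ∨
    kz n0 n1 n2 n3 = kz 5 (-4) 3 (-2) ∨ kz n0 n1 n2 n3 = kz 7 (-6) 4 (-2) ∨
    kz n0 n1 n2 n3 = kz 2 (-1) 0 0 ∨ kz n0 n1 n2 n3 = kz 6 (-5) 4 (-2) ∨
    kz n0 n1 n2 n3 = y3 := by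
  have a1 := hp (zq 1 1 0 0 0 0 0 0) (by decide +kernel)
  have a2 := hp (zq 1 (-1) 0 0 0 0 0 0) (by decide +kernel)
  have a3 := hp (zq 1 0 1 0 0 0 0 0) (by decide +kernel)
  have a4 := hp (zq 1 0 (-1) 0 0 0 0 0) (by decide +kernel)
  have a5 := hp (zq 1 0 0 1 0 0 0 0) (by decide +kernel)
  have a6 := hp (zq 1 0 0 (-1) 0 0 0 0) (by decide +kernel)
  rw [tq1] at a1
  rw [tq1'] at a2
  rw [tq2] at a3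
  rw [tq2'] at a4
  rw [tq3] at a5
  rw [tq3'] at a6
  have hu : 1 + n1 + n2 = -1 ∨ 1 + n1 + n2 = 0 ∨ 1 + n1 + n2 = 1 := by omega
  have hv : 2 * n2 + n1 + n3 = -1 ∨ 2 * n2 + n1 + n3 = 0 ∨ 2 * n2 + n1 + n3 = 1 := by omega
  have hw : 2 * n3 + n2 = -1 ∨ 2 * n3 + n2 = 0 ∨ 2 * n3 + n2 = 1 := by omega
  clear a1 a2 a3 a4 a5 a6
  rcases hu with hu | hu | hu <;> rcases hv with hv | hv | hv <;> rcases hw with hw | hw | hw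
  · obtain ⟨rfl, rfl, rfl, rfl⟩ : n0 = 6 ∧ n1 = -5 ∧ n2 = 3 ∧ n3 = -2 := by omega
    exact absurd (hp (zq 0 0 0 0 0 1 1 1) (by decide +kernel)) (by decide +kernel)
  · obtain ⟨rfl, rfl, rfl, rfl⟩ : n0 = 5 ∧ n1 = -4 ∧ n2 = 2 ∧ n3 = -1 := by omega
    exact absurd (hp (zq 0 0 0 0 0 1 1 1) (by decide +kernel)) (by decide +kernel)
  · obtain ⟨rfl, rfl, rfl, rfl⟩ : n0 = 4 ∧ n1 = -3 ∧ n2 = 1 ∧ n3 = 0 := by omega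
    exact absurd (hp (zq 0 0 0 0 0 1 1 1) (by decide +kernel)) (by decide +kernel)
  · obtain ⟨rfl, rfl, rfl, rfl⟩ : n0 = 8 ∧ n1 = -7 ∧ n2 = 5 ∧ n3 = -3 := by omega
    exact absurd (hp (zq 0 0 0 0 1 1 1 1) (by decide +kernel)) (by decide +kernel)
  · obtain ⟨rfl, rfl, rfl, rfl⟩ : n0 = 7 ∧ n1 = -6 ∧ n2 = 4 ∧ n3 = -2 := by omega
    exact Or.inr (Or.inr (Or.inr (Or.inl rfl)))
  · obtain ⟨rfl, rfl, rfl, rfl⟩ : n0 = 6 ∧ n1 = -5 ∧ n2 = 3 ∧ n3 = -1 := by omega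
    exact absurd (hp (zq 0 0 0 1 1 0 (-1) (-1)) (by decide +kernel)) (by decide +kernel)
  · obtain ⟨rfl, rfl, rfl, rfl⟩ : n0 = 10 ∧ n1 = -9 ∧ n2 = 7 ∧ n3 = -4 := by omega
    exact absurd (hp (zq 0 0 1 0 0 1 0 (-1)) (by decide +kernel)) (by decide +kernel)
  · obtain ⟨rfl, rfl, rfl, rfl⟩ : n0 = 9 ∧ n1 = -8 ∧ n2 = 6 ∧ n3 = -3 := by omega
    exact absurd (hp (zq 0 1 0 (-1) (-1) 0 1 1) (by decide +kernel)) (by decide +kernel)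
  · obtain ⟨rfl, rfl, rfl, rfl⟩ : n0 = 8 ∧ n1 = -7 ∧ n2 = 5 ∧ n3 = -2 := by omega
    exact absurd (hp (zq 0 0 0 0 1 0 (-1) (-1)) (by decide +kernel)) (by decide +kernel)
  · obtain ⟨rfl, rfl, rfl, rfl⟩ : n0 = 3 ∧ n1 = -2 ∧ n2 = 1 ∧ n3 = -1 := by omega
    exact absurd (hp (zq 0 0 0 1 1 1 1 1) (by decide +kernel)) (by decide +kernel)
  · obtain ⟨rfl, rfl, rfl, rfl⟩ : n0 = 2 ∧ n1 = -1 ∧ n2 = 0 ∧ n3 = 0 := by omega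
    exact Or.inr (Or.inr (Or.inr (Or.inr (Or.inl rfl))))
  · obtain ⟨rfl, rfl, rfl, rfl⟩ : n0 = 1 ∧ n1 = 0 ∧ n2 = -1 ∧ n3 = 1 := by omega
    exact absurd (hp (zq 0 0 0 1 (-1) 1 (-1) 1) (by decide +kernel)) (by decide +kernel)
  · obtain ⟨rfl, rfl, rfl, rfl⟩ : n0 = 5 ∧ n1 = -4 ∧ n2 = 3 ∧ n3 = -2 := by omega
    exact Or.inr (Or.inr (Or.inl rfl))
  · obtain ⟨rfl, rfl, rfl, rfl⟩ : n0 = 4 ∧ n1 = -3 ∧ n2 = 2 ∧ n3 = -1 := by omega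
    exact Or.inr (Or.inr (Or.inr (Or.inr (Or.inr (Or.inr (rfl))))))
  · obtain ⟨rfl, rfl, rfl, rfl⟩ : n0 = 3 ∧ n1 = -2 ∧ n2 = 1 ∧ n3 = 0 := by omega
    exact Or.inr (Or.inl rfl)
  · obtain ⟨rfl, rfl, rfl, rfl⟩ : n0 = 7 ∧ n1 = -6 ∧ n2 = 5 ∧ n3 = -3 := by omega
    exact absurd (hp (zq 0 0 1 0 0 1 0 (-1)) (by decide +kernel)) (by decide +kernel)
  · obtain ⟨rfl, rfl, rfl, rfl⟩ : n0 = 6 ∧ n1 = -5 ∧ n2 = 4 ∧ n3 = -2 := by omega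
    exact Or.inr (Or.inr (Or.inr (Or.inr (Or.inr (Or.inl rfl)))))
  · obtain ⟨rfl, rfl, rfl, rfl⟩ : n0 = 5 ∧ n1 = -4 ∧ n2 = 3 ∧ n3 = -1 := by omega
    exact absurd (hp (zq 0 0 1 0 0 (-1) 0 1) (by decide +kernel)) (by decide +kernel)
  · obtain ⟨rfl, rfl, rfl, rfl⟩ : n0 = 0 ∧ n1 = 1 ∧ n2 = -1 ∧ n3 = 0 := by omega
    exact absurd (hp (zq 0 0 0 0 0 1 (-1) 1) (by decide +kernel)) (by decide +kernel)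
  · obtain ⟨rfl, rfl, rfl, rfl⟩ : n0 = -1 ∧ n1 = 2 ∧ n2 = -2 ∧ n3 = 1 := by omega
    exact absurd (hp (zq 0 0 0 0 0 1 (-1) 1) (by decide +kernel)) (by decide +kernel)
  · obtain ⟨rfl, rfl, rfl, rfl⟩ : n0 = -2 ∧ n1 = 3 ∧ n2 = -3 ∧ n3 = 2 := by omega
    exact absurd (hp (zq 0 0 0 0 0 1 (-1) 1) (by decide +kernel)) (by decide +kernel)
  · obtain ⟨rfl, rfl, rfl, rfl⟩ : n0 = 2 ∧ n1 = -1 ∧ n2 = 1 ∧ n3 = -1 := by omega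
    exact absurd (hp (zq 0 0 0 1 (-1) 0 1 (-1)) (by decide +kernel)) (by decide +kernel)
  · obtain ⟨rfl, rfl, rfl, rfl⟩ : n0 = 1 ∧ n1 = 0 ∧ n2 = 0 ∧ n3 = 0 := by omega
    exact Or.inl rfl
  · obtain ⟨rfl, rfl, rfl, rfl⟩ : n0 = 0 ∧ n1 = 1 ∧ n2 = -1 ∧ n3 = 1 := by omega
    exact absurd (hp (zq 0 0 0 0 1 (-1) 1 (-1)) (by decide +kernel)) (by decide +kernel)
  · obtain ⟨rfl, rfl, rfl, rfl⟩ : n0 = 4 ∧ n1 = -3 ∧ n2 = 3 ∧ n3 = -2 := by omega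
    exact absurd (hp (zq 0 0 0 0 1 0 (-1) 1) (by decide +kernel)) (by decide +kernel)
  · obtain ⟨rfl, rfl, rfl, rfl⟩ : n0 = 3 ∧ n1 = -2 ∧ n2 = 2 ∧ n3 = -1 := by omega
    exact absurd (hp (zq 0 1 0 (-1) 1 0 (-1) 1) (by decide +kernel)) (by decide +kernel)
  · obtain ⟨rfl, rfl, rfl, rfl⟩ : n0 = 2 ∧ n1 = -1 ∧ n2 = 1 ∧ n3 = 0 := by omega
    exact absurd (hp (zq 0 0 1 0 0 (-1) 0 1) (by decide +kernel)) (by decide +kernel)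

/-- the possible values of the form at a root -/
theorem root_list {a b c d : Gam} (h : c * a + d * b = 1) (w : Kr a b)
    (hT : TT (hh c d w.1) = 1) :
    hh c d w.1 = kz 1 0 0 0 ∨ hh c d w.1 = kz 3 (-2) 1 0 ∨
    hh c d w.1 = kz 5 (-4) 3 (-2) ∨ hh c d w.1 = kz 7 (-6) 4 (-2) ∨
    hh c d w.1 = kz 2 (-1) 0 0 ∨ hh c d w.1 = kz 6 (-5) 4 (-2) ∨ hh c d w.1 = y3 := by
  obtain ⟨n0, n1, n2, n3, hn⟩ := hh_kz c d w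
  have hw : w ≠ 0 := by
    rintro rfl
    rw [hh_zero] at hT
    exact absurd hT (by decide +kernel)
  have hp : ∀ z : Z16, z ≠ 0 → 0 < tq z n0 n1 n2 n3 := by
    intro z hz
    have h1 : (Dbl.C z : Gam) ≠ 0 := fun h2 => hz (congrArg Dbl.fst h2)
    have h3 := TT_pos h (smul_ne h1 hw)
    rw [hh_smul, nrd_C', hn] at h3
    exact h3
  have hT' : n0 + n1 = 1 := by
    rw [hn] at hT
    exact hT
  rw [hn]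
  exact root_abs n0 n1 n2 n3 hT' hp

end Vale.Agent.P246.Q32
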