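import Vale.Agent.P246.Q32.H3

/-!
# Finite classification modulo two
-/

set_option linter.all false

namespace Vale.Agent.P246.Q32

open Vale.Agent.P246 Vale.Agent.P246.Q24

/-- coefficients -/
def fq (a0 a1 a2 a3 a4 a5 a6 a7 : F2) : F8 := ⟨⟨⟨a0, a4⟩, ⟨a2, a6⟩⟩, ⟨⟨a1, a5⟩, ⟨a3, a7⟩⟩⟩

/-- the inverse of an element of augmentation one -/
def iv (b : F8) : F8 := b * (b * b) * ((b * b) * (b * b))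

theorem iv_mul : ∀ b : F8, aug8 F2 b = 1 → b * iv b = 1 := by decide +kernel

theorem aug_conj : ∀ b : F8, aug8 F2 (conj b) = aug8 F2 b := by decide +kernel

theorem F2_sq : ∀ z : F2, z * z = z := by decide
theorem F2_sub : ∀ z w : F2, z - w = z + w := by decide

theorem aug_nrd (u : AA) : aug8 F2 (Dbl.nrd u) = aug8 F2 u.fst + aug8 F2 u.snd := by
  rw [Dbl.nrd, sg_false, one_mul, map_sub, map_mul, map_mul, aug_conj, aug_conj, F2_sq, F2_sq,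
    F2_sub]

theorem unit_gen {R : Type} [CommRing R] [Invo R] {b : Bool} (u : Dbl R b) (m : R)
    (h : Dbl.nrd u * m = 1) : ∃ u' : Dbl R b, u * u' = 1 ∧ u' * u = 1 := by
  have e1 : u * (Dbl.star u * Dbl.C m) = 1 := by
    rw [← mul_assoc, Dbl.mul_star, ← map_mul, h, map_one]
  have e2 : (Dbl.C m * Dbl.star u) * u = 1 := by
    rw [mul_assoc, Dbl.star_mul_self, ← map_mul, mul_comm m, h, map_one]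
  refine ⟨Dbl.star u * Dbl.C m, e1, ?_⟩
  have e3 : Dbl.C m * Dbl.star u = Dbl.star u * Dbl.C m := left_inv_eq_right_inv e2 e1
  rw [← e3]; exact e2

attribute [local irreducible] Dbl.nrd

/-- elements of augmentation one are units -/
theorem unit_of_aug (u : AA) (h : aug8 F2 u.fst + aug8 F2 u.snd = 1) :
    ∃ u' : AA, u * u' = 1 ∧ u' * u = 1 := by
  refine unit_gen u (iv (Dbl.nrd u)) (iv_mul (Dbl.nrd u) ?_)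
  rw [aug_nrd]
  exact h

/-- table entries -/
structure TE where
  f : F8
  b : Bool
  k : Fin 4
  u : AA

/-- powers of `x` -/
def zk : Fin 4 → Z16
  | 0 => zq 1 0 0 0 0 0 0 0
  | 1 => zq 0 1 0 0 0 0 0 0
  | 2 => zq 0 0 1 0 0 0 0 0
  | 3 => zq 0 0 0 1 0 0 0 0

/-- inverse powers of `x` -/
def zk' : Fin 4 → Z16
  | 0 => zq 1 0 0 0 0 0 0 0
  | 1 => zq 0 0 0 0 0 0 0 (-1)
  | 2 => zq 0 0 0 0 0 0 (-1) 0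
  | 3 => zq 0 0 0 0 0 (-1) 0 0

theorem zk_mul : ∀ k, zk k * zk' k = 1 ∧ zk' k * conj (zk' k) = 1 := by decide +kernel

/-- the check of an entry -/
def TE.ok (g g' : AA) (e : TE) : Prop :=
  (⟨e.f, 1⟩ : AA) = bG (Dbl.C (zk e.k)) * (bif e.b then g else g') * e.u ∧
    aug8 F2 e.u.fst + aug8 F2 e.u.snd = 1

instance (g g' : AA) (e : TE) : Decidable (TE.ok g g' e) :=
  inferInstanceAs (Decidable (_ ∧ _))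

/-- the solutions for `y3` -/
def tB : List TE := [
  ⟨fq 0 0 0 1 0 0 1 1, false, 0, ⟨fq 1 1 0 0 1 1 0 0, fq 0 0 0 0 0 0 1 0⟩⟩,
  ⟨fq 0 0 0 1 1 0 0 1, false, 3, ⟨fq 0 0 0 1 0 0 0 0, fq 0 0 0 0 0 0 0 0⟩⟩,
  ⟨fq 0 0 1 0 0 0 1 1, true, 1, ⟨fq 0 1 0 0 0 0 0 0, fq 0 0 0 0 0 0 0 0⟩⟩,
  ⟨fq 0 0 1 0 0 1 1 0, true, 0, ⟨fq 1 1 0 0 1 1 0 0, fq 0 0 0 0 0 0 0 1⟩⟩,
  ⟨fq 0 0 1 1 0 0 0 1, false, 2, ⟨fq 0 0 0 1 0 0 0 1, fq 1 0 0 0 0 0 0 0⟩⟩,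
  ⟨fq 0 0 1 1 0 0 1 0, true, 3, ⟨fq 0 0 0 1 0 0 0 0, fq 0 0 0 0 0 0 0 0⟩⟩,
  ⟨fq 0 0 1 1 0 1 1 1, true, 2, ⟨fq 1 0 0 0 1 0 0 1, fq 1 1 0 0 0 0 0 0⟩⟩,
  ⟨fq 0 0 1 1 1 0 1 1, false, 1, ⟨fq 0 1 1 1 0 0 0 1, fq 1 0 0 0 0 0 0 0⟩⟩,
  ⟨fq 0 1 0 0 0 1 1 0, false, 0, ⟨fq 1 0 0 0 0 0 0 0, fq 0 0 0 0 0 0 0 0⟩⟩,
  ⟨fq 0 1 0 0 1 1 0 0, false, 3, ⟨fq 0 1 1 1 0 0 1 0, fq 0 1 0 0 0 0 0 0⟩⟩,
  ⟨fq 0 1 1 0 0 0 1 0, true, 2, ⟨fq 0 0 0 1 0 0 0 1, fq 0 1 0 0 0 0 0 0⟩⟩,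
  ⟨fq 0 1 1 0 0 1 0 0, false, 2, ⟨fq 0 0 1 0 0 0 0 0, fq 0 0 0 0 0 0 0 0⟩⟩,
  ⟨fq 0 1 1 0 0 1 1 1, true, 3, ⟨fq 0 0 1 0 0 0 0 1, fq 0 1 0 0 0 0 0 0⟩⟩,
  ⟨fq 0 1 1 0 1 1 1 0, false, 1, ⟨fq 1 1 1 0 1 0 0 1, fq 1 0 0 0 0 0 0 1⟩⟩,
  ⟨fq 0 1 1 1 0 0 1 1, true, 0, ⟨fq 1 1 1 0 1 0 1 0, fq 0 0 0 0 0 0 1 1⟩⟩,
  ⟨fq 0 1 1 1 0 1 1 0, true, 1, ⟨fq 0 0 0 0 1 1 0 0, fq 0 0 0 0 0 0 0 1⟩⟩,
  ⟨fq 1 0 0 0 1 0 0 1, true, 1, ⟨fq 1 1 0 1 1 0 0 0, fq 1 0 0 0 0 0 0 0⟩⟩,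
  ⟨fq 1 0 0 0 1 1 0 0, true, 0, ⟨fq 1 0 0 0 0 0 0 0, fq 0 0 0 0 0 0 0 0⟩⟩,
  ⟨fq 1 0 0 1 0 0 0 1, false, 1, ⟨fq 0 1 0 0 0 0 0 0, fq 0 0 0 0 0 0 0 0⟩⟩,
  ⟨fq 1 0 0 1 1 0 0 0, true, 3, ⟨fq 0 1 1 1 0 0 1 0, fq 0 0 1 0 0 0 0 0⟩⟩,
  ⟨fq 1 0 0 1 1 0 1 1, false, 2, ⟨fq 0 1 1 1 0 0 1 1, fq 1 1 0 0 0 0 0 0⟩⟩,
  ⟨fq 1 0 0 1 1 1 0 1, true, 2, ⟨fq 1 0 1 1 1 0 0 0, fq 1 0 0 0 0 0 0 0⟩⟩,
  ⟨fq 1 0 1 1 0 0 1 1, false, 3, ⟨fq 1 1 0 1 0 1 0 0, fq 0 0 1 0 0 0 0 0⟩⟩,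
  ⟨fq 1 0 1 1 1 0 0 1, false, 0, ⟨fq 0 1 0 1 0 1 0 0, fq 0 0 0 0 0 0 1 1⟩⟩,
  ⟨fq 1 1 0 0 0 1 0 0, false, 1, ⟨fq 1 1 0 1 1 0 0 0, fq 0 0 0 0 0 0 0 1⟩⟩,
  ⟨fq 1 1 0 0 1 0 0 0, true, 2, ⟨fq 0 0 1 0 0 0 0 0, fq 0 0 0 0 0 0 0 0⟩⟩,
  ⟨fq 1 1 0 0 1 1 0 1, true, 3, ⟨fq 0 1 0 0 0 0 1 1, fq 0 1 1 0 0 0 0 0⟩⟩,
  ⟨fq 1 1 0 0 1 1 1 0, false, 2, ⟨fq 0 1 0 0 0 0 1 0, fq 0 1 0 0 0 0 0 0⟩⟩,
  ⟨fq 1 1 0 1 1 0 0 1, true, 0, ⟨fq 1 0 1 0 0 1 1 0, fq 0 0 0 0 0 0 1 0⟩⟩,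
  ⟨fq 1 1 0 1 1 1 0 0, true, 1, ⟨fq 1 0 0 1 0 1 0 0, fq 1 0 0 0 0 0 0 1⟩⟩,
  ⟨fq 1 1 1 0 0 1 1 0, false, 3, ⟨fq 1 0 1 1 0 1 1 0, fq 0 1 1 0 0 0 0 0⟩⟩,
  ⟨fq 1 1 1 0 1 1 0 0, false, 0, ⟨fq 0 0 0 1 1 0 0 0, fq 0 0 0 0 0 0 0 1⟩⟩]

/-- the solutions for `y4` -/
def tA : List TE := [
  ⟨fq 0 0 0 0 0 1 1 1, false, 0, ⟨fq 1 0 0 1 0 0 1 1, fq 0 0 0 0 1 1 0 1⟩⟩,
  ⟨fq 0 0 0 0 1 1 1 0, true, 0, ⟨fq 0 0 1 0 1 0 0 0, fq 0 0 0 0 1 1 1 0⟩⟩,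
  ⟨fq 0 0 0 1 1 1 0 0, false, 1, ⟨fq 0 1 0 0 0 0 0 0, fq 0 0 0 0 0 0 0 0⟩⟩,
  ⟨fq 0 0 0 1 1 1 1 1, true, 0, ⟨fq 1 1 1 0 1 0 0 1, fq 0 0 0 0 1 1 1 1⟩⟩,
  ⟨fq 0 0 1 0 0 1 0 1, false, 0, ⟨fq 1 1 1 0 0 0 1 1, fq 0 0 0 0 0 1 0 1⟩⟩,
  ⟨fq 0 0 1 0 1 0 0 1, true, 1, ⟨fq 1 1 0 0 0 0 1 1, fq 1 0 0 0 0 0 0 0⟩⟩,
  ⟨fq 0 0 1 1 1 0 0 0, true, 1, ⟨fq 0 1 0 0 0 0 0 0, fq 0 0 0 0 0 0 0 0⟩⟩,
  ⟨fq 0 0 1 1 1 1 1 0, false, 1, ⟨fq 1 0 1 0 0 0 0 0, fq 0 0 0 0 0 1 0 0⟩⟩,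
  ⟨fq 0 1 0 0 1 0 0 1, false, 1, ⟨fq 1 0 0 0 0 1 1 0, fq 1 0 0 0 0 0 1 0⟩⟩,
  ⟨fq 0 1 0 0 1 0 1 0, true, 0, ⟨fq 0 1 0 1 1 0 0 0, fq 0 0 0 0 1 0 1 0⟩⟩,
  ⟨fq 0 1 0 1 0 0 1 0, false, 0, ⟨fq 1 1 1 1 0 0 0 0, fq 0 0 0 0 1 0 0 0⟩⟩,
  ⟨fq 0 1 0 1 1 0 1 1, true, 0, ⟨fq 1 0 0 1 1 0 0 1, fq 0 0 0 0 1 0 1 1⟩⟩,
  ⟨fq 0 1 1 0 1 0 1 1, false, 1, ⟨fq 0 1 1 0 0 1 1 0, fq 1 0 0 0 0 1 1 0⟩⟩,
  ⟨fq 0 1 1 0 1 1 0 1, true, 1, ⟨fq 0 0 1 0 0 0 1 1, fq 1 0 0 0 0 0 1 0⟩⟩,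
  ⟨fq 0 1 1 1 0 0 0 0, false, 0, ⟨fq 1 0 0 0 0 0 0 0, fq 0 0 0 0 0 0 0 0⟩⟩,
  ⟨fq 0 1 1 1 1 1 0 0, true, 1, ⟨fq 1 0 1 0 0 0 0 0, fq 0 0 0 0 0 0 1 0⟩⟩,
  ⟨fq 1 0 0 0 0 0 1 1, true, 1, ⟨fq 0 1 1 1 0 0 1 0, fq 1 0 0 0 0 1 0 1⟩⟩,
  ⟨fq 1 0 0 0 1 1 1 1, false, 0, ⟨fq 0 1 0 1 0 0 1 0, fq 0 0 0 0 1 1 1 1⟩⟩,
  ⟨fq 1 0 0 1 0 0 1 0, true, 1, ⟨fq 1 1 1 1 0 0 0 1, fq 0 0 0 0 0 1 0 1⟩⟩,
  ⟨fq 1 0 0 1 0 1 0 0, false, 1, ⟨fq 1 1 0 0 0 0 1 1, fq 0 0 0 0 0 0 0 1⟩⟩,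
  ⟨fq 1 0 1 0 0 1 0 0, true, 0, ⟨fq 1 1 1 1 0 0 0 0, fq 0 0 0 0 0 1 0 0⟩⟩,
  ⟨fq 1 0 1 0 1 1 0 1, false, 0, ⟨fq 0 0 1 0 0 0 1 0, fq 0 0 0 0 0 1 1 1⟩⟩,
  ⟨fq 1 0 1 1 0 1 0 1, true, 0, ⟨fq 0 0 1 1 0 0 0 1, fq 0 0 0 0 0 1 0 1⟩⟩,
  ⟨fq 1 0 1 1 0 1 1 0, false, 1, ⟨fq 0 0 1 0 0 0 1 1, fq 0 0 0 0 0 1 0 1⟩⟩,
  ⟨fq 1 1 0 0 0 0 0 1, false, 1, ⟨fq 0 0 0 0 0 1 0 1, fq 1 0 0 0 0 0 1 1⟩⟩,
  ⟨fq 1 1 0 0 0 1 1 1, true, 1, ⟨fq 1 0 0 1 0 0 1 0, fq 1 0 0 0 0 1 1 1⟩⟩,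
  ⟨fq 1 1 0 1 0 1 1 0, true, 1, ⟨fq 0 0 0 1 0 0 0 1, fq 0 0 0 0 0 1 1 1⟩⟩,
  ⟨fq 1 1 0 1 1 0 1 0, false, 0, ⟨fq 0 0 1 1 0 0 0 1, fq 0 0 0 0 1 0 1 0⟩⟩,
  ⟨fq 1 1 1 0 0 0 0 0, true, 0, ⟨fq 1 0 0 0 0 0 0 0, fq 0 0 0 0 0 0 0 0⟩⟩,
  ⟨fq 1 1 1 0 0 0 1 1, false, 1, ⟨fq 1 1 1 0 0 1 0 1, fq 1 0 0 0 0 1 1 1⟩⟩,
  ⟨fq 1 1 1 1 0 0 0 1, true, 0, ⟨fq 0 1 0 0 0 0 0 1, fq 0 0 0 0 0 0 0 1⟩⟩,
  ⟨fq 1 1 1 1 1 0 0 0, false, 0, ⟨fq 0 1 0 0 0 0 0 1, fq 0 0 0 0 0 0 1 0⟩⟩]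

theorem tB_ok : ∀ e ∈ tB, e.ok gB gB' := by decide +kernel

theorem tA_ok : ∀ e ∈ tA, e.ok gA gA' := by decide +kernel

theorem tB_all : ∀ f : F8, f * conj f - 1 = rZ y3 → ∃ e ∈ tB, e.f = f := by decide +kernel

theorem tA_all : ∀ f : F8, f * conj f - 1 = rZ y4 → ∃ e ∈ tA, e.f = f := by decide +kernel

theorem y3_mul : ∀ w : F8, conj w = w → aug8 F2 w = 1 → rZ y3 * w = rZ y3 := by decide +kernel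

theorem y4_mul : ∀ w : F8, conj w = w → aug8 F2 w = 1 → chi w = 0 → rZ y4 * w = rZ y4 := by
  decide +kernel

theorem chi_norm : ∀ a : F8, aug8 F2 a = 1 → chi (a * conj a) = 0 := by decide +kernel

theorem aug_norm (a : F8) (h : aug8 F2 a = 1) : aug8 F2 (a * conj a) = 1 := by
  rw [map_mul, aug_conj, h, mul_one]

theorem conj_norm (a : F8) : conj (a * conj a) = a * conj a := by
  rw [map_mul, conj_conj, mul_comm]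

theorem aug_iv (b : F8) (h : aug8 F2 b = 1) : aug8 F2 (iv b) = 1 := by
  have h1 := iv_mul b h
  have h2 := congrArg (aug8 F2) h1
  rw [map_mul, h, one_mul, map_one] at h2
  exact h2

/-- normal form -/
theorem dn_eq {R : Type} [CommRing R] [Invo R] (a b m : R) (h : b * m = 1) :
    (⟨a, b⟩ : Dbl R false) = ⟨a * conj m, 1⟩ * Dbl.C (conj b) := by
  have h1 : conj m * conj b = 1 := by rw [← map_mul, mul_comm, h, map_one]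
  ext
  · simp only [Dbl.mul_fst, Dbl.C_fst, Dbl.C_snd, map_zero, mul_zero, add_zero]
    linear_combination (-a) * h1
  · simp only [Dbl.mul_snd, Dbl.C_fst, Dbl.C_snd, mul_zero, zero_add, one_mul, conj_conj]

theorem nrd_dn {R : Type} [CommRing R] [Invo R] (a b m : R) (h : b * m = 1) :
    (a * conj m) * conj (a * conj m) - 1 = Dbl.nrd (⟨a, b⟩ : Dbl R false) * (m * conj m) := by
  have h1 : conj m * conj b = 1 := by rw [← map_mul, mul_comm, h, map_one]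
  rw [Dbl.nrd, map_mul, conj_conj, sg_false]
  linear_combination (conj b * conj m) * h + h1

theorem conj_inv {del del' : F8} (hd : conj del = del) (hi : del * del' = 1) :
    conj del' = del' := by
  have h1 : del * conj del' = 1 := by
    have h2 := congrArg conj hi
    rw [map_mul, map_one, hd] at h2
    exact h2
  calc conj del' = conj del' * (del * del') := by rw [hi, mul_one]
    _ = (del * conj del') * del' := by ring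
    _ = del' := by rw [h1, one_mul]

theorem aug_inv {del del' : F8} (hi : del * del' = 1) : aug8 F2 del' = 1 :=
  aug_unit (by rw [mul_comm]; exact hi)

theorem chi_inv {del del' : F8} (hd : conj del = del) (hi : del * del' = 1)
    (hc : chi del = 0) : chi del' = 0 := by
  have h1 := chi_mul hd (conj_inv hd hi) (aug_unit hi) (aug_inv hi)
  rw [hi, hc, zero_add] at h1
  rw [← h1]
  decide +kernel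

theorem chi_mul0 {x y : F8} (hx : conj x = x) (hy : conj y = y) (hx1 : aug8 F2 x = 1)
    (hy1 : aug8 F2 y = 1) (hx0 : chi x = 0) (hy0 : chi y = 0) : chi (x * y) = 0 := by
  rw [chi_mul hx hy hx1 hy1, hx0, hy0, add_zero]

/-- the conclusion of the finite classification -/
def Cls (g g1 g2 : AA) : Prop := ∃ (z z' : Gam) (u u' : AA), z * z' = 1 ∧ z' * z = 1 ∧
  Dbl.nrd z' = 1 ∧ u * u' = 1 ∧ u' * u = 1 ∧ (g = bG z * g1 * u ∨ g = bG z * g2 * u)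

theorem cls_of {g g1 g2 : AA} {e : TE} {m : F8} (hm : g.snd * m = 1)
    (hf : e.f = g.fst * conj m) (hb : aug8 F2 g.snd = 1) (he : e.ok g1 g2) : Cls g g1 g2 := by
  obtain ⟨h1, h2⟩ := he
  obtain ⟨u', hu, hu'⟩ := unit_of_aug e.u h2
  obtain ⟨k1, k2⟩ := zk_mul e.k
  have h3 : g = (⟨e.f, 1⟩ : AA) * Dbl.C (conj g.snd) := by
    rw [hf]
    exact dn_eq g.fst g.snd m hm
  have hc : (Dbl.C (conj g.snd) : AA) * Dbl.C (conj m) = 1 := by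
    rw [← map_mul, ← map_mul, hm, map_one, map_one]
  have hc' : (Dbl.C (conj m) : AA) * Dbl.C (conj g.snd) = 1 := by
    rw [← map_mul, ← map_mul, mul_comm, hm, map_one, map_one]
  refine ⟨Dbl.C (zk e.k), Dbl.C (zk' e.k), e.u * Dbl.C (conj g.snd), Dbl.C (conj m) * u', ?_, ?_,
    ?_, ?_, ?_, ?_⟩
  · rw [← map_mul, k1, map_one]
  · rw [← map_mul, mul_comm, k1, map_one]
  · rw [nrd_C']; exact k2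
  · rw [mul_assoc, ← mul_assoc (Dbl.C (conj g.snd)), hc, one_mul, hu]
  · rw [mul_assoc, ← mul_assoc u', hu', one_mul, hc']
  · rw [h1] at h3
    cases hbb : e.b with
    | true =>
      left
      rw [hbb, cond_true] at h3
      rw [← mul_assoc]
      exact h3
    | false =>
      right
      rw [hbb, cond_false] at h3
      rw [← mul_assoc]
      exact h3

theorem det_inv {g : AA} {del del' y : F8} (hi : del * del' = 1) (hdet : y = Dbl.nrd g * del) :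
    Dbl.nrd g = y * del' := by
  rw [hdet, mul_assoc, hi, mul_one]

theorem conj_w {del' c : F8} (hd : conj del' = del') : conj (del' * (c * conj c)) =
    del' * (c * conj c) := by
  rw [map_mul, hd, conj_norm]

theorem aug_w {del' c : F8} (hd : aug8 F2 del' = 1) (hc : aug8 F2 c = 1) :
    aug8 F2 (del' * (c * conj c)) = 1 := by
  rw [map_mul, hd, aug_norm c hc, one_mul]

theorem class_B {g : AA} {del del' : F8} (hd : conj del = del) (hi : del * del' = 1)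
    (hdet : rZ y3 = Dbl.nrd g * del) (h1 : aug8 F2 g.fst = 1) (h2 : aug8 F2 g.snd = 1) :
    Cls g gB gB' := by
  have hm := iv_mul g.snd h2
  have h3 := nrd_dn g.fst g.snd (iv g.snd) hm
  have h4 : Dbl.nrd (⟨g.fst, g.snd⟩ : AA) = rZ y3 * del' := det_inv hi hdet
  rw [h4, mul_assoc (rZ y3) del', y3_mul (del' * (iv g.snd * conj (iv g.snd))) (conj_w (conj_inv hd hi))
    (aug_w (aug_inv hi) (aug_iv _ h2))] at h3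
  obtain ⟨e, he, hf⟩ := tB_all _ h3
  exact cls_of hm hf h2 (tB_ok e he)

theorem class_A {g : AA} {del del' : F8} (hd : conj del = del) (hi : del * del' = 1)
    (hc : chi del = 0)
    (hdet : rZ y4 = Dbl.nrd g * del) (h1 : aug8 F2 g.fst = 1) (h2 : aug8 F2 g.snd = 1) :
    Cls g gA gA' := by
  have hm := iv_mul g.snd h2
  have h3 := nrd_dn g.fst g.snd (iv g.snd) hm
  have h4 : Dbl.nrd (⟨g.fst, g.snd⟩ : AA) = rZ y4 * del' := det_inv hi hdet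
  rw [h4, mul_assoc (rZ y4) del', y4_mul (del' * (iv g.snd * conj (iv g.snd))) (conj_w (conj_inv hd hi))
    (aug_w (aug_inv hi) (aug_iv _ h2)) (chi_mul0 (conj_inv hd hi) (conj_norm _) (aug_inv hi)
      (aug_norm _ (aug_iv _ h2)) (chi_inv hd hi hc) (chi_norm _ (aug_iv _ h2)))] at h3
  obtain ⟨e, he, hf⟩ := tA_all _ h3
  exact cls_of hm hf h2 (tA_ok e he)

theorem F2_cases : ∀ x y : F2, x + y = 0 → (x = 1 ∧ y = 1) ∨ (x = 0 ∧ y = 0) := by decide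

/-- the two cases for the augmentations -/
theorem aug_cases {g : AA} {del del' y : F8} (hi : del * del' = 1)
    (hdet : y = Dbl.nrd g * del) (hy : aug8 F2 y = 0) :
    (aug8 F2 g.fst = 1 ∧ aug8 F2 g.snd = 1) ∨ (aug8 F2 g.fst = 0 ∧ aug8 F2 g.snd = 0) := by
  apply F2_cases
  rw [← aug_nrd, det_inv hi hdet, map_mul, hy, zero_mul]

theorem aug_y3 : aug8 F2 (rZ y3) = 0 := by decide +kernel
theorem aug_y4 : aug8 F2 (rZ y4) = 0 := by decide +kernel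

theorem c1_chi : ∀ w : F8, conj w = w → aug8 F2 w = 1 → chi (rZ (kz 2 (-1) 0 0) * w) = 1 := by
  decide +kernel

theorem chi_sub (a b : F8) : chi (a - b) = chi a - chi b := by
  simp only [chi, Qs.sub_re, Qs.sub_im]
  ring

theorem nrd_fs (g : AA) : Dbl.nrd g = g.fst * conj g.fst - g.snd * conj g.snd := by
  unfold Dbl.nrd
  rw [sg_false, one_mul]

/-- no unit coordinates for the values congruent to `x + x⁻¹` -/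
theorem class_0 {g : AA} {del del' y : F8} (hd : conj del = del) (hi : del * del' = 1)
    (hdet : y = Dbl.nrd g * del) (hy : y = rZ (kz 2 (-1) 0 0)) :
    aug8 F2 g.fst = 0 ∧ aug8 F2 g.snd = 0 := by
  have h0 : aug8 F2 y = 0 := by rw [hy]; decide +kernel
  rcases aug_cases hi hdet h0 with ⟨h1, h2⟩ | h
  · exfalso
    have h3 := c1_chi del' (conj_inv hd hi) (aug_inv hi)
    rw [← hy, ← det_inv hi hdet, nrd_fs, chi_sub, chi_norm _ h1, chi_norm _ h2] at h3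
    exact absurd h3 (by decide)
  · exact h

theorem rZ_c1a : rZ (kz 6 (-5) 4 (-2)) = rZ (kz 2 (-1) 0 0) := by decide +kernel
theorem rZ_c1b : rZ (kz 6 5 4 2) = rZ (kz 2 (-1) 0 0) := by decide +kernel

end Vale.Agent.P246.Q32
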