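import Vale.Agent.P246.Q32.H4a
import Vale.Agent.P246.Q32.H3
import Vale.Agent.P246.Q32.H6

/-!
# The classification of kernels of unimodular columns over `ℤ[ζ_16, j]`
-/

set_option linter.all false

namespace Vale.Agent.P246.Q32

open Vale.Agent.P246 Vale.Agent.P246.Q24 Vale.Agent.P246.Gen

attribute [local irreducible] Dt Dbl.nrd D2

theorem nrd_one_G : Dbl.nrd (1 : Gam) = 1 := by unfold Dbl.nrd; decide +kernel

theorem nrd_inv_one {z z' : Gam} (h : z * z' = 1) (hn : Dbl.nrd z' = 1) : Dbl.nrd z = 1 := by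
  have h1 : Dbl.nrd z * Dbl.nrd z' = 1 := by rw [← Dbl.nrd_mul, h, nrd_one_G]
  rw [hn, mul_one] at h1
  exact h1

theorem frame_cls {a b c d : Gam} {y : Z16} {g g1 g2 : AA} (hC : Cls g g1 g2)
    (hF : Frame a b c d y g) : Frame a b c d y g1 ∨ Frame a b c d y g2 := by
  obtain ⟨z, z', u, u', h1, h2, h3, h4, h5, h6⟩ := hC
  rcases h6 with h6 | h6
  · left
    rw [h6] at hF
    exact frame_left h1 h2 (nrd_inv_one h1 h3) ((frame_unit h4).1 hF)
  · right
    rw [h6] at hF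
    exact frame_left h1 h2 (nrd_inv_one h1 h3) ((frame_unit h4).1 hF)

theorem s1 : kz 3 (-2) 1 0 = kz (-1) 1 0 0 * kz (-1) 1 0 0 * 1 := by decide +kernel
theorem s2 : kz 5 (-4) 3 (-2) = kz (-1) 1 (-1) 0 * kz (-1) 1 (-1) 0 * 1 := by decide +kernel
theorem s3 : kz 7 (-6) 4 (-2) = kz (-1) 1 (-1) 1 * kz (-1) 1 (-1) 1 * 1 := by decide +kernel
theorem s4 : kz 3 0 2 0 = kz (-1) 0 (-1) 0 * kz (-1) 0 (-1) 0 * 1 := by decide +kernel
theorem s5 : kz 37 34 26 14 = kz (-3) (-3) (-2) (-1) * kz (-3) (-3) (-2) (-1) * 1 := by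
  decide +kernel
theorem i1 : kz (-1) 1 0 0 * kz (-1) 0 1 1 = 1 := by decide +kernel
theorem i2 : kz (-1) 1 (-1) 0 * kz (-1) 0 0 (-1) = 1 := by decide +kernel
theorem i3 : kz (-1) 1 (-1) 1 * kz 1 1 1 1 = 1 := by decide +kernel
theorem i4 : kz (-1) 0 (-1) 0 * kz 1 0 (-1) 0 = 1 := by decide +kernel
theorem i5 : kz (-3) (-3) (-2) (-1) * kz 1 (-1) 0 1 = 1 := by decide +kernel
theorem p1 : kz 2 (-1) 0 0 = kz 2 (-1) 0 0 * 1 := by decide +kernel
theorem p2 : kz 6 (-5) 4 (-2) = kz 2 (-1) 0 0 * kz 3 0 2 0 := by decide +kernel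
theorem p3 : y3 = kz 2 (-1) 0 0 * y4 := by decide +kernel
theorem p4 : y4 = kz 2 (-1) 0 0 * kz 6 5 4 2 := by decide +kernel
theorem p5 : kz 6 5 4 2 = kz 2 (-1) 0 0 * kz 37 34 26 14 := by decide +kernel
theorem y3_ne : y3 ≠ 0 := by decide +kernel
theorem y4_ne : y4 ≠ 0 := by decide +kernel

theorem ne_of_hh {a b c d : Gam} {v : Kr a b} {y : Z16} (hy : y ≠ 0) (hv : hh c d v.1 = y) :
    v ≠ 0 := by
  rintro rfl
  rw [hh_zero] at hv
  exact hy hv.symm

theorem frame_sq {a b c d : Gam} (h : c * a + d * b = 1) {v : Kr a b} {e e' y : Z16}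
    (he : e * e' = 1) (hc : conj e' = e') (hy : y = e * e * 1) (hv : hh c d v.1 = y) :
    Frame a b c d 4 0 := by
  obtain ⟨v', hv'⟩ := rescale v he hc (hv.trans hy)
  exact frame_one h hv'

/-- the classification, given a vector of trace one -/
theorem classify_of {a b c d : Gam} (h : c * a + d * b = 1) (B : Beta a b c d)
    (hw : ∃ w : Kr a b, TT (hh c d w.1) = 1) :
    Frame a b c d 4 0 ∨ Frame a b c d y3 gB ∨ Frame a b c d y3 gB' ∨ Frame a b c d y4 gA ∨
      Frame a b c d y4 gA' := by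
  obtain ⟨v, hT⟩ := hw
  rcases root_list h v hT with hv | hv | hv | hv | hv | hv | hv
  · left
    rw [← kz_one] at hv
    exact frame_one h hv
  · left
    exact frame_sq h i1 (kz_conj _ _ _ _) s1 hv
  · left
    exact frame_sq h i2 (kz_conj _ _ _ _) s2 hv
  · left
    exact frame_sq h i3 (kz_conj _ _ _ _) s3 hv
  · left
    have hd := B.det v
    rw [hv] at hd
    obtain ⟨a1, a2⟩ := class_0 B.del_conj B.del_inv hd rfl
    obtain ⟨w, hw⟩ := div_hh B a1 a2 (hv.trans p1)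
    exact frame_one h hw
  · left
    have hd := B.det v
    rw [hv] at hd
    obtain ⟨a1, a2⟩ := class_0 B.del_conj B.del_inv hd rZ_c1a
    obtain ⟨w, hw⟩ := div_hh B a1 a2 (hv.trans p2)
    exact frame_sq h i4 (kz_conj _ _ _ _) s4 hw
  · have hd := B.det v
    rw [hv] at hd
    rcases aug_cases B.del_inv hd aug_y3 with ⟨a1, a2⟩ | ⟨a1, a2⟩
    · have hF := frame_of B (ne_of_hh y3_ne hv) (y_half h hv y3_two) hv
      rcases frame_cls (class_B B.del_conj B.del_inv hd a1 a2) hF with h1 | h1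
      · exact Or.inr (Or.inl h1)
      · exact Or.inr (Or.inr (Or.inl h1))
    · obtain ⟨v1, hv1⟩ := div_hh B a1 a2 (hv.trans p3)
      have hd1 := B.det v1
      rw [hv1] at hd1
      rcases aug_cases B.del_inv hd1 aug_y4 with ⟨b1, b2⟩ | ⟨b1, b2⟩
      · have hF := frame_of B (ne_of_hh y4_ne hv1) (y_half h hv1 y4_two) hv1
        rcases frame_cls (class_A B.del_conj B.del_inv B.del_chi hd1 b1 b2) hF with h1 | h1
        · exact Or.inr (Or.inr (Or.inr (Or.inl h1)))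
        · exact Or.inr (Or.inr (Or.inr (Or.inr h1)))
      · left
        obtain ⟨v2, hv2⟩ := div_hh B b1 b2 (hv1.trans p4)
        have hd2 := B.det v2
        rw [hv2] at hd2
        obtain ⟨c1, c2⟩ := class_0 B.del_conj B.del_inv hd2 rZ_c1b
        obtain ⟨v3, hv3⟩ := div_hh B c1 c2 (hv2.trans p5)
        exact frame_sq h i5 (kz_conj _ _ _ _) s5 hv3

end Vale.Agent.P246.Q32
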