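import Vale.Agent.P246.Q32.H0

/-!
# Frames of kernels: constructions
-/

set_option linter.all false

namespace Vale.Agent.P246.Q32

open Vale.Agent.P246 Vale.Agent.P246.Q24 Vale.Agent.P246.Gen

attribute [local irreducible] Dt Dbl.nrd D2

section Gen

variable {R M : Type} [Ring R] [AddCommGroup M] [Module R M]

theorem mkEquiv (I : Submodule R R) (f : M → R)
    (hadd : ∀ w w', f (w + w') = f w + f w') (hsmul : ∀ (z : R) w, f (z • w) = z * f w)
    (hinj : ∀ w, f w = 0 → w = 0) (hmem : ∀ w, f w ∈ I) (hsurj : ∀ t ∈ I, ∃ w, f w = t) :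
    ∃ e : M ≃ₗ[R] I, ∀ w, (e w).1 = f w := by
  let F : M →ₗ[R] I :=
    { toFun := fun w => ⟨f w, hmem w⟩
      map_add' := fun w w' => Subtype.ext (hadd w w')
      map_smul' := fun z w => Subtype.ext (hsmul z w) }
  refine ⟨LinearEquiv.ofBijective F ⟨?_, ?_⟩, ?_⟩
  · rw [← LinearMap.ker_eq_bot, LinearMap.ker_eq_bot']
    intro w hw
    exact hinj w (congrArg Subtype.val hw)
  · rintro ⟨t, ht⟩
    obtain ⟨w, hw⟩ := hsurj t ht
    exact ⟨w, Subtype.ext hw⟩
  · intro w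
    rfl

theorem mkEquiv_right {I J : Submodule R R} (e : M ≃ₗ[R] I) {s s' : R} (h1 : s * s' = 1)
    (h2 : s' * s = 1) (hIJ : ∀ t, t ∈ I → t * s ∈ J) (hJI : ∀ t, t ∈ J → t * s' ∈ I) :
    ∃ e' : M ≃ₗ[R] J, ∀ w, (e' w).1 = (e w).1 * s := by
  apply mkEquiv J (fun w => (e w).1 * s)
  · intro w w'
    rw [map_add, Submodule.coe_add, add_mul]
  · intro z w
    rw [map_smul, Submodule.coe_smul, smul_eq_mul, mul_assoc]
  · intro w hw
    have h3 : (e w).1 = 0 := by
      calc (e w).1 = (e w).1 * s * s' := by rw [mul_assoc, h1, mul_one]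
        _ = 0 := by rw [hw, zero_mul]
    have h4 : e w = 0 := Subtype.ext h3
    exact (LinearEquiv.map_eq_zero_iff e).1 h4
  · intro w
    exact hIJ _ (e w).2
  · intro t ht
    refine ⟨e.symm ⟨t * s', hJI t ht⟩, ?_⟩
    rw [LinearEquiv.apply_symm_apply]
    change t * s' * s = t
    rw [mul_assoc, h2, mul_one]

end Gen

theorem mk_frame {a b c d : Gam} {y : Z16} {g : AA} (f : Kr a b → Gam)
    (hadd : ∀ w w', f (w + w') = f w + f w') (hsmul : ∀ (z : Gam) w, f (z • w) = z * f w)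
    (hinj : ∀ w, f w = 0 → w = 0) (hmem : ∀ w, bG (f w) * g = 0)
    (hsurj : ∀ t : Gam, bG t * g = 0 → ∃ w, f w = t)
    (hn : ∀ w : Kr a b, 4 * hh c d w.1 = Dbl.nrd (f w) * y) : Frame a b c d y g := by
  obtain ⟨e, he⟩ := mkEquiv (Ig g) f hadd hsmul hinj hmem hsurj
  exact ⟨e, fun w => by rw [hn w, he w]⟩

theorem dsub_mul {R : Type} [CommRing R] [Invo R] {i : Bool} {t t' v : Dbl R i}
    (h : t * v = t' * v) : (t - t') * v = 0 := by
  rw [sub_mul, h, sub_self]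

theorem smul_cancel {a b c d : Gam} {v : Kr a b} (hv : v ≠ 0) {t t' : Gam}
    (h : t • v = t' • v) : t = t' := by
  by_contra hne
  have h1 : t - t' ≠ 0 := sub_ne_zero.2 hne
  apply smul_ne h1 hv
  have e0 : t * v.1 0 = t' * v.1 0 := congrFun (congrArg Subtype.val h) 0
  have e1 : t * v.1 1 = t' * v.1 1 := congrFun (congrArg Subtype.val h) 1
  exact Kr_ext (dsub_mul e0) (dsub_mul e1)

theorem w2_cancel {a b : Gam} {w w' : Kr a b} (h : w + w = w' + w') : w = w' := by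
  have h1 : (w - w') + (w - w') = 0 := by
    have : (w - w') + (w - w') = (w + w) - (w' + w') := by abel
    rw [this, h, sub_self]
  have h2 : (w - w').1 0 + (w - w').1 0 = 0 := congrFun (congrArg Subtype.val h1) 0
  have h3 : (w - w').1 1 + (w - w').1 1 = 0 := congrFun (congrArg Subtype.val h1) 1
  exact sub_eq_zero.1 (Kr_ext (Gam_two h2) (Gam_two h3))

theorem Beta.bt_two {a b c d : Gam} (B : Beta a b c d) (w : Kr a b) : B.bt (w + w) = 0 := by
  rw [B.add, AA_two]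

theorem frame_of {a b c d : Gam} (B : Beta a b c d) {v : Kr a b} (hv0 : v ≠ 0)
    (hv : ∀ w : Kr a b, ∃ t : Gam, w + w = t • v) {y : Z16} (hy : hh c d v.1 = y) :
    Frame a b c d y (B.bt v) := by
  choose f hf using hv
  refine mk_frame f ?_ ?_ ?_ ?_ ?_ ?_
  · intro w w'
    apply smul_cancel (c := c) (d := d) hv0
    rw [add_smul, ← hf, ← hf, ← hf]
    abel
  · intro z w
    apply smul_cancel (c := c) (d := d) hv0
    rw [mul_smul, ← hf, ← hf, smul_add]
  · intro w hw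
    have h1 := hf w
    rw [hw, zero_smul] at h1
    apply w2_cancel
    rw [h1, add_zero]
  · intro w
    rw [← B.smul, ← hf, B.bt_two]
  · intro t ht
    obtain ⟨w, hw⟩ := B.zero (t • v) (by rw [B.smul, ht])
    refine ⟨w, ?_⟩
    apply smul_cancel (c := c) (d := d) hv0
    rw [← hf, hw]
  · intro w
    rw [← hy, ← hh_smul, ← hf, ← two_smul Gam w, hh_smul]
    have h2 : Dbl.nrd (2 : Gam) = 4 := by
      unfold Dbl.nrd
      decide +kernel
    rw [h2]

theorem frame_one {a b c d : Gam} (h : c * a + d * b = 1) {v : Kr a b} (hv : hh c d v.1 = 1) :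
    Frame a b c d 4 0 := by
  have hv0 : v ≠ 0 := by
    rintro rfl
    rw [hh_zero] at hv
    exact absurd hv (by decide +kernel)
  have hf : ∀ w : Kr a b, ∃ t : Gam, w = t • v := by
    intro w
    obtain ⟨t, h1, -⟩ := Kr_cramer h v w
    rw [hv, map_one, one_smul] at h1
    exact ⟨t, h1⟩
  choose f hf using hf
  refine mk_frame f ?_ ?_ ?_ ?_ ?_ ?_
  · intro w w'
    apply smul_cancel (c := c) (d := d) hv0
    rw [add_smul, ← hf, ← hf, ← hf]
  · intro z w
    apply smul_cancel (c := c) (d := d) hv0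
    rw [mul_smul, ← hf, ← hf]
  · intro w hw
    have h1 := hf w
    rw [hw, zero_smul] at h1
    exact h1
  · intro w
    rw [mul_zero]
  · intro t _
    refine ⟨t • v, ?_⟩
    apply smul_cancel (c := c) (d := d) hv0
    rw [← hf]
  · intro w
    conv_lhs => rw [hf w]
    rw [hh_smul, hv]
    ring

theorem Ig_unit {g u u' : AA} (hu : u * u' = 1) : Ig (g * u) = Ig g := by
  apply Submodule.ext
  intro t
  constructor
  · intro ht
    have h1 : bG t * (g * u) = 0 := ht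
    have h2 : bG t * g = bG t * (g * u) * u' := by rw [mul_assoc, mul_assoc, hu, mul_one]
    change bG t * g = 0
    rw [h2, h1, zero_mul]
  · intro ht
    have h1 : bG t * g = 0 := ht
    change bG t * (g * u) = 0
    rw [← mul_assoc, h1, zero_mul]

theorem frame_unit {a b c d : Gam} {y : Z16} {g u u' : AA} (hu : u * u' = 1) :
    Frame a b c d y (g * u) ↔ Frame a b c d y g := by
  unfold Frame
  rw [Ig_unit hu]

theorem Ig_left {g : AA} {s : Gam} {t : Gam} : t ∈ Ig (bG s * g) ↔ t * s ∈ Ig g := by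
  rw [mem_Ig, mem_Ig, map_mul, mul_assoc]

theorem frame_left {a b c d : Gam} {y : Z16} {g : AA} {s s' : Gam} (h1 : s * s' = 1)
    (h2 : s' * s = 1) (hn : Dbl.nrd s = 1) (hF : Frame a b c d y (bG s * g)) :
    Frame a b c d y g := by
  obtain ⟨e, he⟩ := hF
  obtain ⟨e', he'⟩ := mkEquiv_right (J := Ig g) e h1 h2 (fun t ht => Ig_left.1 ht) (fun t ht => by
    rw [Ig_left, mul_assoc, h2, mul_one]
    exact ht)
  refine ⟨e', fun w => ?_⟩
  rw [he w, he' w, Dbl.nrd_mul, hn, mul_one]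

theorem rescale {a b c d : Gam} (v : Kr a b) {e e' y : Z16} (he : e * e' = 1)
    (hc : conj e' = e') (h : hh c d v.1 = e * e * y) :
    ∃ v' : Kr a b, hh c d v'.1 = y := by
  refine ⟨(Dbl.C e' : Gam) • v, ?_⟩
  rw [hh_smul, nrd_C', hc, h]
  linear_combination (e * e' * y + y) * he

/-- an element of the kernel whose form value divides two has `2 K ⊆ Gam v` -/
theorem y_half {a b c d : Gam} (h : c * a + d * b = 1) {v : Kr a b} {y y' : Z16}
    (hv : hh c d v.1 = y) (hy : y' * y = 2) (w : Kr a b) : ∃ t : Gam, w + w = t • v := by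
  obtain ⟨t, h1, -⟩ := Kr_cramer h v w
  refine ⟨Dbl.C y' * t, ?_⟩
  rw [mul_smul, ← h1, hv, smul_smul, ← map_mul, hy, map_ofNat, two_smul]

theorem y3_two : kz 2 1 0 0 * y3 = 2 := by decide +kernel
theorem y4_two : kz 2 0 (-1) 0 * y4 = 2 := by decide +kernel

/-! ### division by `1 - x` -/

/-- `1 - x` -/
def om : Gam := ⟨⟨1, -1⟩, 0⟩
/-- `1 + x + ... + x⁷` -/
def omr : Gam := ⟨⟨⟨⟨1, 1⟩, ⟨1, 1⟩⟩, ⟨⟨1, 1⟩, ⟨1, 1⟩⟩⟩, 0⟩

theorem om_omr : om * omr = 2 := by decide +kernel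
theorem nrd_om : Dbl.nrd om = kz 2 (-1) 0 0 := by unfold Dbl.nrd; decide +kernel
theorem om_ne : kz 2 (-1) 0 0 ≠ 0 := by decide +kernel

/-- quotient by `1 + x` -/
def dv (z : F8) : F8 :=
  ⟨⟨⟨z.re.re.re, z.re.re.re + z.im.re.re + z.re.im.re + z.im.im.re + z.re.re.im⟩,
    ⟨z.re.re.re + z.im.re.re + z.re.im.re,
      z.re.re.re + z.im.re.re + z.re.im.re + z.im.im.re + z.re.re.im + z.im.re.im + z.re.im.im⟩⟩,
   ⟨⟨z.re.re.re + z.im.re.re,
      z.re.re.re + z.im.re.re + z.re.im.re + z.im.im.re + z.re.re.im + z.im.re.im⟩,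
    ⟨z.re.re.re + z.im.re.re + z.re.im.re + z.im.im.re, 0⟩⟩⟩

theorem dv_spec : ∀ z : F8, aug8 F2 z = 0 → z = ⟨1, 1⟩ * dv z := by decide +kernel

theorem bG_om : bG om = ⟨⟨1, 1⟩, 0⟩ := by decide +kernel

theorem AA_div {g : AA} (h1 : aug8 F2 g.fst = 0) (h2 : aug8 F2 g.snd = 0) :
    ∃ g' : AA, g = bG om * g' := by
  refine ⟨⟨dv g.fst, dv g.snd⟩, ?_⟩
  rw [bG_om]
  apply Dbl.ext
  · simp only [Dbl.mul_fst, zero_mul, mul_zero, add_zero]
    exact dv_spec _ h1
  · simp only [Dbl.mul_snd, zero_mul, add_zero]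
    exact dv_spec _ h2

theorem Beta.surj {a b c d : Gam} (B : Beta a b c d) (g : AA) : ∃ w, B.bt w = g := by
  obtain ⟨w, hw⟩ := B.one
  obtain ⟨m, hm⟩ := bG_surj g
  exact ⟨m • w, by rw [B.smul, hw, mul_one, hm]⟩

theorem div_om {a b c d : Gam} (B : Beta a b c d) {v : Kr a b}
    (h1 : aug8 F2 (B.bt v).fst = 0) (h2 : aug8 F2 (B.bt v).snd = 0) :
    ∃ w : Kr a b, v = om • w := by
  obtain ⟨g, hg⟩ := AA_div h1 h2
  obtain ⟨w1, hw1⟩ := B.surj g
  obtain ⟨w2, hw2⟩ := B.zero (v + om • w1) (by rw [B.add, B.smul, hw1, ← hg, AA_two])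
  refine ⟨omr • w2 - w1, ?_⟩
  rw [smul_sub, smul_smul, om_omr, two_smul, ← hw2]
  abel

theorem div_hh {a b c d : Gam} (B : Beta a b c d) {v : Kr a b} {y : Z16}
    (h1 : aug8 F2 (B.bt v).fst = 0) (h2 : aug8 F2 (B.bt v).snd = 0)
    (hy : hh c d v.1 = kz 2 (-1) 0 0 * y) : ∃ w : Kr a b, hh c d w.1 = y := by
  obtain ⟨w, rfl⟩ := div_om B h1 h2
  refine ⟨w, ?_⟩
  rw [hh_smul, nrd_om] at hy
  exact mul_left_cancel₀ om_ne hy

end Vale.Agent.P246.Q32
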