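import Vale.Agent.P246.Q32.Fr
import Vale.Agent.P246.Gen.MPT

/-!
# Certificates for the columns of the presentations of `Q_32`
-/

set_option linter.all false

namespace Vale.Agent.P246.Q32

open Vale.Agent.P246 Vale.Agent.P246.Q24 Vale.Agent.P246.Gen QuaternionGroup

section formula

theorem det_four {R : Type} [CommRing R] (M : Matrix (Fin 4) (Fin 4) R) : M.det =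
    (M 0 0 * M 1 1 - M 0 1 * M 1 0) * (M 2 2 * M 3 3 - M 2 3 * M 3 2) -
    (M 0 0 * M 1 2 - M 0 2 * M 1 0) * (M 2 1 * M 3 3 - M 2 3 * M 3 1) +
    (M 0 0 * M 1 3 - M 0 3 * M 1 0) * (M 2 1 * M 3 2 - M 2 2 * M 3 1) +
    (M 0 1 * M 1 2 - M 0 2 * M 1 1) * (M 2 0 * M 3 3 - M 2 3 * M 3 0) -
    (M 0 1 * M 1 3 - M 0 3 * M 1 1) * (M 2 0 * M 3 2 - M 2 2 * M 3 0) +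
    (M 0 2 * M 1 3 - M 0 3 * M 1 2) * (M 2 0 * M 3 1 - M 2 1 * M 3 0) := by
  rw [Matrix.det_succ_row_zero]
  simp [Fin.sum_univ_succ, Matrix.det_fin_three, Matrix.submatrix_apply, Fin.succAbove]
  ring

theorem det_blocks {R : Type} [CommRing R] (A B C D : Matrix (Fin 2) (Fin 2) R) :
    (Matrix.fromBlocks A B C D).det =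
    (A 0 0 * A 1 1 - A 0 1 * A 1 0) * (D 0 0 * D 1 1 - D 0 1 * D 1 0) -
    (A 0 0 * B 1 0 - B 0 0 * A 1 0) * (C 0 1 * D 1 1 - D 0 1 * C 1 1) +
    (A 0 0 * B 1 1 - B 0 1 * A 1 0) * (C 0 1 * D 1 0 - D 0 0 * C 1 1) +
    (A 0 1 * B 1 0 - B 0 0 * A 1 1) * (C 0 0 * D 1 1 - D 0 1 * C 1 0) -
    (A 0 1 * B 1 1 - B 0 1 * A 1 1) * (C 0 0 * D 1 0 - D 0 0 * C 1 0) +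
    (B 0 0 * B 1 1 - B 0 1 * B 1 0) * (C 0 0 * C 1 1 - C 0 1 * C 1 0) := by
  rw [← Matrix.det_reindex_self finSumFinEquiv, det_four]
  rfl

variable {R : Type} [CommRing R] [Invo R] {b : Bool}

/-- the reduced norm of a matrix of order two -/
theorem Dt_formula (A B C D : Dbl R b) : Dt !![A, B; C, D] =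
    Dbl.nrd A * Dbl.nrd D + Dbl.nrd B * Dbl.nrd C -
      ((Dbl.star A * B * Dbl.star D * C).fst + conj (Dbl.star A * B * Dbl.star D * C).fst) := by
  rw [Dt, big, det_blocks]
  cases b <;> simp [Dbl.rho, Dbl.nrd, Dbl.star] <;> ring

end formula

theorem hh_smul' (c d z : Gam) (w : Fin 2 → Gam) : hh c d (z • w) = Dbl.nrd z * hh c d w := by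
  rw [hh, hh]
  have h : (!![c, d; (z • w) 0, (z • w) 1] : Matrix (Fin 2) (Fin 2) Gam) =
      !![1, 0; 0, z] * !![c, d; w 0, w 1] := by
    apply Matrix.ext
    intro i j
    fin_cases i <;> fin_cases j <;> simp [Matrix.mul_apply, Fin.sum_univ_two]
  have h1 : Dbl.nrd (1 : Gam) = 1 := by simp [Dbl.nrd]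
  rw [h, Dt_mul, Dt_upper, h1, one_mul]

theorem two_cancel {s t : Gam} (h : 2 * s = 2 * t) : s = t := by
  apply sub_eq_zero.1
  apply Gam_two
  have : (s - t) + (s - t) = 2 * s - 2 * t := by noncomm_ring
  rw [this, h, sub_self]


section generic

variable {T A : Type} [Ring T] [Ring A] (β : T →+* A)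

/-- the left ideal of all `t` with `β t g = 0` -/
def IgG (g : A) : Submodule T T where
  carrier := {t | β t * g = 0}
  add_mem' := by
    intro s t hs ht
    change β (s + t) * g = 0
    rw [map_add, add_mul, show β s * g = 0 from hs, show β t * g = 0 from ht, add_zero]
  zero_mem' := by
    change β 0 * g = 0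
    rw [map_zero, zero_mul]
  smul_mem' := by
    intro c t ht
    change β (c * t) * g = 0
    rw [map_mul, mul_assoc, show β t * g = 0 from ht, mul_zero]

/-- the data of a frame -/
structure FG (a b v0 v1 x0 x1 l0 l1 : T) (s0 s1 r0 r1 g : A) : Prop where
  hv : v0 * a + v1 * b = 0
  e1 : x0 * v0 + a * l0 = 2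
  e2 : x0 * v1 + a * l1 = 0
  e3 : x1 * v0 + b * l0 = 0
  e4 : x1 * v1 + b * l1 = 2
  e5 : v0 * x0 + v1 * x1 = 2
  g0 : β v0 = g * s0
  g1 : β v1 = g * s1
  g2 : β v0 * r0 + β v1 * r1 = g

/-- `w ↦ w_0 x_0 + w_1 x_1` -/
def fmap (a b x0 x1 : T) : LinearMap.ker (colR a b) →ₗ[T] T where
  toFun w := w.1 0 * x0 + w.1 1 * x1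
  map_add' v w := by
    change (v.1 0 + w.1 0) * x0 + (v.1 1 + w.1 1) * x1 = _
    noncomm_ring
  map_smul' z w := by
    change (z * w.1 0) * x0 + (z * w.1 1) * x1 = z * (w.1 0 * x0 + w.1 1 * x1)
    noncomm_ring

variable {β}

theorem FG.two {a b v0 v1 x0 x1 l0 l1 : T} {s0 s1 r0 r1 g : A}
    (D : FG β a b v0 v1 x0 x1 l0 l1 s0 s1 r0 r1 g) {w0 w1 : T} (hw : w0 * a + w1 * b = 0) :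
    2 * w0 = (w0 * x0 + w1 * x1) * v0 ∧ 2 * w1 = (w0 * x0 + w1 * x1) * v1 := by
  constructor
  · calc 2 * w0 = w0 * 2 + w1 * 0 := by noncomm_ring
      _ = w0 * (x0 * v0 + a * l0) + w1 * (x1 * v0 + b * l0) := by rw [D.e1, D.e3]
      _ = (w0 * x0 + w1 * x1) * v0 + (w0 * a + w1 * b) * l0 := by noncomm_ring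
      _ = _ := by rw [hw, zero_mul, add_zero]
  · calc 2 * w1 = w0 * 0 + w1 * 2 := by noncomm_ring
      _ = w0 * (x0 * v1 + a * l1) + w1 * (x1 * v1 + b * l1) := by rw [D.e2, D.e4]
      _ = (w0 * x0 + w1 * x1) * v1 + (w0 * a + w1 * b) * l1 := by noncomm_ring
      _ = _ := by rw [hw, zero_mul, add_zero]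

theorem FG.frame (h2c : ∀ s t : T, 2 * s = 2 * t → s = t)
    (hker : ∀ m : T, β m = 0 → ∃ m', m = m' + m') (hb2 : ∀ z : T, β (2 * z) = 0)
    {a b v0 v1 x0 x1 l0 l1 : T} {s0 s1 r0 r1 g : A}
    (D : FG β a b v0 v1 x0 x1 l0 l1 s0 s1 r0 r1 g) :
    ∃ e : LinearMap.ker (colR a b) ≃ₗ[T] IgG β g, ∀ w : LinearMap.ker (colR a b),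
      (2 : T) • w.1 = (e w).1 • ![v0, v1] := by
  have hmem : ∀ w : LinearMap.ker (colR a b), fmap a b x0 x1 w ∈ IgG β g := by
    intro w
    obtain ⟨h1, h2⟩ := D.two (w0 := w.1 0) (w1 := w.1 1) w.2
    have k1 : β (w.1 0 * x0 + w.1 1 * x1) * β v0 = 0 := by
      rw [← map_mul, ← h1, hb2]
    have k2 : β (w.1 0 * x0 + w.1 1 * x1) * β v1 = 0 := by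
      rw [← map_mul, ← h2, hb2]
    change β (w.1 0 * x0 + w.1 1 * x1) * g = 0
    rw [← D.g2, mul_add, ← mul_assoc, ← mul_assoc, k1, k2, zero_mul, zero_mul, add_zero]
  let f : LinearMap.ker (colR a b) →ₗ[T] IgG β g := (fmap a b x0 x1).codRestrict (IgG β g) hmem
  have hf : ∀ w, (f w).1 = w.1 0 * x0 + w.1 1 * x1 := fun w => rfl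
  have hbij : Function.Bijective f := by
    constructor
    · rw [← LinearMap.ker_eq_bot, LinearMap.ker_eq_bot']
      intro w hw
      obtain ⟨h1, h2⟩ := D.two (w0 := w.1 0) (w1 := w.1 1) w.2
      have h0 : w.1 0 * x0 + w.1 1 * x1 = 0 := congrArg Subtype.val hw
      rw [h0, zero_mul, ← mul_zero (2 : T)] at h1 h2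
      apply Subtype.ext
      funext i
      fin_cases i
      · exact h2c _ _ h1
      · exact h2c _ _ h2
    · rintro ⟨t, ht⟩
      have ht' : β t * g = 0 := ht
      have k1 : β (t * v0) = 0 := by rw [map_mul, D.g0, ← mul_assoc, ht', zero_mul]
      have k2 : β (t * v1) = 0 := by rw [map_mul, D.g1, ← mul_assoc, ht', zero_mul]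
      obtain ⟨p0, hp0⟩ := hker _ k1
      obtain ⟨p1, hp1⟩ := hker _ k2
      have hp : p0 * a + p1 * b = 0 := by
        apply h2c
        calc 2 * (p0 * a + p1 * b) = (p0 + p0) * a + (p1 + p1) * b := by noncomm_ring
          _ = t * (v0 * a + v1 * b) := by rw [← hp0, ← hp1]; noncomm_ring
          _ = 2 * 0 := by rw [D.hv, mul_zero, mul_zero]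
      refine ⟨⟨![p0, p1], hp⟩, ?_⟩
      apply Subtype.ext
      rw [hf]
      change p0 * x0 + p1 * x1 = t
      apply h2c
      calc 2 * (p0 * x0 + p1 * x1) = (p0 + p0) * x0 + (p1 + p1) * x1 := by noncomm_ring
        _ = t * (v0 * x0 + v1 * x1) := by rw [← hp0, ← hp1]; noncomm_ring
        _ = 2 * t := by rw [D.e5]; noncomm_ring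
  refine ⟨LinearEquiv.ofBijective f hbij, ?_⟩
  intro w
  rw [LinearEquiv.ofBijective_apply, hf]
  obtain ⟨h1, h2⟩ := D.two (w0 := w.1 0) (w1 := w.1 1) w.2
  funext i
  fin_cases i
  · exact h1
  · exact h2

end generic

theorem bG_two (z : Gam) : bG (2 * z) = 0 := by
  rw [map_mul]
  have : bG 2 = 0 := by decide +kernel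
  rw [this, zero_mul]

theorem nrd_two : Dbl.nrd (2 : Gam) = 4 := by decide +kernel

attribute [local irreducible] Dt Dbl.nrd

theorem FG.Frame {a b v0 v1 x0 x1 l0 l1 : Gam} {s0 s1 r0 r1 g : AA}
    (D : FG bG a b v0 v1 x0 x1 l0 l1 s0 s1 r0 r1 g) {c d : Gam} {y : Z16}
    (hy : hh c d ![v0, v1] = y) : Frame a b c d y g := by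
  obtain ⟨e, he⟩ := FG.frame (β := bG) (fun _ _ => two_cancel) (fun _ => bG_ker) bG_two D
  refine ⟨e, ?_⟩
  intro w
  have h4 := hh_smul' c d 2 w.1
  rw [he w, hh_smul', hy, nrd_two] at h4
  exact h4.symm

theorem fd_col1_gBx : FG bG
    ⟨⟨⟨⟨0, 0⟩, ⟨0, 0⟩⟩, ⟨⟨0, 0⟩, ⟨0, 0⟩⟩⟩, ⟨⟨⟨0, 0⟩, ⟨1, 0⟩⟩, ⟨⟨1, 0⟩, ⟨0, 1⟩⟩⟩⟩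
    ⟨⟨⟨⟨0, 0⟩, ⟨0, 0⟩⟩, ⟨⟨-1, 0⟩, ⟨0, 0⟩⟩⟩, ⟨⟨⟨1, 0⟩, ⟨0, 0⟩⟩, ⟨⟨0, 0⟩, ⟨0, 0⟩⟩⟩⟩
    ⟨⟨⟨⟨1, 1⟩, ⟨1, 0⟩⟩, ⟨⟨-1, -1⟩, ⟨-1, 0⟩⟩⟩, ⟨⟨⟨0, 1⟩, ⟨0, 0⟩⟩, ⟨⟨0, 0⟩, ⟨-1, 0⟩⟩⟩⟩
    ⟨⟨⟨⟨0, 0⟩, ⟨-1, 0⟩⟩, ⟨⟨0, 0⟩, ⟨0, 0⟩⟩⟩, ⟨⟨⟨0, -1⟩, ⟨0, 0⟩⟩, ⟨⟨1, 1⟩, ⟨0, 0⟩⟩⟩⟩
    ⟨⟨⟨⟨0, 0⟩, ⟨0, 0⟩⟩, ⟨⟨-1, 0⟩, ⟨1, 0⟩⟩⟩, ⟨⟨⟨1, -1⟩, ⟨-1, 3⟩⟩, ⟨⟨1, 2⟩, ⟨-2, 1⟩⟩⟩⟩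
    ⟨⟨⟨⟨0, 1⟩, ⟨0, 1⟩⟩, ⟨⟨0, 2⟩, ⟨0, 0⟩⟩⟩, ⟨⟨⟨0, 1⟩, ⟨-1, 0⟩⟩, ⟨⟨-1, 1⟩, ⟨1, -1⟩⟩⟩⟩
    ⟨⟨⟨⟨0, 0⟩, ⟨2, 0⟩⟩, ⟨⟨0, 0⟩, ⟨0, 0⟩⟩⟩, ⟨⟨⟨0, 0⟩, ⟨0, -2⟩⟩, ⟨⟨-2, 0⟩, ⟨0, 0⟩⟩⟩⟩
    ⟨⟨⟨⟨0, 0⟩, ⟨0, -2⟩⟩, ⟨⟨0, 0⟩, ⟨0, 0⟩⟩⟩, ⟨⟨⟨0, 2⟩, ⟨-2, 0⟩⟩, ⟨⟨0, 2⟩, ⟨0, -2⟩⟩⟩⟩
    ⟨⟨⟨⟨0, 1⟩, ⟨1, 1⟩⟩, ⟨⟨1, 1⟩, ⟨0, 0⟩⟩⟩, ⟨⟨⟨0, 0⟩, ⟨0, 0⟩⟩, ⟨⟨1, 0⟩, ⟨0, 0⟩⟩⟩⟩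
    ⟨⟨⟨⟨0, 1⟩, ⟨0, 0⟩⟩, ⟨⟨0, 0⟩, ⟨1, 1⟩⟩⟩, ⟨⟨⟨0, 0⟩, ⟨0, 0⟩⟩, ⟨⟨0, 0⟩, ⟨0, 0⟩⟩⟩⟩
    ⟨⟨⟨⟨1, 1⟩, ⟨1, 1⟩⟩, ⟨⟨1, 1⟩, ⟨0, 0⟩⟩⟩, ⟨⟨⟨0, 0⟩, ⟨0, 0⟩⟩, ⟨⟨0, 0⟩, ⟨0, 0⟩⟩⟩⟩
    ⟨⟨⟨⟨1, 0⟩, ⟨0, 0⟩⟩, ⟨⟨0, 0⟩, ⟨0, 0⟩⟩⟩, ⟨⟨⟨0, 0⟩, ⟨0, 0⟩⟩, ⟨⟨0, 0⟩, ⟨0, 0⟩⟩⟩⟩
    gB' where
  hv := by decide +kernel
  e1 := by decide +kernel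
  e2 := by decide +kernel
  e3 := by decide +kernel
  e4 := by decide +kernel
  e5 := by decide +kernel
  g0 := by decide +kernel
  g1 := by decide +kernel
  g2 := by decide +kernel
theorem fd_col1_gBx_hh : hh
    ⟨⟨⟨⟨0, 0⟩, ⟨1, 0⟩⟩, ⟨⟨0, 0⟩, ⟨0, 0⟩⟩⟩, ⟨⟨⟨0, 0⟩, ⟨0, -1⟩⟩, ⟨⟨-1, 0⟩, ⟨0, 0⟩⟩⟩⟩
    ⟨⟨⟨⟨0, 0⟩, ⟨0, -1⟩⟩, ⟨⟨0, 0⟩, ⟨0, 0⟩⟩⟩, ⟨⟨⟨0, 1⟩, ⟨-1, 0⟩⟩, ⟨⟨0, 1⟩, ⟨0, -1⟩⟩⟩⟩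
    ![⟨⟨⟨⟨1, 1⟩, ⟨1, 0⟩⟩, ⟨⟨-1, -1⟩, ⟨-1, 0⟩⟩⟩, ⟨⟨⟨0, 1⟩, ⟨0, 0⟩⟩, ⟨⟨0, 0⟩, ⟨-1, 0⟩⟩⟩⟩,
     ⟨⟨⟨⟨0, 0⟩, ⟨-1, 0⟩⟩, ⟨⟨0, 0⟩, ⟨0, 0⟩⟩⟩, ⟨⟨⟨0, -1⟩, ⟨0, 0⟩⟩, ⟨⟨1, 1⟩, ⟨0, 0⟩⟩⟩⟩] = y3 := by
  rw [hh, Matrix.cons_val_zero, Matrix.cons_val_one, Matrix.cons_val_fin_one, Dt_formula]
  decide +kernel

theorem fd_col1_gA : FG bG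
    ⟨⟨⟨⟨0, 0⟩, ⟨0, 0⟩⟩, ⟨⟨0, 0⟩, ⟨0, 0⟩⟩⟩, ⟨⟨⟨0, 0⟩, ⟨1, 0⟩⟩, ⟨⟨1, 0⟩, ⟨0, 1⟩⟩⟩⟩
    ⟨⟨⟨⟨0, 0⟩, ⟨0, 0⟩⟩, ⟨⟨-1, 0⟩, ⟨0, 0⟩⟩⟩, ⟨⟨⟨1, 0⟩, ⟨0, 0⟩⟩, ⟨⟨0, 0⟩, ⟨0, 0⟩⟩⟩⟩
    ⟨⟨⟨⟨0, 0⟩, ⟨0, 0⟩⟩, ⟨⟨0, 1⟩, ⟨1, 0⟩⟩⟩, ⟨⟨⟨-1, 0⟩, ⟨-1, 0⟩⟩, ⟨⟨0, 0⟩, ⟨0, 0⟩⟩⟩⟩
    ⟨⟨⟨⟨0, 0⟩, ⟨0, -1⟩⟩, ⟨⟨0, -1⟩, ⟨0, -1⟩⟩⟩, ⟨⟨⟨0, 0⟩, ⟨0, 0⟩⟩, ⟨⟨0, 0⟩, ⟨-1, 0⟩⟩⟩⟩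
    ⟨⟨⟨⟨2, 2⟩, ⟨-2, 0⟩⟩, ⟨⟨-1, 1⟩, ⟨0, -2⟩⟩⟩, ⟨⟨⟨2, 0⟩, ⟨-1, 1⟩⟩, ⟨⟨-1, 1⟩, ⟨-1, -1⟩⟩⟩⟩
    ⟨⟨⟨⟨0, 0⟩, ⟨1, -1⟩⟩, ⟨⟨0, 0⟩, ⟨0, 0⟩⟩⟩, ⟨⟨⟨-1, 1⟩, ⟨1, -1⟩⟩, ⟨⟨-2, 0⟩, ⟨1, -1⟩⟩⟩⟩
    ⟨⟨⟨⟨0, 0⟩, ⟨2, 0⟩⟩, ⟨⟨0, 0⟩, ⟨0, 0⟩⟩⟩, ⟨⟨⟨0, 0⟩, ⟨0, -2⟩⟩, ⟨⟨-2, 0⟩, ⟨0, 0⟩⟩⟩⟩
    ⟨⟨⟨⟨0, 0⟩, ⟨0, -2⟩⟩, ⟨⟨0, 0⟩, ⟨0, 0⟩⟩⟩, ⟨⟨⟨0, 2⟩, ⟨-2, 0⟩⟩, ⟨⟨0, 2⟩, ⟨0, -2⟩⟩⟩⟩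
    ⟨⟨⟨⟨0, 1⟩, ⟨0, 1⟩⟩, ⟨⟨0, 0⟩, ⟨1, 0⟩⟩⟩, ⟨⟨⟨1, 0⟩, ⟨0, 0⟩⟩, ⟨⟨1, 0⟩, ⟨1, 0⟩⟩⟩⟩
    ⟨⟨⟨⟨0, 0⟩, ⟨0, 0⟩⟩, ⟨⟨0, 1⟩, ⟨0, 0⟩⟩⟩, ⟨⟨⟨0, 0⟩, ⟨0, 0⟩⟩, ⟨⟨0, 0⟩, ⟨0, 0⟩⟩⟩⟩
    ⟨⟨⟨⟨0, 0⟩, ⟨0, 0⟩⟩, ⟨⟨0, 0⟩, ⟨0, 0⟩⟩⟩, ⟨⟨⟨0, 0⟩, ⟨0, 0⟩⟩, ⟨⟨0, 0⟩, ⟨0, 0⟩⟩⟩⟩
    ⟨⟨⟨⟨0, 0⟩, ⟨0, 0⟩⟩, ⟨⟨0, 0⟩, ⟨1, 0⟩⟩⟩, ⟨⟨⟨0, 0⟩, ⟨0, 0⟩⟩, ⟨⟨0, 0⟩, ⟨0, 0⟩⟩⟩⟩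
    gA where
  hv := by decide +kernel
  e1 := by decide +kernel
  e2 := by decide +kernel
  e3 := by decide +kernel
  e4 := by decide +kernel
  e5 := by decide +kernel
  g0 := by decide +kernel
  g1 := by decide +kernel
  g2 := by decide +kernel
theorem fd_col1_gA_hh : hh
    ⟨⟨⟨⟨0, 0⟩, ⟨1, 0⟩⟩, ⟨⟨0, 0⟩, ⟨0, 0⟩⟩⟩, ⟨⟨⟨0, 0⟩, ⟨0, -1⟩⟩, ⟨⟨-1, 0⟩, ⟨0, 0⟩⟩⟩⟩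
    ⟨⟨⟨⟨0, 0⟩, ⟨0, -1⟩⟩, ⟨⟨0, 0⟩, ⟨0, 0⟩⟩⟩, ⟨⟨⟨0, 1⟩, ⟨-1, 0⟩⟩, ⟨⟨0, 1⟩, ⟨0, -1⟩⟩⟩⟩
    ![⟨⟨⟨⟨0, 0⟩, ⟨0, 0⟩⟩, ⟨⟨0, 1⟩, ⟨1, 0⟩⟩⟩, ⟨⟨⟨-1, 0⟩, ⟨-1, 0⟩⟩, ⟨⟨0, 0⟩, ⟨0, 0⟩⟩⟩⟩,
     ⟨⟨⟨⟨0, 0⟩, ⟨0, -1⟩⟩, ⟨⟨0, -1⟩, ⟨0, -1⟩⟩⟩, ⟨⟨⟨0, 0⟩, ⟨0, 0⟩⟩, ⟨⟨0, 0⟩, ⟨-1, 0⟩⟩⟩⟩] = y4 := by
  rw [hh, Matrix.cons_val_zero, Matrix.cons_val_one, Matrix.cons_val_fin_one, Dt_formula]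
  decide +kernel

theorem fd_col2_gB : FG bG
    ⟨⟨⟨⟨0, 0⟩, ⟨0, 0⟩⟩, ⟨⟨0, 0⟩, ⟨0, 0⟩⟩⟩, ⟨⟨⟨0, 0⟩, ⟨1, 0⟩⟩, ⟨⟨1, 0⟩, ⟨0, 1⟩⟩⟩⟩
    ⟨⟨⟨⟨0, 0⟩, ⟨-1, 0⟩⟩, ⟨⟨0, 0⟩, ⟨0, 0⟩⟩⟩, ⟨⟨⟨1, 0⟩, ⟨0, 0⟩⟩, ⟨⟨0, 0⟩, ⟨0, 0⟩⟩⟩⟩
    ⟨⟨⟨⟨-1, 1⟩, ⟨0, 1⟩⟩, ⟨⟨0, -1⟩, ⟨-1, -1⟩⟩⟩, ⟨⟨⟨-1, 0⟩, ⟨0, 0⟩⟩, ⟨⟨0, 0⟩, ⟨0, -1⟩⟩⟩⟩
    ⟨⟨⟨⟨0, 0⟩, ⟨0, -1⟩⟩, ⟨⟨0, 0⟩, ⟨1, 1⟩⟩⟩, ⟨⟨⟨0, 0⟩, ⟨0, 0⟩⟩, ⟨⟨0, 0⟩, ⟨0, -1⟩⟩⟩⟩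
    ⟨⟨⟨⟨2, 0⟩, ⟨-2, 0⟩⟩, ⟨⟨0, 1⟩, ⟨-1, -2⟩⟩⟩, ⟨⟨⟨1, 2⟩, ⟨-1, 0⟩⟩, ⟨⟨-1, 1⟩, ⟨1, -1⟩⟩⟩⟩
    ⟨⟨⟨⟨-2, -1⟩, ⟨0, -1⟩⟩, ⟨⟨-1, -1⟩, ⟨0, 0⟩⟩⟩, ⟨⟨⟨-1, 1⟩, ⟨0, 0⟩⟩, ⟨⟨-1, 0⟩, ⟨1, 0⟩⟩⟩⟩
    ⟨⟨⟨⟨0, 0⟩, ⟨0, 0⟩⟩, ⟨⟨2, 0⟩, ⟨0, 0⟩⟩⟩, ⟨⟨⟨0, 0⟩, ⟨0, -2⟩⟩, ⟨⟨-2, 0⟩, ⟨0, 0⟩⟩⟩⟩
    ⟨⟨⟨⟨0, 0⟩, ⟨0, 0⟩⟩, ⟨⟨0, -2⟩, ⟨0, 0⟩⟩⟩, ⟨⟨⟨0, 2⟩, ⟨-2, 0⟩⟩, ⟨⟨0, 2⟩, ⟨0, -2⟩⟩⟩⟩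
    ⟨⟨⟨⟨0, 1⟩, ⟨0, 0⟩⟩, ⟨⟨1, 0⟩, ⟨1, 0⟩⟩⟩, ⟨⟨⟨1, 0⟩, ⟨0, 0⟩⟩, ⟨⟨0, 0⟩, ⟨0, 0⟩⟩⟩⟩
    ⟨⟨⟨⟨1, 1⟩, ⟨0, 0⟩⟩, ⟨⟨1, 0⟩, ⟨1, 0⟩⟩⟩, ⟨⟨⟨1, 0⟩, ⟨0, 0⟩⟩, ⟨⟨0, 0⟩, ⟨0, 0⟩⟩⟩⟩
    ⟨⟨⟨⟨1, 0⟩, ⟨0, 0⟩⟩, ⟨⟨0, 0⟩, ⟨0, 0⟩⟩⟩, ⟨⟨⟨0, 0⟩, ⟨0, 0⟩⟩, ⟨⟨0, 0⟩, ⟨0, 0⟩⟩⟩⟩
    ⟨⟨⟨⟨1, 0⟩, ⟨0, 0⟩⟩, ⟨⟨0, 0⟩, ⟨0, 0⟩⟩⟩, ⟨⟨⟨0, 0⟩, ⟨0, 0⟩⟩, ⟨⟨0, 0⟩, ⟨0, 0⟩⟩⟩⟩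
    gB where
  hv := by decide +kernel
  e1 := by decide +kernel
  e2 := by decide +kernel
  e3 := by decide +kernel
  e4 := by decide +kernel
  e5 := by decide +kernel
  g0 := by decide +kernel
  g1 := by decide +kernel
  g2 := by decide +kernel
theorem fd_col2_gB_hh : hh
    ⟨⟨⟨⟨0, 0⟩, ⟨0, 0⟩⟩, ⟨⟨1, 0⟩, ⟨0, 0⟩⟩⟩, ⟨⟨⟨0, 0⟩, ⟨0, -1⟩⟩, ⟨⟨-1, 0⟩, ⟨0, 0⟩⟩⟩⟩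
    ⟨⟨⟨⟨0, 0⟩, ⟨0, 0⟩⟩, ⟨⟨0, -1⟩, ⟨0, 0⟩⟩⟩, ⟨⟨⟨0, 1⟩, ⟨-1, 0⟩⟩, ⟨⟨0, 1⟩, ⟨0, -1⟩⟩⟩⟩
    ![⟨⟨⟨⟨-1, 1⟩, ⟨0, 1⟩⟩, ⟨⟨0, -1⟩, ⟨-1, -1⟩⟩⟩, ⟨⟨⟨-1, 0⟩, ⟨0, 0⟩⟩, ⟨⟨0, 0⟩, ⟨0, -1⟩⟩⟩⟩,
     ⟨⟨⟨⟨0, 0⟩, ⟨0, -1⟩⟩, ⟨⟨0, 0⟩, ⟨1, 1⟩⟩⟩, ⟨⟨⟨0, 0⟩, ⟨0, 0⟩⟩, ⟨⟨0, 0⟩, ⟨0, -1⟩⟩⟩⟩] = y3 := by
  rw [hh, Matrix.cons_val_zero, Matrix.cons_val_one, Matrix.cons_val_fin_one, Dt_formula]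
  decide +kernel

theorem fd_col2_gAx : FG bG
    ⟨⟨⟨⟨0, 0⟩, ⟨0, 0⟩⟩, ⟨⟨0, 0⟩, ⟨0, 0⟩⟩⟩, ⟨⟨⟨0, 0⟩, ⟨1, 0⟩⟩, ⟨⟨1, 0⟩, ⟨0, 1⟩⟩⟩⟩
    ⟨⟨⟨⟨0, 0⟩, ⟨-1, 0⟩⟩, ⟨⟨0, 0⟩, ⟨0, 0⟩⟩⟩, ⟨⟨⟨1, 0⟩, ⟨0, 0⟩⟩, ⟨⟨0, 0⟩, ⟨0, 0⟩⟩⟩⟩
    ⟨⟨⟨⟨0, 0⟩, ⟨0, 0⟩⟩, ⟨⟨-1, 0⟩, ⟨-1, 0⟩⟩⟩, ⟨⟨⟨0, 0⟩, ⟨0, 0⟩⟩, ⟨⟨-1, 0⟩, ⟨0, 1⟩⟩⟩⟩
    ⟨⟨⟨⟨-1, 0⟩, ⟨0, 0⟩⟩, ⟨⟨0, 0⟩, ⟨0, 0⟩⟩⟩, ⟨⟨⟨0, 0⟩, ⟨0, -1⟩⟩, ⟨⟨0, -1⟩, ⟨0, -1⟩⟩⟩⟩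
    ⟨⟨⟨⟨1, 1⟩, ⟨-1, -1⟩⟩, ⟨⟨0, 2⟩, ⟨-1, -1⟩⟩⟩, ⟨⟨⟨-2, 2⟩, ⟨0, -2⟩⟩, ⟨⟨-1, -1⟩, ⟨2, 0⟩⟩⟩⟩
    ⟨⟨⟨⟨-1, 1⟩, ⟨0, -2⟩⟩, ⟨⟨-1, -1⟩, ⟨1, 1⟩⟩⟩, ⟨⟨⟨0, 0⟩, ⟨1, 1⟩⟩, ⟨⟨0, 0⟩, ⟨0, 0⟩⟩⟩⟩
    ⟨⟨⟨⟨0, 0⟩, ⟨0, 0⟩⟩, ⟨⟨2, 0⟩, ⟨0, 0⟩⟩⟩, ⟨⟨⟨0, 0⟩, ⟨0, -2⟩⟩, ⟨⟨-2, 0⟩, ⟨0, 0⟩⟩⟩⟩
    ⟨⟨⟨⟨0, 0⟩, ⟨0, 0⟩⟩, ⟨⟨0, -2⟩, ⟨0, 0⟩⟩⟩, ⟨⟨⟨0, 2⟩, ⟨-2, 0⟩⟩, ⟨⟨0, 2⟩, ⟨0, -2⟩⟩⟩⟩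
    ⟨⟨⟨⟨0, 1⟩, ⟨0, 0⟩⟩, ⟨⟨1, 1⟩, ⟨1, 1⟩⟩⟩, ⟨⟨⟨0, 0⟩, ⟨1, 0⟩⟩, ⟨⟨0, 0⟩, ⟨0, 0⟩⟩⟩⟩
    ⟨⟨⟨⟨0, 1⟩, ⟨1, 1⟩⟩, ⟨⟨1, 0⟩, ⟨0, 1⟩⟩⟩, ⟨⟨⟨1, 0⟩, ⟨1, 0⟩⟩, ⟨⟨0, 0⟩, ⟨0, 0⟩⟩⟩⟩
    ⟨⟨⟨⟨1, 0⟩, ⟨1, 0⟩⟩, ⟨⟨0, 0⟩, ⟨0, 0⟩⟩⟩, ⟨⟨⟨0, 0⟩, ⟨0, 0⟩⟩, ⟨⟨0, 0⟩, ⟨0, 0⟩⟩⟩⟩
    ⟨⟨⟨⟨0, 0⟩, ⟨1, 0⟩⟩, ⟨⟨0, 1⟩, ⟨1, 0⟩⟩⟩, ⟨⟨⟨0, 0⟩, ⟨0, 0⟩⟩, ⟨⟨0, 0⟩, ⟨0, 0⟩⟩⟩⟩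
    gA' where
  hv := by decide +kernel
  e1 := by decide +kernel
  e2 := by decide +kernel
  e3 := by decide +kernel
  e4 := by decide +kernel
  e5 := by decide +kernel
  g0 := by decide +kernel
  g1 := by decide +kernel
  g2 := by decide +kernel
theorem fd_col2_gAx_hh : hh
    ⟨⟨⟨⟨0, 0⟩, ⟨0, 0⟩⟩, ⟨⟨1, 0⟩, ⟨0, 0⟩⟩⟩, ⟨⟨⟨0, 0⟩, ⟨0, -1⟩⟩, ⟨⟨-1, 0⟩, ⟨0, 0⟩⟩⟩⟩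
    ⟨⟨⟨⟨0, 0⟩, ⟨0, 0⟩⟩, ⟨⟨0, -1⟩, ⟨0, 0⟩⟩⟩, ⟨⟨⟨0, 1⟩, ⟨-1, 0⟩⟩, ⟨⟨0, 1⟩, ⟨0, -1⟩⟩⟩⟩
    ![⟨⟨⟨⟨0, 0⟩, ⟨0, 0⟩⟩, ⟨⟨-1, 0⟩, ⟨-1, 0⟩⟩⟩, ⟨⟨⟨0, 0⟩, ⟨0, 0⟩⟩, ⟨⟨-1, 0⟩, ⟨0, 1⟩⟩⟩⟩,
     ⟨⟨⟨⟨-1, 0⟩, ⟨0, 0⟩⟩, ⟨⟨0, 0⟩, ⟨0, 0⟩⟩⟩, ⟨⟨⟨0, 0⟩, ⟨0, -1⟩⟩, ⟨⟨0, -1⟩, ⟨0, -1⟩⟩⟩⟩] = y4 := by
  rw [hh, Matrix.cons_val_zero, Matrix.cons_val_one, Matrix.cons_val_fin_one, Dt_formula]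
  decide +kernel

end Vale.Agent.P246.Q32
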