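import Vale.Agent.P246.Q32.H5
import Vale.Agent.P246.Q32.Asm

/-!
# Certificates for `Q_32`: the columns over the group ring
-/

set_option linter.all false

namespace Vale.Agent.P246.Q32

open Vale.Agent.P246 Vale.Agent.P246.Q24 Vale.Agent.P246.Gen QuaternionGroup

theorem pX : pP (Xn 8) = xP ∧ pG (Xn 8) = xG := ⟨pP_X, pG_X⟩
theorem pY : pP (Yn 8) = yP ∧ pG (Yn 8) = yG := ⟨pP_Y, pG_Y⟩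
theorem pP_X' : pP (Xn' 8) = ⟨⟨⟨⟨0, 0⟩, ⟨0, 0⟩⟩, ⟨⟨0, 0⟩, ⟨0, 1⟩⟩⟩, ⟨⟨⟨0, 0⟩, ⟨0, 0⟩⟩, ⟨⟨0, 0⟩, ⟨0, 0⟩⟩⟩⟩ := by
  rw [Xn', pP_elt]; decide +kernel
theorem pG_X' : pG (Xn' 8) = ⟨⟨⟨⟨0, 0⟩, ⟨0, 0⟩⟩, ⟨⟨0, 0⟩, ⟨0, -1⟩⟩⟩, ⟨⟨⟨0, 0⟩, ⟨0, 0⟩⟩, ⟨⟨0, 0⟩, ⟨0, 0⟩⟩⟩⟩ := by
  rw [Xn', pG_elt]; decide +kernel
theorem pP_Y' : pP (Yn' 8) = yP := by
  rw [Yn', pP_elt]; decide +kernel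
theorem pG_Y' : pG (Yn' 8) = -yG := by
  rw [Yn', pG_elt]; decide +kernel

theorem pP_be : pP (be 8) = ⟨⟨⟨⟨0, 0⟩, ⟨0, 0⟩⟩, ⟨⟨0, 0⟩, ⟨0, 0⟩⟩⟩, ⟨⟨⟨0, 0⟩, ⟨-1, 0⟩⟩, ⟨⟨-1, 0⟩, ⟨0, 1⟩⟩⟩⟩ := by
  rw [be, map_mul, map_sub, map_sub, map_mul, pX.1, pP_X', pP_Y']; decide +kernel
theorem pG_be : pG (be 8) = ⟨⟨⟨⟨0, 0⟩, ⟨0, 0⟩⟩, ⟨⟨0, 0⟩, ⟨0, 0⟩⟩⟩, ⟨⟨⟨0, 0⟩, ⟨1, 0⟩⟩, ⟨⟨1, 0⟩, ⟨0, 1⟩⟩⟩⟩ := by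
  rw [be, map_mul, map_sub, map_sub, map_mul, pX.2, pG_X', pG_Y']; decide +kernel

noncomputable def c_1 : LL := Xn 8 ^ 2 - Xn 8 * Yn 8 - Xn 8 ^ 6 * Yn 8
noncomputable def d_1 : LL := Xn 8 ^ 10 * Yn 8 - Xn 8 ^ 6 - Xn 8 ^ 7 * Yn 8 - Xn 8 ^ 12 * Yn 8 - Xn 8 ^ 13 * Yn 8
theorem pP_c1 : pP c_1 = ⟨⟨⟨⟨0, 0⟩, ⟨1, 0⟩⟩, ⟨⟨0, 0⟩, ⟨0, 0⟩⟩⟩, ⟨⟨⟨0, 0⟩, ⟨0, -1⟩⟩, ⟨⟨-1, 0⟩, ⟨0, 0⟩⟩⟩⟩ := by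
  rw [c_1]
  simp only [map_add, map_sub, map_neg, map_mul, map_pow, pX.1, pY.1]
  decide +kernel
theorem pP_d1 : pP d_1 = ⟨⟨⟨⟨0, 0⟩, ⟨0, -1⟩⟩, ⟨⟨0, 0⟩, ⟨0, 0⟩⟩⟩, ⟨⟨⟨0, -1⟩, ⟨1, 0⟩⟩, ⟨⟨0, -1⟩, ⟨0, -1⟩⟩⟩⟩ := by
  rw [d_1]
  simp only [map_add, map_sub, map_neg, map_mul, map_pow, pX.1, pY.1]
  decide +kernel
theorem pP_b1 : pP (Yn 8 - Xn 8) = ⟨⟨⟨⟨0, 0⟩, ⟨0, 0⟩⟩, ⟨⟨-1, 0⟩, ⟨0, 0⟩⟩⟩, ⟨⟨⟨1, 0⟩, ⟨0, 0⟩⟩, ⟨⟨0, 0⟩, ⟨0, 0⟩⟩⟩⟩ := by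
  simp only [map_add, map_sub, map_neg, map_mul, map_pow, pX.1, pY.1]
  decide +kernel
theorem pG_c1 : pG c_1 = ⟨⟨⟨⟨0, 0⟩, ⟨1, 0⟩⟩, ⟨⟨0, 0⟩, ⟨0, 0⟩⟩⟩, ⟨⟨⟨0, 0⟩, ⟨0, -1⟩⟩, ⟨⟨-1, 0⟩, ⟨0, 0⟩⟩⟩⟩ := by
  rw [c_1]
  simp only [map_add, map_sub, map_neg, map_mul, map_pow, pX.2, pY.2]
  decide +kernel
theorem pG_d1 : pG d_1 = ⟨⟨⟨⟨0, 0⟩, ⟨0, -1⟩⟩, ⟨⟨0, 0⟩, ⟨0, 0⟩⟩⟩, ⟨⟨⟨0, 1⟩, ⟨-1, 0⟩⟩, ⟨⟨0, 1⟩, ⟨0, -1⟩⟩⟩⟩ := by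
  rw [d_1]
  simp only [map_add, map_sub, map_neg, map_mul, map_pow, pX.2, pY.2]
  decide +kernel
theorem pG_b1 : pG (Yn 8 - Xn 8) = ⟨⟨⟨⟨0, 0⟩, ⟨0, 0⟩⟩, ⟨⟨-1, 0⟩, ⟨0, 0⟩⟩⟩, ⟨⟨⟨1, 0⟩, ⟨0, 0⟩⟩, ⟨⟨0, 0⟩, ⟨0, 0⟩⟩⟩⟩ := by
  simp only [map_add, map_sub, map_neg, map_mul, map_pow, pX.2, pY.2]
  decide +kernel
theorem uni_1 : c_1 * be 8 + d_1 * (Yn 8 - Xn 8) = 1 := by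
  apply pi_ext
  · rw [map_add, map_mul, map_mul, pP_be, pP_c1, pP_d1, pP_b1, map_one]
    decide +kernel
  · rw [map_add, map_mul, map_mul, pG_be, pG_c1, pG_d1, pG_b1, map_one]
    decide +kernel

theorem cert1 : Cert (be 8) (Yn 8 - Xn 8)
    (fun a b c d => Frame a b c d y3 gB' ∧ Frame a b c d y4 gA) := by
  refine ⟨c_1, d_1, uni_1, ?_⟩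
  rw [pG_be, pG_b1, pG_c1, pG_d1]
  exact ⟨fd_col1_gBx.Frame fd_col1_gBx_hh, fd_col1_gA.Frame fd_col1_gA_hh⟩

noncomputable def c_2 : LL := Xn 8 - Xn 8 * Yn 8 - Xn 8 ^ 6 * Yn 8
noncomputable def d_2 : LL := Xn 8 ^ 10 * Yn 8 - Xn 8 ^ 5 - Xn 8 ^ 7 * Yn 8 - Xn 8 ^ 12 * Yn 8 - Xn 8 ^ 13 * Yn 8
theorem pP_c2 : pP c_2 = ⟨⟨⟨⟨0, 0⟩, ⟨0, 0⟩⟩, ⟨⟨1, 0⟩, ⟨0, 0⟩⟩⟩, ⟨⟨⟨0, 0⟩, ⟨0, -1⟩⟩, ⟨⟨-1, 0⟩, ⟨0, 0⟩⟩⟩⟩ := by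
  rw [c_2]
  simp only [map_add, map_sub, map_neg, map_mul, map_pow, pX.1, pY.1]
  decide +kernel
theorem pP_d2 : pP d_2 = ⟨⟨⟨⟨0, 0⟩, ⟨0, 0⟩⟩, ⟨⟨0, -1⟩, ⟨0, 0⟩⟩⟩, ⟨⟨⟨0, -1⟩, ⟨1, 0⟩⟩, ⟨⟨0, -1⟩, ⟨0, -1⟩⟩⟩⟩ := by
  rw [d_2]
  simp only [map_add, map_sub, map_neg, map_mul, map_pow, pX.1, pY.1]
  decide +kernel
theorem pP_b2 : pP (Yn 8 - Xn 8 * Xn 8) = ⟨⟨⟨⟨0, 0⟩, ⟨-1, 0⟩⟩, ⟨⟨0, 0⟩, ⟨0, 0⟩⟩⟩, ⟨⟨⟨1, 0⟩, ⟨0, 0⟩⟩, ⟨⟨0, 0⟩, ⟨0, 0⟩⟩⟩⟩ := by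
  simp only [map_add, map_sub, map_neg, map_mul, map_pow, pX.1, pY.1]
  decide +kernel
theorem pG_c2 : pG c_2 = ⟨⟨⟨⟨0, 0⟩, ⟨0, 0⟩⟩, ⟨⟨1, 0⟩, ⟨0, 0⟩⟩⟩, ⟨⟨⟨0, 0⟩, ⟨0, -1⟩⟩, ⟨⟨-1, 0⟩, ⟨0, 0⟩⟩⟩⟩ := by
  rw [c_2]
  simp only [map_add, map_sub, map_neg, map_mul, map_pow, pX.2, pY.2]
  decide +kernel
theorem pG_d2 : pG d_2 = ⟨⟨⟨⟨0, 0⟩, ⟨0, 0⟩⟩, ⟨⟨0, -1⟩, ⟨0, 0⟩⟩⟩, ⟨⟨⟨0, 1⟩, ⟨-1, 0⟩⟩, ⟨⟨0, 1⟩, ⟨0, -1⟩⟩⟩⟩ := by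
  rw [d_2]
  simp only [map_add, map_sub, map_neg, map_mul, map_pow, pX.2, pY.2]
  decide +kernel
theorem pG_b2 : pG (Yn 8 - Xn 8 * Xn 8) = ⟨⟨⟨⟨0, 0⟩, ⟨-1, 0⟩⟩, ⟨⟨0, 0⟩, ⟨0, 0⟩⟩⟩, ⟨⟨⟨1, 0⟩, ⟨0, 0⟩⟩, ⟨⟨0, 0⟩, ⟨0, 0⟩⟩⟩⟩ := by
  simp only [map_add, map_sub, map_neg, map_mul, map_pow, pX.2, pY.2]
  decide +kernel
theorem uni_2 : c_2 * be 8 + d_2 * (Yn 8 - Xn 8 * Xn 8) = 1 := by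
  apply pi_ext
  · rw [map_add, map_mul, map_mul, pP_be, pP_c2, pP_d2, pP_b2, map_one]
    decide +kernel
  · rw [map_add, map_mul, map_mul, pG_be, pG_c2, pG_d2, pG_b2, map_one]
    decide +kernel

theorem cert2 : Cert (be 8) (Yn 8 - Xn 8 * Xn 8)
    (fun a b c d => Frame a b c d y3 gB ∧ Frame a b c d y4 gA') := by
  refine ⟨c_2, d_2, uni_2, ?_⟩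
  rw [pG_be, pG_b2, pG_c2, pG_d2]
  exact ⟨fd_col2_gB.Frame fd_col2_gB_hh, fd_col2_gAx.Frame fd_col2_gAx_hh⟩

theorem frame0 (m : Gam) : Frame 1 m 1 0 4 0 := by
  have D : FG bG 1 m (-(2 * m)) 2 0 1 2 0 0 0 0 0 (0 : AA) := by
    constructor
    · noncomm_ring
    · noncomm_ring
    · noncomm_ring
    · noncomm_ring
    · noncomm_ring
    · noncomm_ring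
    · rw [map_neg, bG_two, neg_zero, mul_zero]
    · rw [mul_zero]
      decide +kernel
    · rw [mul_zero, mul_zero, add_zero]
  apply D.Frame
  rw [hh, Matrix.cons_val_zero, Matrix.cons_val_one, Matrix.cons_val_fin_one, Dt_formula]
  have h1 : Dbl.nrd (1 : Gam) = 1 := by decide +kernel
  have h2 : Dbl.nrd (0 : Gam) = 0 := by decide +kernel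
  rw [h1, h2, nrd_two, mul_zero, zero_mul]
  simp

theorem cert0 : Cert 1 (-(Xn 8 - Yn 8)) (fun a b c d => Frame a b c d 4 0) := by
  refine ⟨1, 0, by rw [one_mul, zero_mul, add_zero], ?_⟩
  rw [map_one, map_zero]
  exact frame0 _

end Vale.Agent.P246.Q32
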