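import Vale.Agent.P246.Q32.UU1

/-!
# Splitting of units of `𝔽_2[D_16]`
-/

set_option linter.all false

namespace Vale.Agent.P246.Q32.U

open Vale.Agent.P246.Q24

/-! ### the kernel of `𝔽_2[D_16] → 𝔽_2[D_8]` -/

/-- `z ↦ (1 + x⁴) z` -/
def l84 (z : F4') : F8 := ⟨⟨⟨z.re.re, z.re.re⟩, ⟨z.re.im, z.re.im⟩⟩, ⟨⟨z.im.re, z.im.re⟩, ⟨z.im.im, z.im.im⟩⟩⟩

theorem l84_add (a b : F4') : l84 (a + b) = l84 a + l84 b := rfl

theorem l84_mul : ∀ a b : F4', l84 a * l84 b = 0 := by decide +kernel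

theorem l84_conj : ∀ a : F4', conj (l84 a) = l84 (conj a) := by decide +kernel

/-- `1 + (1 + x⁴) m` -/
def KK (m : Dbl F4' false) : AA := ⟨1 + l84 m.fst, l84 m.snd⟩

theorem KK_mul (a b : Dbl F4' false) : KK a * KK b = KK (a + b) := by
  apply Dbl.ext
  · simp only [KK, Dbl.mul_fst, Dbl.add_fst, l84_add, l84_conj, sg_false]
    linear_combination l84_mul a.fst b.fst + l84_mul a.snd (conj b.snd)
  · simp only [KK, Dbl.mul_snd, Dbl.add_snd, l84_add, map_add, map_one, l84_conj]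
    linear_combination l84_mul a.fst b.snd + l84_mul a.snd (conj b.fst)

theorem SP_KK_add {a b : Dbl F4' false} (ha : SP (KK a)) (hb : SP (KK b)) : SP (KK (a + b)) := by
  rw [← KK_mul]; exact ha.mul hb

theorem F2_add1 : ∀ p q : F2, p + 1 * q = 1 → 1 + q = p := by decide
theorem F2_add0 : ∀ p q : F2, p + 1 * q = 0 → q = p := by decide

theorem F8_ker1 (z : F8) (h : s84 z = 1) : ∃ w : F4', z = 1 + l84 w := by
  have h1 := congrArg (fun z => z.re.re) h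
  have h2 := congrArg (fun z => z.re.im) h
  have h3 := congrArg (fun z => z.im.re) h
  have h4 := congrArg (fun z => z.im.im) h
  refine ⟨⟨⟨z.re.re.im, z.re.im.im⟩, ⟨z.im.re.im, z.im.im.im⟩⟩, ?_⟩
  have k1 := F2_add1 _ _ h1
  have k2 := F2_add0 _ _ h2
  have k3 := F2_add0 _ _ h3
  have k4 := F2_add0 _ _ h4
  ext <;> simp [l84, k1, k2, k3, k4]

theorem F8_ker0 (z : F8) (h : s84 z = 0) : ∃ w : F4', z = l84 w := by
  have h1 := congrArg (fun z => z.re.re) h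
  have h2 := congrArg (fun z => z.re.im) h
  have h3 := congrArg (fun z => z.im.re) h
  have h4 := congrArg (fun z => z.im.im) h
  refine ⟨⟨⟨z.re.re.im, z.re.im.im⟩, ⟨z.im.re.im, z.im.im.im⟩⟩, ?_⟩
  have k1 := F2_add0 _ _ h1
  have k2 := F2_add0 _ _ h2
  have k3 := F2_add0 _ _ h3
  have k4 := F2_add0 _ _ h4
  ext <;> simp [l84, k1, k2, k3, k4]

theorem r84_ker (al : AA) (h : r84 al = 1) : ∃ m, al = KK m := by
  obtain ⟨w1, hw1⟩ := F8_ker1 al.fst (congrArg Dbl.fst h)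
  obtain ⟨w2, hw2⟩ := F8_ker0 al.snd (congrArg Dbl.snd h)
  exact ⟨⟨w1, w2⟩, Dbl.ext hw1 hw2⟩

/-! ### explicit units -/

/-- `1 + √2` -/
def h2 : Z16 := mZ 1 0 1 0 0 0 (-1) 0
/-- its inverse -/
def h2' : Z16 := mZ (-1) 0 1 0 0 0 (-1) 0

/-- `x⁴` -/
def k1 : SD := ⟨⟨mS 0 0 0 0 1 0 0 0, 0⟩, ⟨mS 0 0 0 0 1 0 0 0, 0⟩, 1, 1⟩
/-- `1 + √2` -/
def k2 : SD := ⟨1, 1, h2, h2'⟩
/-- `x⁴ u` -/
def k3 : SD := ⟨⟨mS (-1) (-1) 0 1 2 1 0 (-1), 0⟩, ⟨mS (-1) 1 0 (-1) 2 (-1) 0 1, 0⟩, 1, 1⟩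
/-- `1 + (x² - x⁻²)(1 + x^j y)` -/
def k4 : SD := ⟨bic (mS 0 0 1 0 0 0 (-1) 0) 1, bic (mS 0 0 (-1) 0 0 0 1 0) 1, 1, 1⟩
def k5 : SD := ⟨bic (mS 0 0 1 0 0 0 (-1) 0) (mS 0 1 0 0 0 0 0 0),
  bic (mS 0 0 (-1) 0 0 0 1 0) (mS 0 1 0 0 0 0 0 0), 1, 1⟩
def k6 : SD := ⟨bic (mS 0 0 1 0 0 0 (-1) 0) (mS 0 0 1 0 0 0 0 0),
  bic (mS 0 0 (-1) 0 0 0 1 0) (mS 0 0 1 0 0 0 0 0), 1, 1⟩
def k7 : SD := ⟨bic (mS 0 0 1 0 0 0 (-1) 0) (mS 0 0 0 1 0 0 0 0),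
  bic (mS 0 0 (-1) 0 0 0 1 0) (mS 0 0 0 1 0 0 0 0), 1, 1⟩
/-- `w = -1 + (1 - x⁴)(x + (1 + x³) y)` -/
def wu : PP := ⟨mS (-1) 1 0 0 0 (-1) 0 0, mS 1 0 0 1 (-1) 0 0 (-1)⟩

/-- `w⁻¹` -/
def wu' : PP := ⟨mS (-1) 1 2 2 0 (-1) (-2) (-2), mS 1 2 2 1 (-1) (-2) (-2) (-1)⟩
def k8 : SD := ⟨wu, wu', 1, 1⟩

theorem k1_ok : k1.ok := by decide +kernel
theorem k2_ok : k2.ok := by decide +kernel
theorem k3_ok : k3.ok := by decide +kernel
theorem k4_ok : k4.ok := by decide +kernel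
theorem k5_ok : k5.ok := by decide +kernel
theorem k6_ok : k6.ok := by decide +kernel
theorem k7_ok : k7.ok := by decide +kernel
theorem k8_ok : k8.ok := by decide +kernel

/-- an element of `𝔽_2[D_8]` -/
def mD (a0 a1 a2 a3 b0 b1 b2 b3 : F2) : Dbl F4' false :=
  ⟨⟨⟨a0, a2⟩, ⟨a1, a3⟩⟩, ⟨⟨b0, b2⟩, ⟨b1, b3⟩⟩⟩

theorem k1_v : KK (mD 1 0 0 0 0 0 0 0) = k1.v := by decide +kernel
theorem k2_v : KK (mD 0 0 1 0 0 0 0 0) = k2.v := by decide +kernel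
theorem k3_v : KK (mD 0 1 0 1 0 0 0 0) = k3.v := by decide +kernel
theorem k4_v : KK (mD 0 0 1 0 0 0 1 0) = k4.v := by decide +kernel
theorem k5_v : KK (mD 0 0 1 0 0 0 0 1) = k5.v := by decide +kernel
theorem k6_v : KK (mD 0 0 1 0 1 0 0 0) = k6.v := by decide +kernel
theorem k7_v : KK (mD 0 0 1 0 0 1 0 0) = k7.v := by decide +kernel
theorem k8_v : KK (mD 0 1 0 0 1 0 0 1) = k8.v := by decide +kernel

theorem e1_sp : SP (KK (mD 1 0 0 0 0 0 0 0)) := by rw [k1_v]; exact SD.sp k1_ok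
theorem e2_sp : SP (KK (mD 0 0 1 0 0 0 0 0)) := by rw [k2_v]; exact SD.sp k2_ok
theorem e3_sp : SP (KK (mD 0 1 0 1 0 0 0 0)) := by rw [k3_v]; exact SD.sp k3_ok
theorem e4_sp : SP (KK (mD 0 0 1 0 0 0 1 0)) := by rw [k4_v]; exact SD.sp k4_ok
theorem e5_sp : SP (KK (mD 0 0 1 0 0 0 0 1)) := by rw [k5_v]; exact SD.sp k5_ok
theorem e6_sp : SP (KK (mD 0 0 1 0 1 0 0 0)) := by rw [k6_v]; exact SD.sp k6_ok
theorem e7_sp : SP (KK (mD 0 0 1 0 0 1 0 0)) := by rw [k7_v]; exact SD.sp k7_ok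
theorem e8_sp : SP (KK (mD 0 1 0 0 1 0 0 1)) := by rw [k8_v]; exact SD.sp k8_ok

theorem y0_sp : SP (KK (mD 0 0 0 0 1 0 0 0)) := by
  have := SP_KK_add e6_sp e2_sp; rwa [show mD 0 0 1 0 1 0 0 0 + mD 0 0 1 0 0 0 0 0 = mD 0 0 0 0 1 0 0 0 from by decide] at this
theorem y1_sp : SP (KK (mD 0 0 0 0 0 1 0 0)) := by
  have := SP_KK_add e7_sp e2_sp; rwa [show mD 0 0 1 0 0 1 0 0 + mD 0 0 1 0 0 0 0 0 = mD 0 0 0 0 0 1 0 0 from by decide] at this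
theorem y2_sp : SP (KK (mD 0 0 0 0 0 0 1 0)) := by
  have := SP_KK_add e4_sp e2_sp; rwa [show mD 0 0 1 0 0 0 1 0 + mD 0 0 1 0 0 0 0 0 = mD 0 0 0 0 0 0 1 0 from by decide] at this
theorem y3_sp : SP (KK (mD 0 0 0 0 0 0 0 1)) := by
  have := SP_KK_add e5_sp e2_sp; rwa [show mD 0 0 1 0 0 0 0 1 + mD 0 0 1 0 0 0 0 0 = mD 0 0 0 0 0 0 0 1 from by decide] at this
theorem x1_sp : SP (KK (mD 0 1 0 0 0 0 0 0)) := by
  have := SP_KK_add (SP_KK_add e8_sp y0_sp) y3_sp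
  rwa [show mD 0 1 0 0 1 0 0 1 + mD 0 0 0 0 1 0 0 0 + mD 0 0 0 0 0 0 0 1 = mD 0 1 0 0 0 0 0 0 from by decide] at this
theorem x3_sp : SP (KK (mD 0 0 0 1 0 0 0 0)) := by
  have := SP_KK_add e3_sp x1_sp
  rwa [show mD 0 1 0 1 0 0 0 0 + mD 0 1 0 0 0 0 0 0 = mD 0 0 0 1 0 0 0 0 from by decide] at this

theorem zero_sp : SP (KK (mD 0 0 0 0 0 0 0 0)) := by
  have : KK (mD 0 0 0 0 0 0 0 0) = 1 := by decide +kernel
  rw [this]; exact SP.one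

theorem F2_cases : ∀ c : F2, c = 0 ∨ c = 1 := by decide

theorem SP_mD (a0 a1 a2 a3 b0 b1 b2 b3 : F2) : SP (KK (mD a0 a1 a2 a3 b0 b1 b2 b3)) := by
  have c0 : SP (KK (mD a0 0 0 0 0 0 0 0)) := by
    rcases F2_cases a0 with rfl | rfl
    · exact zero_sp
    · exact e1_sp
  have c1 : SP (KK (mD 0 a1 0 0 0 0 0 0)) := by
    rcases F2_cases a1 with rfl | rfl
    · exact zero_sp
    · exact x1_sp
  have c2 : SP (KK (mD 0 0 a2 0 0 0 0 0)) := by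
    rcases F2_cases a2 with rfl | rfl
    · exact zero_sp
    · exact e2_sp
  have c3 : SP (KK (mD 0 0 0 a3 0 0 0 0)) := by
    rcases F2_cases a3 with rfl | rfl
    · exact zero_sp
    · exact x3_sp
  have d0 : SP (KK (mD 0 0 0 0 b0 0 0 0)) := by
    rcases F2_cases b0 with rfl | rfl
    · exact zero_sp
    · exact y0_sp
  have d1 : SP (KK (mD 0 0 0 0 0 b1 0 0)) := by
    rcases F2_cases b1 with rfl | rfl
    · exact zero_sp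
    · exact y1_sp
  have d2 : SP (KK (mD 0 0 0 0 0 0 b2 0)) := by
    rcases F2_cases b2 with rfl | rfl
    · exact zero_sp
    · exact y2_sp
  have d3 : SP (KK (mD 0 0 0 0 0 0 0 b3)) := by
    rcases F2_cases b3 with rfl | rfl
    · exact zero_sp
    · exact y3_sp
  have h := SP_KK_add (SP_KK_add (SP_KK_add c0 c1) (SP_KK_add c2 c3))
    (SP_KK_add (SP_KK_add d0 d1) (SP_KK_add d2 d3))
  have e : mD a0 0 0 0 0 0 0 0 + mD 0 a1 0 0 0 0 0 0 + (mD 0 0 a2 0 0 0 0 0 + mD 0 0 0 a3 0 0 0 0) +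
      (mD 0 0 0 0 b0 0 0 0 + mD 0 0 0 0 0 b1 0 0 + (mD 0 0 0 0 0 0 b2 0 + mD 0 0 0 0 0 0 0 b3)) =
      mD a0 a1 a2 a3 b0 b1 b2 b3 := by
    ext <;> simp [mD]
  rwa [e] at h

theorem SP_KK (m : Dbl F4' false) : SP (KK m) :=
  SP_mD m.fst.re.re m.fst.im.re m.fst.re.im m.fst.im.im m.snd.re.re m.snd.im.re m.snd.re.im
    m.snd.im.im

/-! ### conclusion -/

theorem chi_s84 : ∀ z : F8, conj z = z → (s84 z).im.re = chi z := by decide +kernel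

theorem nrd_r84 (al : AA) : Dbl.nrd (r84 al) = s84 (Dbl.nrd al) := by
  simp only [Dbl.nrd, r84, Dbl.map_fst, Dbl.map_snd, map_sub, map_mul, map_sg, s84_conj]

theorem SP_all (al al' : AA) (h : al * al' = 1) (hc : chi (Dbl.nrd al) = 0) : SP al := by
  have h1 : augC (r84 al) = 1 :=
    F2_unit _ (augC (r84 al')) (by rw [← map_mul, ← map_mul, h, map_one, map_one])
  have h3 : (Dbl.nrd (r84 al)).im.re = 0 := by
    rw [nrd_r84, chi_s84 _ (Dbl.conj_nrd al), hc]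
  have h4 := lB_lift (r84 al) h1 h3
  apply rd_ind r84 SD.w SP dA (fun p hp δ hδ => SP_step (dA_ok p hp) δ hδ)
  have h5 := rd_map r84 SD.w dA al
  obtain ⟨m, hm⟩ := r84_ker _ (h5.trans h4)
  rw [hm]
  exact SP_KK m

theorem unit_split (al al' : AA) (h : al * al' = 1) (h' : al' * al = 1)
    (hc : chi (Dbl.nrd al) = 0) : ∃ (e e' : PP) (h h' : Z16), e * e' = 1 ∧ e' * e = 1 ∧
      h * h' = 1 ∧ conj h = h ∧ conj h' = h' ∧ al = aP e * bG (Dbl.C h) := by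
  obtain ⟨e, e', k, k', a1, a2, a3, a4, a5, a6⟩ := SP_all al al' h hc
  exact ⟨e, e', k, k', a1, a2, a3, a4, a5, a6⟩

end Vale.Agent.P246.Q32.U

namespace Vale.Agent.P246.Q32

open Vale.Agent.P246.Q24

/-- splitting of units -/
theorem unit_split (al al' : AA) (h : al * al' = 1) (h' : al' * al = 1)
    (hc : chi (Dbl.nrd al) = 0) : ∃ (e e' : PP) (h h' : Z16), e * e' = 1 ∧ e' * e = 1 ∧
      h * h' = 1 ∧ conj h = h ∧ conj h' = h' ∧ al = aP e * bG (Dbl.C h) :=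
  U.unit_split al al' h h' hc

end Vale.Agent.P246.Q32
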