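import Vale.Agent.P246.Q32.Asm
import Vale.Agent.P246.Q32.H2
import Vale.Agent.P246.Q32.H4
import Vale.Agent.P246.Q32.H5b
import Vale.Agent.P246.Q32.UTR
import Vale.Agent.P246.Q32.UU

/-!
# The D(2) property for `Q_32`
-/

set_option linter.all false

namespace Vale.Agent.P246.Q32

open Vale.Agent.P246

theorem classify : Classify := fun _ _ _ _ h B => classify_of h B (exists_root h)

/-- the algebraic D(2) property of the generalized quaternion group of order thirty-two -/
theorem main : AlgebraicD2Property (QuaternionGroup 8) :=
  main_of TR_PP unit_split classify cert0 cert1 cert2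

end Vale.Agent.P246.Q32
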