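import Vale.Agent.P246.Q32.Base
import Vale.Agent.P246.Q24.E1
import Vale.Agent.P246.Q24.B2
import Mathlib.Tactic.FinCases

/-!
# The two projections of `ℤ[Q_32]`
-/

set_option linter.all false

namespace Vale.Agent.P246.Q32

open Vale.Agent.P246 Vale.Agent.P246.Q24 QuaternionGroup

/-- `ℤ[Q_32]` -/
abbrev LL : Type := ZG (QuaternionGroup 8)

/-- `x` in `ℤ[D_16]` -/
def xP : PP := ⟨⟨0, 1⟩, 0⟩
/-- `y` in `ℤ[D_16]` -/
def yP : PP := ⟨0, 1⟩
/-- `x` in `ℤ[ζ_16, j]` -/
def xG : Gam := ⟨⟨0, 1⟩, 0⟩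
/-- `y` in `ℤ[ζ_16, j]` -/
def yG : Gam := ⟨0, 1⟩

theorem xP_pow : xP ^ 8 = 1 := by
  have h : xP ^ 8 = ((xP ^ 2) ^ 2) ^ 2 := by rw [← pow_mul, ← pow_mul]
  rw [h, pow_two, pow_two, pow_two]; decide +kernel

theorem xG_pow : xG ^ 8 = -1 := by
  have h : xG ^ 8 = ((xG ^ 2) ^ 2) ^ 2 := by rw [← pow_mul, ← pow_mul]
  rw [h, pow_two, pow_two, pow_two]; decide +kernel

/-- the representation in `ℤ[D_16]` -/
def qP : QuaternionGroup 8 →* PP :=
  quatHom xP yP (by rw [two_mul, pow_add, xP_pow, one_mul]) (by rw [xP_pow]; decide +kernel)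
    (by decide +kernel)
/-- the representation in `ℤ[ζ_16, j]` -/
def qG : QuaternionGroup 8 →* Gam :=
  quatHom xG yG (by rw [two_mul, pow_add, xG_pow]; decide +kernel)
    (by rw [xG_pow]; decide +kernel) (by decide +kernel)

/-- the projection to `ℤ[D_16]` -/
noncomputable def pP : LL →+* PP := (MonoidAlgebra.lift ℤ PP (QuaternionGroup 8) qP).toRingHom
/-- the projection to `ℤ[ζ_16, j]` -/
noncomputable def pG : LL →+* Gam := (MonoidAlgebra.lift ℤ Gam (QuaternionGroup 8) qG).toRingHom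

theorem pP_elt (g : QuaternionGroup 8) : pP (elt g) = qP g := by simp [pP, elt]
theorem pG_elt (g : QuaternionGroup 8) : pG (elt g) = qG g := by simp [pG, elt]

/-- `x` -/
noncomputable def X : LL := elt (a 1)
/-- `y` -/
noncomputable def Y : LL := elt (xa 0)

theorem pP_X : pP X = xP := by rw [X, pP_elt]; exact pow_one _
theorem pG_X : pG X = xG := by rw [X, pG_elt]; exact pow_one _
theorem pP_Y : pP Y = yP := by
  rw [Y, pP_elt]; change yP * xP ^ 0 = _; rw [pow_zero, mul_one]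
theorem pG_Y : pG Y = yG := by
  rw [Y, pG_elt]; change yG * xG ^ 0 = _; rw [pow_zero, mul_one]

theorem LL_hom_ext {R : Type*} [Ring R] {f g : LL →+* R} (h1 : f X = g X) (h2 : f Y = g Y) :
    f = g := by
  apply MonoidAlgebra.ringHom_ext'
  · exact RingHom.ext_int _ _
  · exact quat_hom_ext h1 h2

theorem sq (l : LL) : aP (pP l) = bG (pG l) := by
  have h : aP.comp pP = bG.comp pG := by
    apply LL_hom_ext
    · rw [RingHom.comp_apply, RingHom.comp_apply, pP_X, pG_X]; decide +kernel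
    · rw [RingHom.comp_apply, RingHom.comp_apply, pP_Y, pG_Y]; decide +kernel
  exact DFunLike.congr_fun h l

/-- the coefficient of `1` -/
def c0P : PP →+ ℤ where
  toFun z := z.fst.re.re.re
  map_zero' := rfl
  map_add' _ _ := rfl
/-- the coefficient of `1` -/
def c0G : Gam →+ ℤ where
  toFun z := z.fst.re.re.re
  map_zero' := rfl
  map_add' _ _ := rfl

theorem c0_group : ∀ g : QuaternionGroup 8,
    c0P (qP g) + c0G (qG g) = if g = 1 then 2 else 0 := by
  decide +kernel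

/-- twice the coefficient of `1` -/
theorem two_coef (l : LL) : 2 * l.coeff 1 = c0P (pP l) + c0G (pG l) := by
  conv_lhs => rw [← sum_coeff_elt l]
  conv_rhs => rw [← sum_coeff_elt l]
  rw [map_sum, map_sum, map_sum, map_sum, ← Finset.sum_add_distrib, MonoidAlgebra.coeff_sum,
    Finsupp.finsetSum_apply, Finset.mul_sum]
  apply Finset.sum_congr rfl
  intro g _
  rw [map_zsmul, map_zsmul, map_zsmul, map_zsmul, pP_elt, pG_elt, ← smul_add, c0_group,
    MonoidAlgebra.coeff_smul, Finsupp.smul_apply, elt, MonoidAlgebra.coeff_single,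
    Finsupp.single_apply]
  split_ifs <;> simp [mul_comm]

theorem pi_inj {l : LL} (h1 : pP l = 0) (h2 : pG l = 0) : l = 0 := by
  apply MonoidAlgebra.ext
  apply Finsupp.ext
  intro g
  have h3 := coeff_mul_elt l g⁻¹ g
  rw [mul_inv_cancel] at h3
  have h4 := two_coef (l * elt g⁻¹)
  rw [pP.map_mul, pG.map_mul, h1, h2, zero_mul, zero_mul, map_zero, map_zero, h3] at h4
  rw [MonoidAlgebra.coeff_zero, Finsupp.zero_apply]
  omega

theorem pi_ext {l l' : LL} (h1 : pP l = pP l') (h2 : pG l = pG l') : l = l' := by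
  apply sub_eq_zero.1
  apply pi_inj
  · rw [map_sub, h1, sub_self]
  · rw [map_sub, h2, sub_self]

section tup

variable {A : Type} [CommRing A] [Invo A] {e : A} [UN e] {b : Bool}

/-- coordinates to element -/
def tup (v : Fin 16 → A) : Dbl (R8 A e) b :=
  ⟨⟨⟨⟨v 0, v 4⟩, ⟨v 2, v 6⟩⟩, ⟨⟨v 1, v 5⟩, ⟨v 3, v 7⟩⟩⟩,
    ⟨⟨⟨v 8, v 12⟩, ⟨v 10, v 14⟩⟩, ⟨⟨v 9, v 13⟩, ⟨v 11, v 15⟩⟩⟩⟩

/-- element to coordinates -/
def co (z : Dbl (R8 A e) b) : Fin 16 → A :=
  ![z.fst.re.re.re, z.fst.im.re.re, z.fst.re.im.re, z.fst.im.im.re,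
    z.fst.re.re.im, z.fst.im.re.im, z.fst.re.im.im, z.fst.im.im.im,
    z.snd.re.re.re, z.snd.im.re.re, z.snd.re.im.re, z.snd.im.im.re,
    z.snd.re.re.im, z.snd.im.re.im, z.snd.re.im.im, z.snd.im.im.im]

theorem tup_co (z : Dbl (R8 A e) b) : tup (co z) = z := rfl

theorem co_tup (v : Fin 16 → A) : co (tup v : Dbl (R8 A e) b) = v := by
  funext k
  fin_cases k <;> rfl

/-- additive version -/
def tupHom : (Fin 16 → A) →+ Dbl (R8 A e) b where
  toFun := tup
  map_zero' := rfl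
  map_add' _ _ := rfl

end tup

theorem tup_sum {e : ℤ} {b : Bool} [UN e] (v : Fin 16 → ℤ) : (tup v : Dbl (R8 ℤ e) b) =
    ∑ k, v k • (tup (Pi.single k 1) : Dbl (R8 ℤ e) b) := by
  have h : v = ∑ k, v k • (Pi.single k 1 : Fin 16 → ℤ) := by
    funext j
    rw [Finset.sum_apply]
    simp [Pi.single_apply]
  have h1 : (tup v : Dbl (R8 ℤ e) b) = tupHom v := rfl
  conv_lhs => rw [h1, h, map_sum]
  apply Finset.sum_congr rfl
  intro k _
  rw [map_zsmul]
  rfl

/-- the group elements `x^k`, `x^k y` -/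
def gk (k : Fin 16) : QuaternionGroup 8 := if k.val < 8 then a (k.val : ℕ) else
  a ((k.val - 8 : ℕ)) * xa 0

theorem gkP : ∀ k, (tup (Pi.single k 1) : PP) = qP (gk k) := by decide +kernel
theorem gkG : ∀ k, (tup (Pi.single k 1) : Gam) = qG (gk k) := by decide +kernel

theorem pP_surj (p : PP) : ∃ l, pP l = p := by
  refine ⟨∑ k, co p k • elt (gk k), ?_⟩
  rw [map_sum]
  conv_rhs => rw [← tup_co p, tup_sum]
  apply Finset.sum_congr rfl
  intro k _
  rw [map_zsmul, pP_elt, gkP]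

theorem pG_surj (p : Gam) : ∃ l, pG l = p := by
  refine ⟨∑ k, co p k • elt (gk k), ?_⟩
  rw [map_sum]
  conv_rhs => rw [← tup_co p, tup_sum]
  apply Finset.sum_congr rfl
  intro k _
  rw [map_zsmul, pG_elt, gkG]

theorem zF2_half {x : ℤ} (h : zF2 x = 0) : ∃ y, x = y + y := by
  have h1 := (ZMod.intCast_zmod_eq_zero_iff_dvd x 2).1 h
  obtain ⟨y, hy⟩ := h1
  exact ⟨y, by push_cast at hy; omega⟩

theorem bG_ker {m : Gam} (h : bG m = 0) : ∃ m', m = m' + m' := by
  have h1 : ∀ k, zF2 (co m k) = 0 := by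
    intro k
    have h2 : co (bG m) k = 0 := by rw [h]; fin_cases k <;> rfl
    fin_cases k <;> exact h2
  choose f hf using fun k => zF2_half (h1 k)
  refine ⟨tup f, ?_⟩
  have h3 : co m = f + f := funext hf
  rw [← tup_co m, h3]
  rfl

theorem aP_ker {m : PP} (h : aP m = 0) : ∃ m', m = m' + m' := by
  have h1 : ∀ k, zF2 (co m k) = 0 := by
    intro k
    have h2 : co (aP m) k = 0 := by rw [h]; fin_cases k <;> rfl
    fin_cases k <;> exact h2
  choose f hf using fun k => zF2_half (h1 k)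
  refine ⟨tup f, ?_⟩
  have h3 : co m = f + f := funext hf
  rw [← tup_co m, h3]
  rfl

theorem X8P : pP (elt (a 8)) = 1 := by rw [pP_elt]; decide +kernel
theorem X8G : pG (elt (a 8)) = -1 := by rw [pG_elt]; decide +kernel

theorem pi_surj (p : PP) (m : Gam) (h : aP p = bG m) : ∃ l, pP l = p ∧ pG l = m := by
  obtain ⟨l0, h0⟩ := pP_surj p
  obtain ⟨m', hm⟩ := bG_ker (m := m - pG l0) (by rw [map_sub, ← sq, h0, h, sub_self])
  obtain ⟨l1, h1⟩ := pG_surj m'
  refine ⟨l0 + (1 - elt (a 8)) * l1, ?_, ?_⟩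
  · rw [map_add, map_mul, map_sub, X8P, map_one, sub_self, zero_mul, add_zero, h0]
  · rw [map_add, map_mul, map_sub, X8G, map_one, sub_neg_eq_add, h1, add_mul, one_mul, ← hm]
    abel

theorem bG_surj (z : AA) : ∃ m, bG m = z := by
  have h1 : ∀ k : Fin 16, ∃ n : ℤ, zF2 n = co z k := fun k => ⟨(co z k).val, by simp [zF2]⟩
  choose f hf using h1
  refine ⟨tup f, ?_⟩
  have h2 : bG (tup f) = tup (fun k => zF2 (f k)) := rfl
  rw [h2]
  simp only [hf]
  rfl

theorem Gam_two {m : Gam} (h : m + m = 0) : m = 0 := by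
  have h1 : ∀ k, co m k = 0 := by
    intro k
    have h2 : co (m + m) k = 0 := by rw [h]; fin_cases k <;> rfl
    have h3 : co m k + co m k = 0 := by fin_cases k <;> exact h2
    omega
  have h3 : co m = 0 := funext h1
  rw [← tup_co m, h3]
  rfl

end Vale.Agent.P246.Q32
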