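import Vale.Agent.P246.Q32.UTR
import Mathlib.Analysis.Complex.Polynomial.Basic

/-!
# Constraints on determinants over `ℤ[D_16]` and `ℤ[ζ_16, j]`
-/

set_option linter.all false

namespace Vale.Agent.P246.Q32.U

open Vale.Agent.P246.Q24

/-! ### quaternionic determinants are nonnegative -/

noncomputable instance : Invo ℂ := ⟨starRingEnd ℂ, fun x => Complex.conj_conj x⟩

theorem conj_C (x : ℂ) : (conj x : ℂ) = starRingEnd ℂ x := rfl

theorem nrd_H (x : Dbl ℂ true) :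
    Dbl.nrd x = ((Complex.normSq x.fst + Complex.normSq x.snd : ℝ) : ℂ) := by
  simp only [Dbl.nrd, sg_true, conj_C, Complex.mul_conj]
  push_cast
  ring

theorem nrd_H_zero {x : Dbl ℂ true} (h : Complex.normSq x.fst + Complex.normSq x.snd = 0) :
    x = 0 := by
  have h1 := Complex.normSq_nonneg x.fst
  have h2 := Complex.normSq_nonneg x.snd
  apply Dbl.ext
  · exact Complex.normSq_eq_zero.1 (by linarith)
  · exact Complex.normSq_eq_zero.1 (by linarith)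

theorem Dt_H (g : Matrix (Fin 2) (Fin 2) (Dbl ℂ true)) : ∃ r : ℝ, 0 ≤ r ∧ Dt g = (r : ℂ) := by
  have pos : ∀ x : Dbl ℂ true, 0 ≤ Complex.normSq x.fst + Complex.normSq x.snd := fun x =>
    add_nonneg (Complex.normSq_nonneg _) (Complex.normSq_nonneg _)
  by_cases h : Complex.normSq (g 0 0).fst + Complex.normSq (g 0 0).snd = 0
  · rw [Dt_swap g (nrd_H_zero h), nrd_H, nrd_H]
    exact ⟨_, mul_nonneg (pos (g 0 1)) (pos (g 1 0)), by push_cast; ring⟩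
  · have h1 := Dt_schur g
    have h2 := pos (Dbl.C (Dbl.nrd (g 0 0)) * g 1 1 - g 1 0 * Dbl.star (g 0 0) * g 0 1)
    rw [nrd_H (Dbl.C (Dbl.nrd (g 0 0)) * g 1 1 - g 1 0 * Dbl.star (g 0 0) * g 0 1)] at h1
    generalize Complex.normSq (Dbl.C (Dbl.nrd (g 0 0)) * g 1 1 -
      g 1 0 * Dbl.star (g 0 0) * g 0 1).fst + Complex.normSq (Dbl.C (Dbl.nrd (g 0 0)) * g 1 1 -
      g 1 0 * Dbl.star (g 0 0) * g 0 1).snd = t at h1 h2
    have h3 := pos (g 0 0)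
    rw [nrd_H (g 0 0)] at h1
    generalize Complex.normSq (g 0 0).fst + Complex.normSq (g 0 0).snd = u at h h1 h3
    refine ⟨t / u, div_nonneg h2 h3, ?_⟩
    have hu : (u : ℂ) ≠ 0 := by exact_mod_cast h
    push_cast
    rw [eq_div_iff hu]
    apply mul_left_cancel₀ hu
    linear_combination h1

/-! ### embeddings of `ℤ[ζ_16]` -/

section Lift

variable {K L : Type} [CommRing K] [CommRing L] {s : K}

/-- `t ↦ c`, `c² = f s` -/
def Qs.lftc (f : K →+* L) (c : L) (hc : c * c = f s) : Qs K s →+* L where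
  toFun x := f x.re + c * f x.im
  map_one' := by simp
  map_zero' := by simp
  map_add' x y := by simp; ring
  map_mul' x y := by
    simp only [Qs.mul_re, Qs.mul_im, map_add, map_mul]
    linear_combination (-(f x.im * f y.im)) * hc

theorem Qs.lftc_apply (f : K →+* L) (c : L) (hc : c * c = f s) (x : Qs K s) :
    Qs.lftc f c hc x = f x.re + c * f x.im := rfl

theorem Qs.lftc_conj [Invo K] [Invo L] [UN s] (f : K →+* L) (c : L) (hc : c * c = f s)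
    (hf : ∀ r, f (conj r) = conj (f r)) (hcc : c * conj c = 1) (x : Qs K s) :
    Qs.lftc f c hc (conj x) = conj (Qs.lftc f c hc x) := by
  simp only [Qs.lftc_apply, Qs.conj_re, Qs.conj_im, map_add, map_mul, hf]
  have h : c * conj (f s) = conj c := by
    rw [← hc, map_mul]
    linear_combination (conj c) * hcc
  linear_combination (conj (f x.im)) * h

end Lift

/-- `ℤ → ℂ` -/
noncomputable def f0 : ℤ →+* ℂ := Int.castRingHom ℂ

theorem f0_conj (x : ℤ) : f0 (conj x) = conj (f0 x) := by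
  simp [f0, conj_C]

theorem lev_aux1 {c : ℂ} (h : c ^ 8 = -1) : c ^ 4 * c ^ 4 = f0 (-1) := by
  rw [← pow_add, h]; simp [f0]

/-- evaluation on `ℤ[i]` -/
noncomputable def E2 (c : ℂ) (h : c ^ 8 = -1) : Z4 →+* ℂ := Qs.lftc f0 (c ^ 4) (lev_aux1 h)

theorem lev_aux2 {c : ℂ} (h : c ^ 8 = -1) : c ^ 2 * c ^ 2 = E2 c h Qs.gen := by
  rw [E2, Qs.lftc_apply]
  simp
  ring

/-- evaluation on `ℤ[ζ_8]` -/
noncomputable def E4 (c : ℂ) (h : c ^ 8 = -1) : Z8 →+* ℂ := Qs.lftc (E2 c h) (c ^ 2) (lev_aux2 h)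

theorem lev_aux3 {c : ℂ} (h : c ^ 8 = -1) : c * c = E4 c h Qs.gen := by
  rw [E4, Qs.lftc_apply]
  simp
  ring

/-- evaluation on `ℤ[ζ_16]` -/
noncomputable def E8 (c : ℂ) (h : c ^ 8 = -1) : Z16 →+* ℂ := Qs.lftc (E4 c h) c (lev_aux3 h)

theorem norm_one {c : ℂ} (h : c ^ 8 = -1) : c * starRingEnd ℂ c = 1 := by
  have h1 : ‖c‖ ^ 8 = 1 := by
    rw [← norm_pow, h]; simp
  have h2 : ‖c‖ = 1 := by
    have := (pow_eq_one_iff_of_nonneg (norm_nonneg c) (by norm_num : (8 : ℕ) ≠ 0)).1 h1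
    exact this
  rw [Complex.mul_conj, Complex.normSq_eq_norm_sq, h2]
  simp

theorem E8_conj (c : ℂ) (h : c ^ 8 = -1) (x : Z16) : E8 c h (conj x) = conj (E8 c h x) := by
  have hc := norm_one h
  have h4 : ∀ n : ℕ, c ^ n * conj (c ^ n) = 1 := by
    intro n
    rw [conj_C, map_pow, ← mul_pow, hc, one_pow]
  apply Qs.lftc_conj _ _ _ _ (by rw [conj_C, hc])
  intro r
  apply Qs.lftc_conj _ _ _ _ (h4 2)
  intro r
  exact Qs.lftc_conj _ _ _ f0_conj (h4 4) r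

theorem E8_apply (c : ℂ) (h : c ^ 8 = -1) (x : Z16) : E8 c h x =
    x.re.re.re + c ^ 4 * x.re.re.im + c ^ 2 * (x.re.im.re + c ^ 4 * x.re.im.im) +
    c * (x.im.re.re + c ^ 4 * x.im.re.im + c ^ 2 * (x.im.im.re + c ^ 4 * x.im.im.im)) := rfl

theorem E8_Dt (c : ℂ) (h : c ^ 8 = -1) (g : Matrix (Fin 2) (Fin 2) Gam) :
    ∃ r : ℝ, 0 ≤ r ∧ E8 c h (Dt g) = (r : ℂ) := by
  obtain ⟨r, hr, h1⟩ := Dt_H ((Dbl.map (E8 c h) (E8_conj c h)).mapMatrix g)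
  rw [Dt_map] at h1
  exact ⟨r, hr, h1⟩

/-- shape of the fixed elements -/
theorem Z16_fixed {D : Z16} (h : conj D = D) : D.re.re.im = 0 ∧ D.re.im.im = -D.re.im.re ∧
    D.im.im.im = -D.im.re.re ∧ D.im.re.im = -D.im.im.re := by
  have h1 := congrArg (fun z : Z16 => z.re.re.im) h
  have h2 := congrArg (fun z : Z16 => z.re.im.im) h
  have h3 := congrArg (fun z : Z16 => z.im.im.im) h
  have h4 := congrArg (fun z : Z16 => z.im.re.im) h
  simp at h1 h2 h3 h4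
  refine ⟨?_, ?_, ?_, ?_⟩ <;> omega

/-- rational part of the relative norm -/
def nA (d0 d1 d2 d3 : ℤ) : ℤ := d0 * d0 + 2 * (d2 * d2) - 2 * (d1 * d1) - 2 * (d3 * d3)
/-- irrational part of the relative norm -/
def nB (d0 d1 d2 d3 : ℤ) : ℤ := 2 * (d0 * d2) - d1 * d1 + d3 * d3 - 2 * (d1 * d3)

/-- the absolute norm of a real element -/
def nR (D : Z16) : ℤ :=
  nA D.re.re.re D.im.re.re D.re.im.re D.im.im.re * nA D.re.re.re D.im.re.re D.re.im.re D.im.im.re -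
  2 * (nB D.re.re.re D.im.re.re D.re.im.re D.im.im.re * nB D.re.re.re D.im.re.re D.re.im.re D.im.im.re)

theorem pow_aux {c : ℂ} (h : c ^ 8 = -1) (n : ℕ) (hn : Odd n) : (c ^ n) ^ 8 = -1 := by
  rw [← pow_mul, mul_comm, pow_mul, h, hn.neg_one_pow]

theorem nR_eq (c : ℂ) (h : c ^ 8 = -1) {D : Z16} (hD : conj D = D) :
    (nR D : ℂ) = E8 c h D * E8 (c ^ 7) (pow_aux h 7 (by decide)) D *
      (E8 (c ^ 3) (pow_aux h 3 (by decide)) D * E8 (c ^ 5) (pow_aux h 5 (by decide)) D) := by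
  obtain ⟨e1, e2, e3, e4⟩ := Z16_fixed hD
  simp only [E8_apply, e1, e2, e3, e4, nR, nA, nB]
  generalize D.re.re.re = d0
  generalize D.im.re.re = d1
  generalize D.re.im.re = d2
  generalize D.im.im.re = d3
  push_cast
  generalize (d0 : ℂ) = d0
  generalize (d1 : ℂ) = d1
  generalize (d2 : ℂ) = d2
  generalize (d3 : ℂ) = d3
  -- `s = c² - c⁶`, `e = c - c⁷`, `f = c³ - c⁵`
  obtain ⟨s, hs⟩ : ∃ s, s = c ^ 2 - c ^ 6 := ⟨_, rfl⟩
  obtain ⟨e, he⟩ : ∃ e, e = c - c ^ 7 := ⟨_, rfl⟩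
  obtain ⟨f, hf⟩ : ∃ f, f = c ^ 3 - c ^ 5 := ⟨_, rfl⟩
  have ss : s * s = 2 := by rw [hs]; linear_combination (-2 + c ^ 4) * h
  have ee : e * e = 2 + s := by rw [he, hs]; linear_combination (-2 + c ^ 6) * h
  have ff : f * f = 2 - s := by rw [hf, hs]; linear_combination (-2 + c ^ 2) * h
  have ef : e * f = s := by rw [he, hf, hs]; linear_combination (-c ^ 2 + c ^ 4) * h
  have F1 : (d0 : ℂ) + c ^ 4 * 0 + c ^ 2 * (d2 + c ^ 4 * -d2) +
      c * (d1 + c ^ 4 * -d3 + c ^ 2 * (d3 + c ^ 4 * -d1)) = d0 + d2 * s + (d1 * e + d3 * f) := by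
    rw [hs, he, hf]; ring
  have F7 : (d0 : ℂ) + (c ^ 7) ^ 4 * 0 + (c ^ 7) ^ 2 * (d2 + (c ^ 7) ^ 4 * -d2) +
      (c ^ 7) * (d1 + (c ^ 7) ^ 4 * -d3 + (c ^ 7) ^ 2 * (d3 + (c ^ 7) ^ 4 * -d1)) =
      d0 + d2 * s - (d1 * e + d3 * f) := by
    rw [hs, he, hf]
    linear_combination (d1 * (c ^ 1 - c ^ 9 + c ^ 17 - c ^ 25 + c ^ 33 - c ^ 41) +
      d2 * (- c ^ 2 + c ^ 6 + c ^ 10 - c ^ 18 + c ^ 26 - c ^ 34) +
      d3 * (c ^ 3 - c ^ 5 - c ^ 11 + c ^ 13 + c ^ 19 - c ^ 27)) * h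
  have F3 : (d0 : ℂ) + (c ^ 3) ^ 4 * 0 + (c ^ 3) ^ 2 * (d2 + (c ^ 3) ^ 4 * -d2) +
      (c ^ 3) * (d1 + (c ^ 3) ^ 4 * -d3 + (c ^ 3) ^ 2 * (d3 + (c ^ 3) ^ 4 * -d1)) =
      d0 - d2 * s + (d1 * f - d3 * e) := by
    rw [hs, he, hf]
    linear_combination (d1 * (c ^ 5 - c ^ 13) + d2 * (c ^ 2 - c ^ 10) + d3 * (c ^ 1 - c ^ 7)) * h
  have F5 : (d0 : ℂ) + (c ^ 5) ^ 4 * 0 + (c ^ 5) ^ 2 * (d2 + (c ^ 5) ^ 4 * -d2) +
      (c ^ 5) * (d1 + (c ^ 5) ^ 4 * -d3 + (c ^ 5) ^ 2 * (d3 + (c ^ 5) ^ 4 * -d1)) =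
      d0 - d2 * s - (d1 * f - d3 * e) := by
    rw [hs, he, hf]
    linear_combination (d1 * (c ^ 3 - c ^ 11 + c ^ 19 - c ^ 27) +
      d2 * (c ^ 2 - c ^ 6 + c ^ 14 - c ^ 22) + d3 * (- c ^ 1 + c ^ 7 + c ^ 9 - c ^ 17)) * h
  rw [F1, F7, F3, F5]
  have g1 : (d0 + d2 * s + (d1 * e + d3 * f)) * (d0 + d2 * s - (d1 * e + d3 * f)) =
      (d0 * d0 + 2 * (d2 * d2) - 2 * (d1 * d1) - 2 * (d3 * d3)) +
      (2 * (d0 * d2) - d1 * d1 + d3 * d3 - 2 * (d1 * d3)) * s := by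
    linear_combination d2 * d2 * ss - d1 * d1 * ee - d3 * d3 * ff - 2 * (d1 * d3) * ef
  have g2 : (d0 - d2 * s + (d1 * f - d3 * e)) * (d0 - d2 * s - (d1 * f - d3 * e)) =
      (d0 * d0 + 2 * (d2 * d2) - 2 * (d1 * d1) - 2 * (d3 * d3)) -
      (2 * (d0 * d2) - d1 * d1 + d3 * d3 - 2 * (d1 * d3)) * s := by
    linear_combination d2 * d2 * ss - d1 * d1 * ff - d3 * d3 * ee + 2 * (d1 * d3) * ef
  rw [g1, g2]
  linear_combination (2 * (d0 * d2) - d1 * d1 + d3 * d3 - 2 * (d1 * d3)) *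
    (2 * (d0 * d2) - d1 * d1 + d3 * d3 - 2 * (d1 * d3)) * ss

theorem exists_root : ∃ c : ℂ, c ^ 8 = -1 := IsAlgClosed.exists_pow_nat_eq (-1) (by norm_num)

theorem nR_Dt_nonneg (g : Matrix (Fin 2) (Fin 2) Gam) : 0 ≤ nR (Dt g) := by
  obtain ⟨c, h⟩ := exists_root
  have h1 := nR_eq c h (conj_Dt g)
  obtain ⟨r1, hr1, k1⟩ := E8_Dt c h g
  obtain ⟨r2, hr2, k2⟩ := E8_Dt (c ^ 7) (pow_aux h 7 (by decide)) g
  obtain ⟨r3, hr3, k3⟩ := E8_Dt (c ^ 3) (pow_aux h 3 (by decide)) g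
  obtain ⟨r4, hr4, k4⟩ := E8_Dt (c ^ 5) (pow_aux h 5 (by decide)) g
  rw [k1, k2, k3, k4] at h1
  have h2 : ((nR (Dt g) : ℤ) : ℝ) = r1 * r2 * (r3 * r4) := by exact_mod_cast h1
  have h3 : (0 : ℝ) ≤ ((nR (Dt g) : ℤ) : ℝ) := by
    rw [h2]
    exact mul_nonneg (mul_nonneg hr1 hr2) (mul_nonneg hr3 hr4)
  exact_mod_cast h3

theorem nR_mul {D D' : Z16} (hD : conj D = D) (hD' : conj D' = D') (h : D * D' = 1) :
    nR D * nR D' = 1 := by
  obtain ⟨c, hc⟩ := exists_root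
  have h1 := nR_eq c hc hD
  have h2 := nR_eq c hc hD'
  have h3 : ∀ (c' : ℂ) (hc' : c' ^ 8 = -1), E8 c' hc' D * E8 c' hc' D' = 1 := by
    intro c' hc'
    rw [← map_mul, h, map_one]
  have h4 : ((nR D * nR D' : ℤ) : ℂ) = 1 := by
    push_cast
    rw [h1, h2]
    linear_combination (E8 (c ^ 7) (pow_aux hc 7 (by decide)) D * E8 (c ^ 7) (pow_aux hc 7 (by decide)) D' *
      (E8 (c ^ 3) (pow_aux hc 3 (by decide)) D * E8 (c ^ 3) (pow_aux hc 3 (by decide)) D') *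
      (E8 (c ^ 5) (pow_aux hc 5 (by decide)) D * E8 (c ^ 5) (pow_aux hc 5 (by decide)) D')) *
        h3 c hc +
      (E8 (c ^ 3) (pow_aux hc 3 (by decide)) D * E8 (c ^ 3) (pow_aux hc 3 (by decide)) D') *
      (E8 (c ^ 5) (pow_aux hc 5 (by decide)) D * E8 (c ^ 5) (pow_aux hc 5 (by decide)) D') *
        h3 (c ^ 7) (pow_aux hc 7 (by decide)) +
      (E8 (c ^ 5) (pow_aux hc 5 (by decide)) D * E8 (c ^ 5) (pow_aux hc 5 (by decide)) D') *
        h3 (c ^ 3) (pow_aux hc 3 (by decide)) +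
      h3 (c ^ 5) (pow_aux hc 5 (by decide))
  exact_mod_cast h4

theorem chi_aux {d0 d1 d2 d3 : ℤ} (h : nA d0 d1 d2 d3 * nA d0 d1 d2 d3 -
    2 * (nB d0 d1 d2 d3 * nB d0 d1 d2 d3) = 1) : (2 : ℤ) ∣ d1 + d3 := by
  have h1 : nB d0 d1 d2 d3 % 2 = 0 := by
    generalize nA d0 d1 d2 d3 = A at h
    generalize nB d0 d1 d2 d3 = B at h
    have hA : A % 2 = 0 ∨ A % 2 = 1 := by omega
    have hB : B % 2 = 0 ∨ B % 2 = 1 := by omega
    rcases hB with hB | hB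
    · exact hB
    · exfalso
      obtain ⟨b, rfl⟩ : ∃ b, B = 2 * b + 1 := ⟨B / 2, by omega⟩
      rcases hA with hA | hA
      · obtain ⟨a, rfl⟩ : ∃ a, A = 2 * a := ⟨A / 2, by omega⟩
        ring_nf at h
        omega
      · obtain ⟨a, rfl⟩ : ∃ a, A = 2 * a + 1 := ⟨A / 2, by omega⟩
        have h2 : 2 * (a * (a + 1)) = 4 * (b * (b + 1)) + 1 := by nlinarith
        omega
  have h2 : (d1 + d3) * (d1 + d3) = 2 * (d0 * d2 + d3 * d3) - nB d0 d1 d2 d3 := by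
    unfold nB; ring
  have h3 : ((d1 + d3) * (d1 + d3)) % 2 = 0 := by omega
  rcases Int.emod_two_eq_zero_or_one (d1 + d3) with h4 | h4
  · omega
  · rw [Int.mul_emod, h4] at h3
    norm_num at h3

theorem chi_rZ {D : Z16} (h : (2 : ℤ) ∣ D.im.re.re + D.im.im.re) : chi (rZ D) = 0 := by
  change zF2 D.im.re.re + zF2 D.im.im.re = 0
  rw [← map_add]
  exact (ZMod.intCast_zmod_eq_zero_iff_dvd _ 2).2 h

/-- the constraint over `ℤ[ζ_16, j]` -/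
theorem chi_Dt_G (g k : Matrix (Fin 2) (Fin 2) Gam) (h : g * k = 1) : chi (rZ (Dt g)) = 0 := by
  have h1 : Dt g * Dt k = 1 := by rw [← Dt_mul, h, Dt_one]
  have h2 := nR_mul (conj_Dt g) (conj_Dt k) h1
  have h3 := nR_Dt_nonneg g
  have h4 : nR (Dt g) = 1 := by
    rcases Int.isUnit_iff.1 (IsUnit.of_mul_eq_one _ h2) with h5 | h5
    · exact h5
    · omega
  exact chi_rZ (chi_aux h4)

/-! ### the constraint over `ℤ[D_16]` -/

theorem S8_fixed {D : S8} (h : conj D = D) : D.re.im.im = D.re.im.re ∧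
    D.im.im.im = D.im.re.re ∧ D.im.re.im = D.im.im.re := by
  have h2 := congrArg (fun z : S8 => z.re.im.im) h
  have h3 := congrArg (fun z : S8 => z.im.im.im) h
  have h4 := congrArg (fun z : S8 => z.im.re.im) h
  simp at h2 h3 h4
  refine ⟨?_, ?_, ?_⟩ <;> omega

/-- `x ↦ 1` -/
def v1 : S8 →+* ℤ := (Qs.ev 1 (one_mul 1)).comp (s4s.comp s8s)
/-- `x ↦ -1` -/
def v2 : S8 →+* ℤ := (Qs.ev (-1) (by decide)).comp (s4s.comp s8s)
/-- `x ↦ i` -/
def v3 : S8 →+* Z4 := s4z.comp s8s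

theorem v1_apply (D : S8) : v1 D = D.re.re.re + D.re.re.im + (D.re.im.re + D.re.im.im) +
    (D.im.re.re + D.im.re.im + (D.im.im.re + D.im.im.im)) := by
  simp [v1, s4s, s8s]

theorem v2_apply (D : S8) : v2 D = D.re.re.re + D.re.re.im + (D.re.im.re + D.re.im.im) -
    (D.im.re.re + D.im.re.im + (D.im.im.re + D.im.im.im)) := by
  simp [v2, s4s, s8s]
  ring

theorem v3_re (D : S8) : (v3 D).re = D.re.re.re + D.re.re.im - (D.re.im.re + D.re.im.im) := by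
  simp [v3, s4z, s8s, s4s]
  ring

theorem v3_im (D : S8) : (v3 D).im = D.im.re.re + D.im.re.im - (D.im.im.re + D.im.im.im) := by
  simp [v3, s4z, s8s, s4s]
  ring

theorem chi_rS_of {D : S8} (h : (2 : ℤ) ∣ D.im.re.re + D.im.im.re) : chi (rS D) = 0 := by
  change zF2 D.im.re.re + zF2 D.im.im.re = 0
  rw [← map_add]
  exact (ZMod.intCast_zmod_eq_zero_iff_dvd _ 2).2 h

theorem chi_unit_S8 {D D' : S8} (hD : conj D = D) (hD' : conj D' = D') (h : D * D' = 1) :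
    chi (rS D) = 0 := by
  have u1 : v1 D = 1 ∨ v1 D = -1 :=
    Int.isUnit_iff.1 (IsUnit.of_mul_eq_one (v1 D') (by rw [← map_mul, h, map_one]))
  have u2 : v2 D = 1 ∨ v2 D = -1 :=
    Int.isUnit_iff.1 (IsUnit.of_mul_eq_one (v2 D') (by rw [← map_mul, h, map_one]))
  obtain ⟨e1, e2, e3⟩ := S8_fixed hD
  obtain ⟨e1', e2', e3'⟩ := S8_fixed hD'
  have w1 : (v3 D).im = 0 := by rw [v3_im]; omega
  have w2 : (v3 D').im = 0 := by rw [v3_im]; omega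
  have u3 : (v3 D).re = 1 ∨ (v3 D).re = -1 := by
    have h3 : v3 D * v3 D' = 1 := by rw [← map_mul, h, map_one]
    have h4 := congrArg Qs.re h3
    simp only [Qs.mul_re, w1, w2, Qs.one_re] at h4
    exact Int.isUnit_iff.1 (IsUnit.of_mul_eq_one (v3 D').re (by linarith))
  rw [v1_apply] at u1
  rw [v2_apply] at u2
  rw [v3_re] at u3
  apply chi_rS_of
  omega

/-- the constraint over `ℤ[D_16]` -/
theorem chi_Dt_P (g k : Matrix (Fin 2) (Fin 2) PP) (h : g * k = 1) : chi (rS (Dt g)) = 0 :=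
  chi_unit_S8 (conj_Dt g) (conj_Dt k) (by rw [← Dt_mul, h, Dt_one])

end Vale.Agent.P246.Q32.U

namespace Vale.Agent.P246.Q32

open Vale.Agent.P246.Q24

/-- the constraint over `ℤ[ζ_16, j]` -/
theorem chi_Dt_G (g k : Matrix (Fin 2) (Fin 2) Gam) (h : g * k = 1) : chi (rZ (Dt g)) = 0 :=
  U.chi_Dt_G g k h

/-- the constraint over `ℤ[D_16]` -/
theorem chi_Dt_P (g k : Matrix (Fin 2) (Fin 2) PP) (h : g * k = 1) : chi (rS (Dt g)) = 0 :=
  U.chi_Dt_P g k h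

end Vale.Agent.P246.Q32
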