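import Vale.Agent.P246.Q32.UTR
import Mathlib.Data.Matrix.Mul
import Mathlib.Tactic.NoncommRing

/-!
# Gluing equivalences of columns along a pullback square
-/

set_option linter.all false

namespace Vale.Agent.P246.Q32.U

open Vale.Agent.P246.Q24 Matrix

section Abs

/-- the columns are equivalent under invertible matrices -/
def Ev {R : Type} [Ring R] (v w : Fin 2 → R) : Prop :=
  ∃ g k : Matrix (Fin 2) (Fin 2) R, g * k = 1 ∧ k * g = 1 ∧ g *ᵥ v = w

theorem Ev.symm {R : Type} [Ring R] {v w : Fin 2 → R} (h : Ev v w) : Ev w v := by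
  obtain ⟨g, k, h1, h2, h3⟩ := h
  exact ⟨k, g, h2, h1, by rw [← h3, mulVec_mulVec, h2, one_mulVec]⟩

theorem Ev.trans {R : Type} [Ring R] {u v w : Fin 2 → R} (h : Ev u v) (h' : Ev v w) : Ev u w := by
  obtain ⟨g, k, h1, h2, h3⟩ := h
  obtain ⟨g', k', h4, h5, h6⟩ := h'
  refine ⟨g' * g, k * k', ?_, ?_, by rw [← mulVec_mulVec, h3, h6]⟩
  · rw [mul_assoc, ← mul_assoc g, h1, one_mul, h4]
  · rw [mul_assoc, ← mul_assoc k', h5, one_mul, h2]

theorem TR.ev {R : Type} [Ring R] (hR : TR R) {a b c d : R} (h : c * a + d * b = 1) :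
    Ev ![a, b] ![1, 0] := by
  obtain ⟨g, k, h1, h2, h3, h4⟩ := hR a b c d h
  refine ⟨g, k, h1, h2, ?_⟩
  funext i
  fin_cases i
  · simpa [mulVec, dotProduct, Fin.sum_univ_two] using h3
  · simpa [mulVec, dotProduct, Fin.sum_univ_two] using h4

theorem map_mulVec' {R S : Type} [Ring R] [Ring S] (f : R →+* S) (g : Matrix (Fin 2) (Fin 2) R)
    (v : Fin 2 → R) : (f.mapMatrix g) *ᵥ (fun i => f (v i)) = fun i => f ((g *ᵥ v) i) := by
  funext i
  simp [mulVec, dotProduct, Fin.sum_univ_two]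

theorem map_mulVec'' {R S : Type} [Ring R] [Ring S] (f : R →+* S) {g : Matrix (Fin 2) (Fin 2) R}
    {v w : Fin 2 → R} (h : g *ᵥ v = w) :
    (f.mapMatrix g) *ᵥ (fun i => f (v i)) = fun i => f (w i) := by
  rw [map_mulVec', h]

variable {L P G A : Type} [Ring L] [Ring P] [Ring G] [Ring A] {f : L →+* P} {g : L →+* G}
  {p : P →+* A} {q : G →+* A}

theorem PB.matrix (h : PB f g p q) {MP : Matrix (Fin 2) (Fin 2) P} {MG : Matrix (Fin 2) (Fin 2) G}
    (hM : p.mapMatrix MP = q.mapMatrix MG) :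
    ∃ M : Matrix (Fin 2) (Fin 2) L, f.mapMatrix M = MP ∧ g.mapMatrix M = MG := by
  have h1 : ∀ i j, ∃ t, f t = MP i j ∧ g t = MG i j := fun i j =>
    h.surj _ _ (congrFun (congrFun hM i) j)
  choose M hM1 hM2 using h1
  exact ⟨Matrix.of M, Matrix.ext hM1, Matrix.ext hM2⟩

theorem PB.ext (h : PB f g p q) {x y : L} (h1 : f x = f y) (h2 : g x = g y) : x = y := by
  apply sub_eq_zero.1
  apply h.inj
  · rw [map_sub, h1, sub_self]
  · rw [map_sub, h2, sub_self]

theorem PB.matrix_ext (h : PB f g p q) {x y : Matrix (Fin 2) (Fin 2) L}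
    (h1 : f.mapMatrix x = f.mapMatrix y) (h2 : g.mapMatrix x = g.mapMatrix y) : x = y := by
  apply Matrix.ext
  intro i j
  exact h.ext (congrFun (congrFun h1 i) j) (congrFun (congrFun h2 i) j)

/-- gluing of equivalences -/
theorem PB.ev (h : PB f g p q) {v w : Fin 2 → L} {MP KP : Matrix (Fin 2) (Fin 2) P}
    {MG KG : Matrix (Fin 2) (Fin 2) G} (a1 : MP * KP = 1) (a2 : KP * MP = 1) (b1 : MG * KG = 1)
    (b2 : KG * MG = 1) (hM : p.mapMatrix MP = q.mapMatrix MG)
    (a3 : MP *ᵥ (fun i => f (v i)) = fun i => f (w i))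
    (b3 : MG *ᵥ (fun i => g (v i)) = fun i => g (w i)) : Ev v w := by
  have hK : p.mapMatrix KP = q.mapMatrix KG := by
    have e1 : p.mapMatrix KP * p.mapMatrix MP = 1 := by rw [← map_mul, a2, map_one]
    have e2 : q.mapMatrix MG * q.mapMatrix KG = 1 := by rw [← map_mul, b1, map_one]
    calc p.mapMatrix KP = p.mapMatrix KP * (q.mapMatrix MG * q.mapMatrix KG) := by
          rw [e2, mul_one]
      _ = p.mapMatrix KP * p.mapMatrix MP * q.mapMatrix KG := by rw [← hM, mul_assoc]
      _ = q.mapMatrix KG := by rw [e1, one_mul]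
  obtain ⟨M, m1, m2⟩ := h.matrix hM
  obtain ⟨K, k1, k2⟩ := h.matrix hK
  refine ⟨M, K, ?_, ?_, ?_⟩
  · apply h.matrix_ext
    · rw [map_mul, m1, k1, a1, map_one]
    · rw [map_mul, m2, k2, b1, map_one]
  · apply h.matrix_ext
    · rw [map_mul, m1, k1, a2, map_one]
    · rw [map_mul, m2, k2, b2, map_one]
  · funext i
    apply h.ext
    · have := congrFun (map_mulVec' f M v) i
      rw [← this, m1, a3]
    · have := congrFun (map_mulVec' g M v) i
      rw [← this, m2, b3]

/-- scaling on the complement of an idempotent -/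
theorem idem {M : Type} [Ring M] {H H' E : M} (hE : E * E = E) (c' : E * H' = H' * E)
    (hh : H * H' = 1) : (H + (1 - H) * E) * (H' + (1 - H') * E) = 1 := by
  have e1 : E * ((1 - H') * E) = (1 - H') * E := by
    rw [← mul_assoc, mul_sub, mul_one, c', sub_mul, mul_assoc H', hE, sub_mul, one_mul]
  calc (H + (1 - H) * E) * (H' + (1 - H') * E) = H * H' + (H - H * H') * E + (1 - H) * (E * H') +
        (1 - H) * (E * ((1 - H') * E)) := by noncomm_ring
    _ = H * H' + (1 - H * H') * E := by rw [e1, c']; noncomm_ring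
    _ = 1 := by rw [hh]; simp

/-- the scalar matrix -/
def sc {R : Type} [Ring R] (h : R) : Matrix (Fin 2) (Fin 2) R := !![h, 0; 0, h]

theorem sc_mul {R : Type} [Ring R] (h h' : R) : sc h * sc h' = sc (h * h') := by
  apply Matrix.ext
  intro i j
  fin_cases i <;> fin_cases j <;> simp [sc, Matrix.mul_apply, Fin.sum_univ_two]

theorem sc_one {R : Type} [Ring R] : sc (1 : R) = 1 := by
  apply Matrix.ext
  intro i j
  fin_cases i <;> fin_cases j <;> simp [sc]

theorem sc_comm {R : Type} [Ring R] {h : R} (hc : ∀ x, h * x = x * h)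
    (M : Matrix (Fin 2) (Fin 2) R) : sc h * M = M * sc h := by
  apply Matrix.ext
  intro i j
  fin_cases i <;> fin_cases j <;> simp [sc, Matrix.mul_apply, Fin.sum_univ_two, hc]

theorem sc_map {R S : Type} [Ring R] [Ring S] (f : R →+* S) (h : R) :
    f.mapMatrix (sc h) = sc (f h) := by
  apply Matrix.ext
  intro i j
  fin_cases i <;> fin_cases j <;> simp [sc]

/-- the rank one matrix of a column and a row -/
def ro {R : Type} [Ring R] (v r : Fin 2 → R) : Matrix (Fin 2) (Fin 2) R :=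
  !![v 0 * r 0, v 0 * r 1; v 1 * r 0, v 1 * r 1]

theorem ro_mul_ro {R : Type} [Ring R] {v r : Fin 2 → R} (h : r 0 * v 0 + r 1 * v 1 = 1) :
    ro v r * ro v r = ro v r := by
  have key : ∀ x y : R, x * r 0 * (v 0 * y) + x * r 1 * (v 1 * y) = x * y := by
    intro x y
    calc _ = x * ((r 0 * v 0 + r 1 * v 1) * y) := by noncomm_ring
      _ = x * y := by rw [h, one_mul]
  apply Matrix.ext
  intro i j
  fin_cases i <;> fin_cases j <;> simp [ro, Matrix.mul_apply, Fin.sum_univ_two, key]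

theorem ro_mulVec {R : Type} [Ring R] {v r : Fin 2 → R} (h : r 0 * v 0 + r 1 * v 1 = 1) :
    ro v r *ᵥ v = v := by
  have key : ∀ x : R, x * r 0 * v 0 + x * r 1 * v 1 = x := by
    intro x
    calc _ = x * (r 0 * v 0 + r 1 * v 1) := by noncomm_ring
      _ = x := by rw [h, mul_one]
  funext i
  fin_cases i <;> simp [ro, mulVec, dotProduct, Fin.sum_univ_two, key]

theorem mul_ro {R : Type} [Ring R] (M : Matrix (Fin 2) (Fin 2) R) (v r : Fin 2 → R) :
    M * ro v r = ro (M *ᵥ v) r := by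
  apply Matrix.ext
  intro i j
  fin_cases i <;> fin_cases j <;>
    simp [ro, Matrix.mul_apply, Fin.sum_univ_two, mulVec, dotProduct] <;> noncomm_ring

theorem ro_mul {R : Type} [Ring R] (M : Matrix (Fin 2) (Fin 2) R) (v r : Fin 2 → R) :
    ro v r * M = ro v (r ᵥ* M) := by
  apply Matrix.ext
  intro i j
  fin_cases i <;> fin_cases j <;>
    simp [ro, Matrix.mul_apply, Fin.sum_univ_two, vecMul, dotProduct] <;> noncomm_ring

theorem ro_map {R S : Type} [Ring R] [Ring S] (f : R →+* S) (v r : Fin 2 → R) :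
    f.mapMatrix (ro v r) = ro (fun i => f (v i)) (fun i => f (r i)) := by
  apply Matrix.ext
  intro i j
  fin_cases i <;> fin_cases j <;> simp [ro]

theorem col_fixed {R : Type} [Ring R] {X : Matrix (Fin 2) (Fin 2) R}
    (h : X *ᵥ ![1, 0] = ![1, 0]) : X = !![1, X 0 1; 0, X 1 1] := by
  have h0 := congrFun h 0
  have h1 := congrFun h 1
  simp [mulVec, dotProduct, Fin.sum_univ_two] at h0 h1
  apply Matrix.ext
  intro i j
  fin_cases i <;> fin_cases j <;> simp [h0, h1]

/-- the main gluing step -/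
theorem glue_ev (hpb : PB f g p q) (hp : Function.Surjective p) (hq : Function.Surjective q)
    {v v1 : Fin 2 → L} {r : Fin 2 → G} (hr : r 0 * g (v1 0) + r 1 * g (v1 1) = 1)
    {W W' MP KP : Matrix (Fin 2) (Fin 2) P} {MG KG : Matrix (Fin 2) (Fin 2) G}
    (w1 : W * W' = 1) (w2 : W' * W = 1) (w3 : W *ᵥ (fun i => f (v1 i)) = ![1, 0])
    (a1 : MP * KP = 1) (a2 : KP * MP = 1) (a3 : MP *ᵥ (fun i => f (v i)) = fun i => f (v1 i))
    (b1 : MG * KG = 1) (b2 : KG * MG = 1) (b3 : MG *ᵥ (fun i => g (v i)) = fun i => g (v1 i))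
    {e e' : P} {h h' : G} (e1 : e * e' = 1) (e2 : e' * e = 1) (h1 : h * h' = 1)
    (h2 : h' * h = 1) (hc : ∀ x, h * x = x * h) (hc' : ∀ x, h' * x = x * h')
    (hδ : (p.mapMatrix W * q.mapMatrix MG * p.mapMatrix KP * p.mapMatrix W') 1 1 = p e * q h) :
    Ev v v1 := by
  set E := ro (fun i => g (v1 i)) r with hE
  set N := sc h' + (1 - sc h') * E with hN
  set N' := sc h + (1 - sc h) * E with hN'
  have EE : E * E = E := ro_mul_ro hr
  have n1 : N * N' = 1 := idem EE (sc_comm hc E).symm (by rw [sc_mul, h2, sc_one])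
  have n2 : N' * N = 1 := idem EE (sc_comm hc' E).symm (by rw [sc_mul, h1, sc_one])
  have n3 : N *ᵥ (fun i => g (v1 i)) = fun i => g (v1 i) := by
    have h3 : E *ᵥ (fun i => g (v1 i)) = fun i => g (v1 i) := ro_mulVec hr
    rw [hN, add_mulVec, ← mulVec_mulVec, h3, ← add_mulVec]
    simp
  -- images in `A`
  set w := p.mapMatrix W with hw
  set w' := p.mapMatrix W' with hw'
  have ww : w * w' = 1 := by rw [hw, hw', ← map_mul, w1, map_one]
  have w'w : w' * w = 1 := by rw [hw, hw', ← map_mul, w2, map_one]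
  have hcol : w *ᵥ (fun i => q (g (v1 i))) = ![1, 0] := by
    have h3 := map_mulVec'' p (v := fun i => f (v1 i)) (w := ![1, 0]) w3
    have h4 : (fun i => q (g (v1 i))) = fun i => p (f (v1 i)) := by
      funext i; exact (hpb.comm _).symm
    rw [h4, hw, h3]
    funext i
    fin_cases i <;> simp
  set Y := w * q.mapMatrix MG * p.mapMatrix KP * w' with hY
  have Y0 : Y *ᵥ ![1, 0] = ![1, 0] := by
    have k1 : w' *ᵥ ![1, 0] = fun i => q (g (v1 i)) := by
      rw [← hcol, mulVec_mulVec, w'w, one_mulVec]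
    have k2 : (p.mapMatrix KP) *ᵥ (fun i => q (g (v1 i))) = fun i => p (f (v i)) := by
      have h4 : (fun i => q (g (v1 i))) = fun i => p (f (v1 i)) := by
        funext i; exact (hpb.comm _).symm
      rw [h4, ← map_mulVec'' p a3, mulVec_mulVec, ← map_mul, a2, map_one, one_mulVec]
    have k3 : (q.mapMatrix MG) *ᵥ (fun i => p (f (v i))) = fun i => q (g (v1 i)) := by
      have h4 : (fun i => p (f (v i))) = fun i => q (g (v i)) := by
        funext i; exact hpb.comm _
      rw [h4]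
      exact map_mulVec'' q b3
    rw [hY, ← mulVec_mulVec, ← mulVec_mulVec, ← mulVec_mulVec, k1, k2, k3, hcol]
  set X1 := w * q.mapMatrix N * w' with hX1
  have X0 : X1 *ᵥ ![1, 0] = ![1, 0] := by
    have k1 : w' *ᵥ ![1, 0] = fun i => q (g (v1 i)) := by
      rw [← hcol, mulVec_mulVec, w'w, one_mulVec]
    rw [hX1, ← mulVec_mulVec, ← mulVec_mulVec, k1, map_mulVec'' q n3, hcol]
  have hqc : ∀ x, q h' * x = x * q h' := by
    intro x
    obtain ⟨y, rfl⟩ := hq x
    rw [← map_mul, hc', map_mul]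
  have hX : X1 = sc (q h') + (1 - sc (q h')) * ro ![1, 0] ((fun i => q (r i)) ᵥ* w') := by
    have k1 : q.mapMatrix N = sc (q h') + (1 - sc (q h')) *
        ro (fun i => q (g (v1 i))) (fun i => q (r i)) := by
      rw [hN, map_add, map_mul, map_sub, map_one, sc_map, hE, ro_map]
    have k2 : w * (1 - sc (q h')) = (1 - sc (q h')) * w := by
      rw [mul_sub, sub_mul, mul_one, one_mul, sc_comm hqc]
    rw [hX1, k1, mul_add, add_mul, ← sc_comm hqc w, mul_assoc, ww, mul_one, ← mul_assoc w, k2,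
      mul_assoc (1 - sc (q h')), mul_ro, hcol, mul_assoc (1 - sc (q h')), ro_mul]
  have X11 : X1 1 1 = q h' := by
    rw [hX]
    simp [sc, ro, Matrix.mul_apply, Fin.sum_univ_two]
  have hT : X1 * Y = !![1, Y 0 1 + X1 0 1 * Y 1 1; 0, p e] := by
    have k1 := col_fixed X0
    have k2 := col_fixed Y0
    have k3 : X1 1 1 * Y 1 1 = p e := by
      rw [X11, hδ, ← mul_assoc, hqc, mul_assoc, ← map_mul, h2, map_one, mul_one]
    generalize X1 0 1 = x01 at *
    generalize Y 0 1 = y01 at *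
    generalize X1 1 1 = x11 at *
    generalize Y 1 1 = y11 at *
    rw [k1, k2]
    apply Matrix.ext
    intro i j
    fin_cases i <;> fin_cases j <;> simp [Matrix.mul_apply, Fin.sum_univ_two, k3]
  obtain ⟨t', ht'⟩ := hp (Y 0 1 + X1 0 1 * Y 1 1)
  rw [← ht'] at hT
  have hS1 : (!![1, t'; 0, e] : Matrix (Fin 2) (Fin 2) P) * !![1, -(t' * e'); 0, e'] = 1 := by
    apply Matrix.ext
    intro i j
    fin_cases i <;> fin_cases j <;> simp [Matrix.mul_apply, Fin.sum_univ_two, e1]
  have hS2 : (!![1, -(t' * e'); 0, e'] : Matrix (Fin 2) (Fin 2) P) * !![1, t'; 0, e] = 1 := by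
    apply Matrix.ext
    intro i j
    fin_cases i <;> fin_cases j <;> simp [Matrix.mul_apply, Fin.sum_univ_two, e2, mul_assoc]
  have hS3 : (!![1, t'; 0, e] : Matrix (Fin 2) (Fin 2) P) *ᵥ ![1, 0] = ![1, 0] := by
    funext i
    fin_cases i <;> simp [mulVec, dotProduct, Fin.sum_univ_two]
  have hS4 : p.mapMatrix (!![1, t'; 0, e] : Matrix (Fin 2) (Fin 2) P) = X1 * Y := by
    rw [hT]
    apply Matrix.ext
    intro i j
    fin_cases i <;> fin_cases j <;> simp
  generalize (!![1, t'; 0, e] : Matrix (Fin 2) (Fin 2) P) = S at *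
  generalize (!![1, -(t' * e'); 0, e'] : Matrix (Fin 2) (Fin 2) P) = S' at *
  refine hpb.ev (MP := W' * S * W * MP) (KP := KP * W' * S' * W) (MG := N * MG) (KG := KG * N')
    ?_ ?_ ?_ ?_ ?_ ?_ ?_
  · calc W' * S * W * MP * (KP * W' * S' * W) = W' * S * W * (MP * KP) * W' * S' * W := by
          noncomm_ring
      _ = W' * S * (W * W') * S' * W := by rw [a1]; noncomm_ring
      _ = W' * (S * S') * W := by rw [w1]; noncomm_ring
      _ = 1 := by rw [hS1, mul_one, w2]
  · calc KP * W' * S' * W * (W' * S * W * MP) = KP * W' * S' * (W * W') * S * W * MP := by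
          noncomm_ring
      _ = KP * W' * (S' * S) * W * MP := by rw [w1]; noncomm_ring
      _ = KP * (W' * W) * MP := by rw [hS2]; noncomm_ring
      _ = 1 := by rw [w2, mul_one, a2]
  · calc N * MG * (KG * N') = N * (MG * KG) * N' := by noncomm_ring
      _ = 1 := by rw [b1, mul_one, n1]
  · calc KG * N' * (N * MG) = KG * (N' * N) * MG := by noncomm_ring
      _ = 1 := by rw [n2, mul_one, b2]
  · rw [map_mul, map_mul, map_mul, map_mul, hS4]
    calc w' * (X1 * Y) * w * p.mapMatrix MP =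
        w' * (w * q.mapMatrix N * w' * (w * q.mapMatrix MG * p.mapMatrix KP * w')) * w *
          p.mapMatrix MP := by rw [hX1, hY]
      _ = (w' * w) * q.mapMatrix N * (w' * w) * q.mapMatrix MG * p.mapMatrix KP * (w' * w) *
          p.mapMatrix MP := by noncomm_ring
      _ = q.mapMatrix N * q.mapMatrix MG * (p.mapMatrix KP * p.mapMatrix MP) := by
          rw [w'w]; noncomm_ring
      _ = q.mapMatrix N * q.mapMatrix MG := by
          rw [← map_mul p.mapMatrix, a2, map_one, mul_one]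
  · rw [← mulVec_mulVec, a3, ← mulVec_mulVec, w3, ← mulVec_mulVec, hS3, ← w3, mulVec_mulVec, w2,
      one_mulVec]
  · rw [← mulVec_mulVec, b3, n3]

end Abs

end Vale.Agent.P246.Q32.U
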