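import Vale.Agent.P246.Q32.UTR

/-!
# Splitting of units of `𝔽_2[D_16]`: the quotient `𝔽_2[D_8]`
-/

set_option linter.all false

namespace Vale.Agent.P246.Q32.U

open Vale.Agent.P246.Q24

/-- `α` is the product of the image of a unit of `ℤ[D_16]` and of a real unit of `ℤ[ζ_16]` -/
def SP (al : AA) : Prop := ∃ (e e' : PP) (h h' : Z16), e * e' = 1 ∧ e' * e = 1 ∧ h * h' = 1 ∧
  conj h = h ∧ conj h' = h' ∧ al = aP e * bG (Dbl.C h)

theorem bG_C (h : Z16) : bG (Dbl.C h) = Dbl.C (rZ h) := by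
  apply Dbl.ext
  · rfl
  · exact map_zero rZ

theorem bG_comm {h : Z16} (hh : conj h = h) (x : AA) : bG (Dbl.C h) * x = x * bG (Dbl.C h) := by
  rw [bG_C]
  exact C_comm (by rw [← rZ_conj, hh]) x

theorem SP.one : SP 1 :=
  ⟨1, 1, 1, 1, one_mul 1, one_mul 1, one_mul 1, map_one _, map_one _, by
    rw [map_one, map_one, map_one, mul_one]⟩

theorem SP.mul {a b : AA} (ha : SP a) (hb : SP b) : SP (a * b) := by
  obtain ⟨e, e', h, h', h1, h2, h3, h4, h5, rfl⟩ := ha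
  obtain ⟨f, f', k, k', k1, k2, k3, k4, k5, rfl⟩ := hb
  refine ⟨e * f, f' * e', h * k, h' * k', ?_, ?_, ?_, ?_, ?_, ?_⟩
  · rw [mul_assoc, ← mul_assoc f, k1, one_mul, h1]
  · rw [mul_assoc, ← mul_assoc e', h2, one_mul, k2]
  · linear_combination (k * k') * h3 + k3
  · rw [map_mul, h4, k4]
  · rw [map_mul, h5, k5]
  · rw [map_mul, map_mul, map_mul, mul_assoc, ← mul_assoc (bG (Dbl.C h)), bG_comm h4 (aP f)]
    simp only [mul_assoc]

/-- an element of `ℤ[C_8]` -/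
def mS (a0 a1 a2 a3 a4 a5 a6 a7 : ℤ) : S8 := ⟨⟨⟨a0, a4⟩, ⟨a2, a6⟩⟩, ⟨⟨a1, a5⟩, ⟨a3, a7⟩⟩⟩

/-- an element of `ℤ[ζ_16]` -/
def mZ (a0 a1 a2 a3 a4 a5 a6 a7 : ℤ) : Z16 := ⟨⟨⟨a0, a4⟩, ⟨a2, a6⟩⟩, ⟨⟨a1, a5⟩, ⟨a3, a7⟩⟩⟩

/-- the data of a split element -/
structure SD where
  e : PP
  e' : PP
  h : Z16
  h' : Z16

/-- validity of the data -/
def SD.ok (d : SD) : Prop := d.e * d.e' = 1 ∧ d.e' * d.e = 1 ∧ d.h * d.h' = 1 ∧
  conj d.h = d.h ∧ conj d.h' = d.h'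

instance (d : SD) : Decidable d.ok := by unfold SD.ok; infer_instance

/-- the element -/
def SD.v (d : SD) : AA := aP d.e * Dbl.C (rZ d.h)
/-- its inverse -/
def SD.w (d : SD) : AA := aP d.e' * Dbl.C (rZ d.h')

theorem SD.sp {d : SD} (h : d.ok) : SP d.v :=
  ⟨d.e, d.e', d.h, d.h', h.1, h.2.1, h.2.2.1, h.2.2.2.1, h.2.2.2.2, by rw [bG_C]; rfl⟩

theorem SD.wv {d : SD} (h : d.ok) : d.w * d.v = 1 := by
  obtain ⟨h1, h2, h3, h4, h5⟩ := h
  rw [SD.w, SD.v, mul_assoc, ← mul_assoc (Dbl.C (rZ d.h')),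
    C_comm (r := rZ d.h') (by rw [← rZ_conj, h5]) (aP d.e), mul_assoc, ← mul_assoc (aP d.e'),
    ← map_mul, h2, map_one, one_mul, ← map_mul, ← map_mul, mul_comm, h3, map_one, map_one]

/-- `x` -/
def gx : PP := ⟨mS 0 1 0 0 0 0 0 0, 0⟩
/-- `x⁻¹` -/
def gx' : PP := ⟨mS 0 0 0 0 0 0 0 1, 0⟩
/-- `y` -/
def gy : PP := ⟨0, 1⟩
/-- `1 + c (1 + x^j y)` -/
def bic (c : S8) (j : S8) : PP := ⟨1 + c, c * j⟩

/-- `1 + ζ + ζ⁻¹` -/
def h1 : Z16 := mZ 1 1 0 0 0 0 0 (-1)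
/-- its inverse -/
def h1' : Z16 := mZ 1 0 (-1) 1 0 (-1) 1 0

/-- bicyclic unit -/
def b1 : PP := bic (mS 0 1 0 0 0 0 0 (-1)) 1
/-- its inverse -/
def b1' : PP := bic (mS 0 (-1) 0 0 0 0 0 1) 1
/-- bicyclic unit -/
def b2 : PP := bic (mS 0 1 0 0 0 0 0 (-1)) (mS 0 1 0 0 0 0 0 0)
/-- its inverse -/
def b2' : PP := bic (mS 0 (-1) 0 0 0 0 0 1) (mS 0 1 0 0 0 0 0 0)
/-- `x²` -/
def g2 : PP := ⟨mS 0 0 1 0 0 0 0 0, 0⟩
/-- `x⁻²` -/
def g2' : PP := ⟨mS 0 0 0 0 0 0 1 0, 0⟩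

def sd1 : SD := ⟨gx, gx', 1, 1⟩
def sd2 : SD := ⟨gy, gy, 1, 1⟩
def sd3 : SD := ⟨g2, g2', 1, 1⟩
def sd4 : SD := ⟨g2, g2', h1, h1'⟩
def sd5 : SD := ⟨b1, b1', 1, 1⟩
def sd6 : SD := ⟨b1 * b2 * g2, g2' * b2' * b1', h1, h1'⟩

theorem sd1_ok : sd1.ok := by decide +kernel
theorem sd2_ok : sd2.ok := by decide +kernel
theorem sd3_ok : sd3.ok := by decide +kernel
theorem sd4_ok : sd4.ok := by decide +kernel
theorem sd5_ok : sd5.ok := by decide +kernel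
theorem sd6_ok : sd6.ok := by decide +kernel

/-- the tests and data for the quotient `𝔽_2[D_8]` -/
def dA : List ((Dbl F4' false → Bool) × SD) :=
  [(fun δ => bo (δ.fst.im.re + δ.fst.im.im + δ.snd.im.re + δ.snd.im.im), sd1),
   (fun δ => bo (δ.snd.re.re + δ.snd.re.im + δ.snd.im.re + δ.snd.im.im), sd2),
   (fun δ => bo (δ.fst.re.im + δ.fst.im.im + δ.snd.re.im + δ.snd.im.im), sd3),
   (fun δ => bo (δ.fst.im.im + δ.snd.im.im), sd4),
   (fun δ => bo (δ.snd.re.im + δ.snd.im.im), sd5),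
   (fun δ => bo δ.snd.im.im, sd6)]

theorem dA_ok : ∀ p ∈ dA, p.2.ok := by
  intro p hp
  simp only [dA, List.mem_cons, List.not_mem_nil, or_false] at hp
  rcases hp with rfl | rfl | rfl | rfl | rfl | rfl
  · exact sd1_ok
  · exact sd2_ok
  · exact sd3_ok
  · exact sd4_ok
  · exact sd5_ok
  · exact sd6_ok

/-- `𝔽_2[C_8] → 𝔽_2[C_4]` -/
def s84 : F8 →+* F4' := Qs.map s42 (Qs.map_gen _ _)
theorem s84_conj (x : F8) : s84 (conj x) = conj (s84 x) := Qs.map_conj _ _ s42_conj x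
/-- `𝔽_2[D_16] → 𝔽_2[D_8]` -/
def r84 : AA →+* Dbl F4' false := Dbl.map s84 s84_conj

/-- the reduction list in the quotient -/
def lB : List ((Dbl F4' false → Bool) × Dbl F4' false) := dA.map fun p => (p.1, r84 p.2.w)

section Generic

variable {C D E : Type} [Ring C] [Ring D] (r : C →+* D) (w : E → C)

theorem rd_cons (p : (C → Bool) × C) (L : List ((C → Bool) × C)) (δ : C) :
    rd (p :: L) δ = rd L (bif p.1 δ then δ * p.2 else δ) := rfl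

theorem rd_map (L : List ((D → Bool) × E)) : ∀ δ : C,
    r (rd (L.map fun p => (fun δ => p.1 (r δ), w p.2)) δ) =
      rd (L.map fun p => (p.1, r (w p.2))) (r δ) := by
  induction L with
  | nil => intro δ; rfl
  | cons p L ih =>
    intro δ
    rw [List.map_cons, List.map_cons, rd_cons, rd_cons, ih]
    congr 1
    cases p.1 (r δ)
    · rfl
    · exact map_mul _ _ _

theorem rd_ind (P : C → Prop) (L : List ((D → Bool) × E))
    (hL : ∀ p ∈ L, ∀ δ, P (δ * w p.2) → P δ) : ∀ δ : C,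
    P (rd (L.map fun p => (fun δ => p.1 (r δ), w p.2)) δ) → P δ := by
  induction L with
  | nil => intro δ h; exact h
  | cons p L ih =>
    intro δ h
    rw [List.map_cons, rd_cons] at h
    have h1 := ih (fun q hq => hL q (List.mem_cons_of_mem _ hq)) _ h
    have h0 := hL p List.mem_cons_self δ
    generalize hb : p.1 (r δ) = b at h1
    cases b with
    | false => exact h1
    | true => exact h0 h1

end Generic

theorem dcan {R : Type} [CommRing R] [Invo R] {b : Bool} (x y z : Dbl R b) (h : y * z = 1) :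
    x * y * z = x := by
  rw [mul_assoc, h, mul_one]

theorem SP_step {d : SD} (h : d.ok) (δ : AA) (hδ : SP (δ * d.w)) : SP δ := by
  have h2 := SP.mul hδ (SD.sp h)
  rw [dcan δ d.w d.v (SD.wv h)] at h2
  exact h2

theorem lB_lift : ∀ δ : Dbl F4' false, augC δ = 1 → (Dbl.nrd δ).im.re = 0 → rd lB δ = 1 := by
  decide +kernel

end Vale.Agent.P246.Q32.U
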